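import Crest.Agent.X212.Neck67.Decay
import Mathlib.Analysis.InnerProductSpace.Basic
import Mathlib.Analysis.SpecificLimits.Basic

-- ▼ part X212/Dec35/Kw
section

/-!
# Row 212, DEC (helper35): operators with exponentially decaying kernels

`Mu A` = multiplication by functions of the time on a Hilbert space.  A Schur test over a partition
of unity turns the boundedness of all conjugates `e^φ K e^(-φ)` into commutator bounds.
-/

set_option autoImplicit false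
noncomputable section
open Set Real
open scoped RealInnerProductSpace

namespace Crest.Agent.X212.Dec35
open Neck67

/-- multiplication by functions of the time -/
structure Mu (A : Type*) [NormedAddCommGroup A] [InnerProductSpace ℝ A] where
  m : (ℝ → ℝ) → A →L[ℝ] A
  one : m 1 = 1
  add : ∀ {b c}, Sm b → Sm c → m (b + c) = m b + m c
  smul : ∀ {b} (a : ℝ), Sm b → m (a • b) = a • m b
  mul : ∀ {b c}, Sm b → Sm c → m (b * c) = m b * m c
  sym : ∀ {b}, Sm b → ∀ u v, ⟪m b u, v⟫ = ⟪u, m b v⟫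
  bd : ∀ {b M}, Sm b → (∀ t, |b t| ≤ M) → ‖m b‖ ≤ M
  loc : Dense {u | ∃ n : ℕ, ∀ b, Sm b → (∀ t : ℝ, |t| ≤ n → b t = 0) → m b u = 0}

/-- the rotation pair on `[0, 1]` -/
theorem exists_rot01 : ∃ c s, RotP c s 0 (0 + 1) := by
  obtain ⟨M, -, h⟩ := exists_rot 0
  obtain ⟨c, s, h, -⟩ := h 0 1 le_rfl
  exact ⟨c, s, h⟩

def rc : ℝ → ℝ := exists_rot01.choose
def rs : ℝ → ℝ := exists_rot01.choose_spec.choose
theorem rotp : RotP rc rs 0 (0 + 1) := exists_rot01.choose_spec.choose_spec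

theorem rsq (t : ℝ) : rc t ^ 2 + rs t ^ 2 = 1 := by
  have := congrFun rotp.sq t
  simp only [Pi.add_apply, Pi.mul_apply, Pi.one_apply] at this
  linarith

/-- the partition of unity `∑ ch i ^ 2 = 1` -/
def ch (i : ℤ) : ℝ → ℝ := fun t => rs (1 * t + (1 - i)) * rc (1 * t + -i)

theorem sm_ch (i : ℤ) : Sm (ch i) :=
  (rotp.sms.aff (a := 1) (by simp) _).mul (rotp.smc.aff (a := 1) (by simp) _)

theorem ch_zero {i : ℤ} {t : ℝ} (h : t ∉ Icc ((i : ℝ) - 1) (i + 1)) : ch i t = 0 := by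
  rw [mem_Icc, not_and_or, not_le, not_le] at h
  rcases h with h | h
  · rw [ch, rotp.s0 _ (by linarith), zero_mul]
  · rw [ch, rotp.c0 _ (by linarith), mul_zero]

theorem abs_ch (i : ℤ) (t : ℝ) : |ch i t| ≤ 1 := by
  have h1 : ∀ s, |rc s| ≤ 1 := fun s => abs_le_one_iff_mul_self_le_one.2 (by nlinarith [rsq s])
  have h2 : ∀ s, |rs s| ≤ 1 := fun s => abs_le_one_iff_mul_self_le_one.2 (by nlinarith [rsq s])
  rw [ch, abs_mul]
  exact mul_le_one₀ (h2 _) (abs_nonneg _) (h1 _)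

theorem ch_sq (i : ℤ) (t : ℝ) : ch i t * ch i t = rs (t - i + 1) ^ 2 - rs (t - i) ^ 2 := by
  have e1 : 1 * t + (1 - (i : ℝ)) = t - i + 1 := by ring
  have e2 : 1 * t + -(i : ℝ) = t - i := by ring
  rw [ch, e1, e2]
  rcases le_total (t - i) 0 with h | h
  · rw [rotp.c1 _ h, rotp.s0 _ h]; ring
  · rw [rotp.s1 _ (by linarith)]; nlinarith [rsq (t - i)]

theorem sum_ch (n : ℕ) {t : ℝ} (ht : |t| ≤ n) :
    ∑ k ∈ Finset.range (2 * n + 2), ch (k - n) t * ch (k - n) t = 1 := by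
  have h := Finset.sum_range_sub' (fun k : ℕ => rs (t + n - k + 1) ^ 2) (2 * n + 2)
  rw [abs_le] at ht
  have e : ∀ k : ℕ, ch (k - n) t * ch (k - n) t =
      rs (t + n - k + 1) ^ 2 - rs (t + n - (k + 1 : ℕ) + 1) ^ 2 := fun k => by
    rw [ch_sq]; push_cast; congr 3 <;> ring
  rw [Finset.sum_congr rfl fun k _ => e k, h, rotp.s1 _ (by push_cast; linarith),
    rotp.s0 _ (by push_cast; linarith)]
  norm_num

theorem sum_geo {μ : ℝ} (h0 : 0 ≤ μ) (h1 : μ < 1) (s : Finset ℕ) (i : ℕ) :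
    ∑ j ∈ s, μ ^ ((i : ℤ) - j).natAbs ≤ 2 * (1 - μ)⁻¹ := by
  have hs := hasSum_geometric_of_lt_one h0 h1
  have key : ∀ (t : Finset ℕ) (f : ℕ → ℕ), Set.InjOn f t → ∑ j ∈ t, μ ^ f j ≤ (1 - μ)⁻¹ :=
    fun t f hf => by
      rw [← Finset.sum_image (f := fun n => μ ^ n) hf]
      exact sum_le_hasSum _ (fun _ _ => by positivity) hs
  rw [← Finset.sum_filter_add_sum_filter_not s (fun j => j ≤ i), two_mul]
  refine add_le_add (key _ _ fun a ha b hb e => ?_) (key _ _ fun a ha b hb e => ?_)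
  · simp only [Finset.coe_filter, mem_ofPred_eq] at ha hb
    omega
  · simp only [Finset.coe_filter, mem_ofPred_eq] at ha hb
    omega

namespace Mu
variable {A : Type*} [NormedAddCommGroup A] [InnerProductSpace ℝ A] (M : Mu A)
  {b c : ℝ → ℝ}

theorem zero : M.m 0 = 0 := by
  have := M.smul 0 Sm.one
  simpa using this

theorem neg (hb : Sm b) : M.m (-b) = -M.m b := by
  have := M.smul (-1) hb
  simpa using this

theorem sub (hb : Sm b) (hc : Sm c) : M.m (b - c) = M.m b - M.m c := by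
  rw [sub_eq_add_neg, M.add hb hc.neg, M.neg hc, sub_eq_add_neg]

theorem const (a : ℝ) : M.m (fun _ => a) = a • 1 := by
  rw [← M.one, ← M.smul a Sm.one]; congr 1; ext; simp

theorem mm (hb : Sm b) (hc : Sm c) (u : A) : M.m b (M.m c u) = M.m (b * c) u := by
  rw [M.mul hb hc]; rfl

theorem le (hb : Sm b) {a : ℝ} (h : ∀ t, |b t| ≤ a) (u : A) : ‖M.m b u‖ ≤ a * ‖u‖ :=
  (M.m b).le_of_opNorm_le (M.bd hb h) u

theorem sum {κ : Type*} (s : Finset κ) {f : κ → ℝ → ℝ} (hf : ∀ k, Sm (f k)) :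
    Sm (∑ k ∈ s, f k) ∧ M.m (∑ k ∈ s, f k) = ∑ k ∈ s, M.m (f k) := by
  classical
  induction s using Finset.induction_on with
  | empty => exact ⟨by simpa using Sm.zero, by simpa using M.zero⟩
  | insert a s ha ih =>
    rw [Finset.sum_insert ha, Finset.sum_insert ha, M.add (hf a) ih.1, ih.2]
    exact ⟨(hf a).add ih.1, rfl⟩

theorem eq_sum {n : ℕ} {u : A} (hu : ∀ b, Sm b → (∀ t : ℝ, |t| ≤ n → b t = 0) → M.m b u = 0) :
    u = ∑ k ∈ Finset.range (2 * n + 2), M.m (ch (k - n)) (M.m (ch (k - n)) u) := by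
  obtain ⟨h1, h2⟩ := M.sum (Finset.range (2 * n + 2))
    (f := fun k : ℕ => ch (k - n) * ch (k - n)) fun k => (sm_ch _).mul (sm_ch _)
  have := hu _ (Sm.one.sub h1) fun t ht => by
    simp only [Pi.sub_apply, Pi.one_apply, Finset.sum_apply, Pi.mul_apply, sum_ch n ht, sub_self]
  rw [M.sub Sm.one h1, M.one, h2] at this
  simp only [sub_apply, one_apply_eq_self, sum_apply, sub_eq_zero] at this
  rw [Finset.sum_congr rfl fun k _ => M.mm (sm_ch _) (sm_ch _) u]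
  exact this

theorem sum_sq {n : ℕ} {u : A} (hu : ∀ b, Sm b → (∀ t : ℝ, |t| ≤ n → b t = 0) → M.m b u = 0) :
    ∑ k ∈ Finset.range (2 * n + 2), ‖M.m (ch (k - n)) u‖ ^ 2 = ‖u‖ ^ 2 := by
  conv_rhs => rw [← real_inner_self_eq_norm_sq, congrArg (fun v => ⟪v, u⟫) (M.eq_sum hu)]
  simp only [sum_inner]
  exact Finset.sum_congr rfl fun k _ => by
    rw [M.sym (sm_ch _), real_inner_self_eq_norm_sq]

/-- block bounds -/
def Blk (T : A →L[ℝ] A) (a μ : ℝ) : Prop :=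
  ∀ i j : ℤ, ‖M.m (ch i) * T * M.m (ch j)‖ ≤ a * μ ^ (i - j).natAbs

/-- **Schur test** -/
theorem schur {T : A →L[ℝ] A} {a μ : ℝ} (ha : 0 ≤ a) (h0 : 0 ≤ μ) (h1 : μ < 1)
    (h : M.Blk T a μ) : ‖T‖ ≤ 2 * a * (1 - μ)⁻¹ := by
  set W := 2 * a * (1 - μ)⁻¹ with hW
  have hW0 : 0 ≤ W := by have : 0 < 1 - μ := by linarith
                         positivity
  have key : ∀ p : A × A, ⟪T p.1, p.2⟫ ≤ W / 2 * (‖p.1‖ ^ 2 + ‖p.2‖ ^ 2) := by
    intro p
    refine Dense.induction (P := fun p : A × A => ⟪T p.1, p.2⟫ ≤ W / 2 * (‖p.1‖ ^ 2 + ‖p.2‖ ^ 2))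
      (M.loc.prod M.loc) ?_ (isClosed_le (by fun_prop) (by fun_prop)) p
    rintro ⟨u, v⟩ ⟨⟨n₁, hu⟩, ⟨n₂, hv⟩⟩
    set n := max n₁ n₂
    have hu' : ∀ b, Sm b → (∀ t : ℝ, |t| ≤ n → b t = 0) → M.m b u = 0 := fun b hb h =>
      hu b hb fun t ht => h t (ht.trans (by exact_mod_cast le_max_left _ _))
    have hv' : ∀ b, Sm b → (∀ t : ℝ, |t| ≤ n → b t = 0) → M.m b v = 0 := fun b hb h =>
      hv b hb fun t ht => h t (ht.trans (by exact_mod_cast le_max_right _ _))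
    set s := Finset.range (2 * n + 2)
    set U : ℕ → ℝ := fun k => ‖M.m (ch (k - n)) u‖
    set V : ℕ → ℝ := fun k => ‖M.m (ch (k - n)) v‖
    have e : ⟪T u, v⟫ = ∑ i ∈ s, ∑ j ∈ s, ⟪(M.m (ch (i - n)) * T * M.m (ch (j - n)))
        (M.m (ch (j - n)) u), M.m (ch (i - n)) v⟫ := by
      conv_lhs => rw [M.eq_sum hu', M.eq_sum hv']
      simp only [inner_sum, map_sum, sum_inner]
      refine Finset.sum_congr rfl fun i _ => Finset.sum_congr rfl fun j _ => ?_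
      rw [← M.sym (sm_ch _)]; rfl
    have b1 : ∀ i j : ℕ, ⟪(M.m (ch (i - n)) * T * M.m (ch (j - n))) (M.m (ch (j - n)) u),
        M.m (ch (i - n)) v⟫ ≤ a / 2 * (μ ^ ((j : ℤ) - i).natAbs * U j ^ 2) +
          a / 2 * (μ ^ ((i : ℤ) - j).natAbs * V i ^ 2) := fun i j => by
      have h2 := h (i - n) (j - n)
      rw [show (i : ℤ) - n - (j - n) = i - j by ring] at h2
      rw [show ((j : ℤ) - i).natAbs = ((i : ℤ) - j).natAbs by omega]
      refine (real_inner_le_norm _ _).trans ?_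
      have h3 := ContinuousLinearMap.le_of_opNorm_le _ h2 (M.m (ch (j - n)) u)
      have h4 : 0 ≤ a * μ ^ ((i : ℤ) - j).natAbs := by positivity
      have h5 := mul_le_mul_of_nonneg_right h3 (norm_nonneg (M.m (ch (i - n)) v))
      have h6 := mul_le_mul_of_nonneg_left (two_mul_le_add_sq (U j) (V i)) h4
      simp only [U, V] at h6 ⊢
      nlinarith
    have b2 : ∀ (X : ℕ → ℝ), ∑ i ∈ s, ∑ j ∈ s, a / 2 * (μ ^ ((i : ℤ) - j).natAbs * X i ^ 2) ≤
        W / 2 * ∑ i ∈ s, X i ^ 2 := fun X => by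
      rw [Finset.mul_sum]
      refine Finset.sum_le_sum fun i _ => ?_
      rw [← Finset.mul_sum, ← Finset.sum_mul]
      have := mul_le_mul_of_nonneg_right (sum_geo h0 h1 s i) (sq_nonneg (X i))
      have := mul_le_mul_of_nonneg_left this (show 0 ≤ a / 2 by positivity)
      rw [hW]; nlinarith
    show ⟪T u, v⟫ ≤ W / 2 * (‖u‖ ^ 2 + ‖v‖ ^ 2)
    rw [e, ← M.sum_sq hu', ← M.sum_sq hv', mul_add]
    refine (Finset.sum_le_sum fun i _ => Finset.sum_le_sum fun j _ => b1 i j).trans ?_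
    simp only [Finset.sum_add_distrib]
    exact add_le_add (by rw [Finset.sum_comm]; exact b2 U) (b2 V)
  refine T.opNorm_le_bound hW0 fun u => ?_
  rcases eq_or_lt_of_le (norm_nonneg (T u)) with h2 | h2
  · rw [← h2]; positivity
  rcases eq_or_lt_of_le (norm_nonneg u) with h3 | h3
  · rw [norm_eq_zero.1 h3.symm] at h2; simp at h2
  have := key (u, (‖u‖ / ‖T u‖) • T u)
  simp only [inner_smul_right, real_inner_self_eq_norm_sq, norm_smul, norm_div, norm_norm,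
    div_mul_cancel₀ _ h2.ne'] at this
  rw [show ‖u‖ / ‖T u‖ * ‖T u‖ ^ 2 = ‖T u‖ * ‖u‖ by field_simp] at this
  exact le_of_mul_le_mul_right (by nlinarith) h3

/-- all conjugates by weights of slope `≤ d` are bounded by `C` -/
def KW (K : A →L[ℝ] A) (d C : ℝ) : Prop :=
  ∀ φ, Sm φ → Bd 0 (deriv φ) d → ‖M.m (ex φ) * K * M.m (ex (-φ))‖ ≤ C

variable {M} {K : A →L[ℝ] A} {d C : ℝ}

theorem KW.sep (h : M.KW K d C) {φ : ℝ → ℝ} (hφ : Sm φ) (hd : Bd 0 (deriv φ) d) (hb : Sm b)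
    (hc : Sm c) {β γ D : ℝ} (h1 : ∀ t, |b t| ≤ β) (h2 : ∀ t, |c t| ≤ γ)
    (h3 : ∀ t, b t ≠ 0 → D ≤ φ t) (h4 : ∀ t, c t ≠ 0 → φ t ≤ 0) :
    ‖M.m b * K * M.m c‖ ≤ C * (β * γ) * exp (-D) := by
  have e1 : M.m b = M.m (b * ex (-φ)) * M.m (ex φ) := by
    rw [← M.mul (hb.mul hφ.neg.ex) hφ.ex, mul_assoc, mul_comm (ex _), ex_mul_neg, mul_one]
  have e2 : M.m c = M.m (ex (-φ)) * M.m (ex φ * c) := by
    rw [← M.mul hφ.neg.ex (hφ.ex.mul hc), ← mul_assoc, mul_comm (ex _), ex_mul_neg, one_mul]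
  have β0 : 0 ≤ β := (abs_nonneg _).trans (h1 0)
  have γ0 : 0 ≤ γ := (abs_nonneg _).trans (h2 0)
  have n1 : ‖M.m (b * ex (-φ))‖ ≤ β * exp (-D) := M.bd (hb.mul hφ.neg.ex) fun t => by
    by_cases h0 : b t = 0
    · simp only [Pi.mul_apply, h0, zero_mul, abs_zero]; positivity
    · simp only [Pi.mul_apply, abs_mul, ex, abs_exp, Pi.neg_apply]
      exact mul_le_mul (h1 t) (exp_le_exp.2 (neg_le_neg (h3 t h0))) (exp_pos _).le β0
  have n2 : ‖M.m (ex φ * c)‖ ≤ γ := M.bd (hφ.ex.mul hc) fun t => by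
    by_cases h0 : c t = 0
    · simp only [Pi.mul_apply, h0, mul_zero, abs_zero]; positivity
    · simp only [Pi.mul_apply, abs_mul, ex, abs_exp]
      exact (mul_le_mul (exp_le_one_iff.2 (h4 t h0)) (h2 t) (abs_nonneg _) zero_le_one).trans_eq
        (one_mul _)
  have n3 := h φ hφ hd
  have C0 : 0 ≤ C := (norm_nonneg _).trans n3
  have e : M.m b * K * M.m c =
      M.m (b * ex (-φ)) * (M.m (ex φ) * K * M.m (ex (-φ))) * M.m (ex φ * c) := by
    conv_lhs => rw [e1, e2]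
    simp only [mul_assoc]
  rw [e]
  refine (norm_mul_le _ _).trans ((mul_le_mul ((norm_mul_le _ _).trans
    (mul_le_mul n1 n3 (norm_nonneg _) (by positivity))) n2 (norm_nonneg _) (by positivity)).trans_eq
    (by ring))

theorem KW.norm_le (h : M.KW K d C) (hd : 0 ≤ d) : ‖K‖ ≤ C := by
  have := h 0 Sm.zero (fun t => by simpa using hd)
  have e : ex 0 = 1 := by ext; simp [ex]
  rwa [neg_zero, e, M.one, one_mul, mul_one] at this

/-- `a` is bounded by `β` near `i` -/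
def Nr (i : ℤ) (a : ℝ → ℝ) (β : ℝ) : Prop :=
  Sm a ∧ ∀ t ∈ Icc ((i : ℝ) - 1) (i + 1), |a t| ≤ β

theorem KW.blk (h : M.KW K d C) (hd : 0 ≤ d) {i j : ℤ} {β γ : ℝ} (hb : Nr i b β)
    (hc : Nr j c γ) : ‖M.m (ch i) * (M.m b * K * M.m c) * M.m (ch j)‖ ≤
      C * (β * γ) * exp (d / cS 0 * (3 - (i - j).natAbs)) := by
  have β0 : 0 ≤ β := (abs_nonneg _).trans (hb.2 i ⟨by linarith, by linarith⟩)
  have γ0 : 0 ≤ γ := (abs_nonneg _).trans (hc.2 j ⟨by linarith, by linarith⟩)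
  have cS0 : 0 < cS 0 := lt_of_lt_of_le one_pos (one_le_cS 0)
  have C0 : 0 ≤ C := (norm_nonneg _).trans (h.norm_le hd)
  have e : M.m (ch i) * (M.m b * K * M.m c) * M.m (ch j) = M.m (ch i * b) * K * M.m (c * ch j) := by
    rw [M.mul (sm_ch i) hb.1, M.mul hc.1 (sm_ch j)]; simp only [mul_assoc]
  have h1 : ∀ t, |(ch i * b) t| ≤ β := fun t => by
    by_cases ht : t ∈ Icc ((i : ℝ) - 1) (i + 1)
    · rw [Pi.mul_apply, abs_mul]
      exact (mul_le_mul (abs_ch i t) (hb.2 t ht) (abs_nonneg _) zero_le_one).trans_eq (one_mul _)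
    · simp [ch_zero ht, β0]
  have h2 : ∀ t, |(c * ch j) t| ≤ γ := fun t => by
    by_cases ht : t ∈ Icc ((j : ℝ) - 1) (j + 1)
    · rw [Pi.mul_apply, abs_mul]
      exact (mul_le_mul (hc.2 t ht) (abs_ch j t) (abs_nonneg _) γ0).trans_eq (mul_one _)
    · simp [ch_zero ht, γ0]
  have s1 : ∀ t, (ch i * b) t ≠ 0 → t ∈ Icc ((i : ℝ) - 1) (i + 1) := fun t ht => by
    by_contra h'; exact ht (by simp [ch_zero h'])
  have s2 : ∀ t, (c * ch j) t ≠ 0 → t ∈ Icc ((j : ℝ) - 1) (j + 1) := fun t ht => by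
    by_contra h'; exact ht (by simp [ch_zero h'])
  have hB := (sm_ch i).mul hb.1
  have hC := hc.1.mul (sm_ch j)
  have d0 : 0 ≤ d / cS 0 := by positivity
  have slope : ∀ {a : ℝ} {w : ℝ → ℝ}, 1 ≤ a → Bd 0 (deriv w) (a⁻¹ * cS 0) →
      Bd 0 (deriv ((d / cS 0 * a) • w)) d := fun {a w} ha hw => by
    have e : deriv ((d / cS 0 * a) • w) = (d / cS 0 * a) • deriv w := by
      ext t; exact deriv_const_smul_field _ _
    rw [e]
    refine (hw.smul _).mono (le_of_eq ?_)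
    rw [abs_of_nonneg (by positivity)]; field_simp
  rw [e]
  by_cases h3 : (i - j).natAbs ≤ 3
  · refine (h.sep Sm.zero (fun t => by simpa using hd) hB hC h1 h2 (D := 0) (fun _ _ => le_rfl)
      fun _ _ => le_rfl).trans (mul_le_mul_of_nonneg_left (exp_le_exp.2 ?_) (by positivity))
    have : ((i - j).natAbs : ℝ) ≤ 3 := by exact_mod_cast h3
    rw [neg_zero]; exact mul_nonneg d0 (by linarith)
  set a : ℝ := (i - j).natAbs - 2 with ha
  have a1 : 1 ≤ a := by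
    have : (3 : ℝ) ≤ (i - j).natAbs := by exact_mod_cast (not_le.1 h3).le
    linarith
  have fin : C * (β * γ) * exp (-(d / cS 0 * a)) ≤
      C * (β * γ) * exp (d / cS 0 * (3 - (i - j).natAbs)) :=
    mul_le_mul_of_nonneg_left (exp_le_exp.2 (by rw [ha]; nlinarith)) (by positivity)
  rcases le_total j i with hij | hij
  · have e : ((i - j).natAbs : ℝ) = i - j := by
      rw [Nat.cast_natAbs, abs_of_nonneg (by omega)]; push_cast; ring
    refine (h.sep ((sm_up a1 (j + 1)).smul _) (slope a1 (bd_deriv_up 0 a1 _)) hB hC h1 h2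
      (fun t ht => ?_) fun t ht => ?_).trans fin
    · rw [Pi.smul_apply, up_one (by linarith) (by have := (s1 t ht).1; linarith)]; simp
    · rw [Pi.smul_apply, up_zero (by linarith) (s2 t ht).2]; simp
  · have e : ((i - j).natAbs : ℝ) = j - i := by
      rw [Nat.cast_natAbs, abs_of_nonpos (by omega)]; push_cast; ring
    refine (h.sep ((sm_dn a1 (j - 1)).smul _) (slope a1 (bd_deriv_dn 0 a1 _)) hB hC h1 h2
      (fun t ht => ?_) fun t ht => ?_).trans fin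
    · rw [Pi.smul_apply, dn_one (by linarith) (by have := (s1 t ht).2; linarith)]; simp
    · rw [Pi.smul_apply, dn_zero (by linarith) (s2 t ht).1]; simp

end Mu

end Crest.Agent.X212.Dec35
end
end

-- ▼ part X212/Dec35/Com

/-!
# Row 212, DEC (helper35): commutator bounds from `KW`

`R = e^ψ K e^(-ψ) - K` is `O(δ)` and the symmetric part of `ς R` is `O(δ² + εδ)` when
`|ψ'| ≤ δ`, `|ς'| ≤ ε`, `|ς| ≤ 1`.
-/

set_option autoImplicit false
noncomputable section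
open Set Real
open scoped RealInnerProductSpace

namespace Crest.Agent.X212.Dec35
open Neck67

def cw (e : ℝ) : ℝ := 64 / e ^ 2 * exp (4 * e)

/-- the constant of the commutator bounds -/
def cR (d C : ℝ) : ℝ := 2 * (C * cw (d / cS 0)) * (1 - exp (-(d / cS 0 / 4)))⁻¹

theorem poly {e : ℝ} (he : 0 < e) (n : ℕ) :
    ((n : ℝ) + 1) ^ 2 * exp (e * (n + 1) / 2) * exp (e * (3 - n)) ≤ cw e * exp (-(e / 4)) ^ n := by
  have h1 : e * (n + 1) / 8 ≤ exp (e * (n + 1) / 8) := by linarith [add_one_le_exp (e * (n + 1) / 8)]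
  have h2 : (e * (n + 1) / 8) ^ 2 ≤ exp (e * (n + 1) / 4) := by
    refine (pow_le_pow_left₀ (by positivity) h1 2).trans_eq ?_
    rw [← exp_nat_mul]; congr 1; push_cast; ring
  have h3 : ((n : ℝ) + 1) ^ 2 ≤ 64 / e ^ 2 * exp (e * (n + 1) / 4) := by
    rw [div_mul_eq_mul_div, le_div_iff₀ (by positivity)]; nlinarith
  rw [cw, ← exp_nat_mul, mul_assoc, mul_assoc, ← exp_add, ← exp_add]
  refine (mul_le_mul_of_nonneg_right h3 (exp_pos _).le).trans ?_
  rw [mul_assoc, ← exp_add]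
  exact mul_le_mul_of_nonneg_left (exp_le_exp.2 (by nlinarith)) (by positivity)

theorem abs_exp_sub {x z : ℝ} (h : |x| ≤ z) : |exp x - 1| ≤ z * exp z := by
  have hz := (abs_nonneg x).trans h
  rw [abs_le] at h ⊢
  have h1 := add_one_le_exp x
  have h2 := add_one_le_exp (-x)
  have h3 : exp x ≤ exp z := exp_le_exp.2 h.2
  have h4 : exp x * exp (-x) = 1 := by rw [← exp_add]; simp
  have h5 := exp_pos x
  have h6 := one_le_exp hz
  constructor
  · nlinarith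
  · nlinarith

theorem abs_cosh {x z : ℝ} (h : |x| ≤ z) : |exp x + exp (-x) - 2| ≤ z ^ 2 * exp (2 * z) := by
  have h4 : exp x * exp (-x) = 1 := by rw [← exp_add]; simp
  have e : exp x + exp (-x) - 2 = -((exp x - 1) * (exp (-x) - 1)) := by linarith
  have hz := (abs_nonneg x).trans h
  rw [e, abs_neg, abs_mul]
  refine (mul_le_mul (abs_exp_sub h) (abs_exp_sub (z := z) (by rwa [abs_neg])) (abs_nonneg _)
    (by positivity)).trans_eq ?_
  rw [two_mul, exp_add]; ring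

namespace Mu
variable {A : Type*} [NormedAddCommGroup A] [InnerProductSpace ℝ A] {M : Mu A}
  {K : A →L[ℝ] A} {d C : ℝ} {i j l : ℤ} {b c ψ ς : ℝ → ℝ} {β γ δ ε z : ℝ}

theorem Nr.one (l : ℤ) : Nr l 1 1 := ⟨Sm.one, fun _ _ => by simp⟩

theorem Nr.mul (hb : Nr l b β) (hc : Nr l c γ) : Nr l (b * c) (β * γ) :=
  ⟨hb.1.mul hc.1, fun t ht => by
    rw [Pi.mul_apply, abs_mul]
    exact mul_le_mul (hb.2 t ht) (hc.2 t ht) (abs_nonneg _) ((abs_nonneg _).trans (hb.2 t ht))⟩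

theorem Nr.neg (hb : Nr l b β) : Nr l (-b) β := ⟨hb.1.neg, fun t ht => by simpa using hb.2 t ht⟩

theorem Nr.ex (hb : Nr l b z) : Nr l (ex b) (exp z) := ⟨hb.1.ex, fun t ht => by
  rw [Neck67.ex, abs_exp]; exact exp_le_exp.2 ((le_abs_self _).trans (hb.2 t ht))⟩

theorem Nr.ex1 (hb : Nr l b z) : Nr l (Neck67.ex b - 1) (z * exp z) :=
  ⟨hb.1.ex.sub Sm.one, fun t ht => abs_exp_sub (hb.2 t ht)⟩

theorem Nr.ex2 (hb : Nr l b z) :
    Nr l (Neck67.ex b + Neck67.ex (-b) - (1 + 1)) (z ^ 2 * exp (2 * z)) :=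
  ⟨(hb.1.ex.add hb.1.neg.ex).sub (Sm.one.add Sm.one), fun t ht => by
    have := abs_cosh (hb.2 t ht)
    simpa [Neck67.ex, one_add_one_eq_two] using this⟩

theorem nr_ctr (hb : Sm b) (h : Bd 0 (deriv b) β) (i : ℤ) {n : ℕ} (hl : (i - l).natAbs ≤ n) :
    Nr l (b - fun _ => b i) (β * (n + 1)) := ⟨hb.sub (Sm.const _), fun t ht => by
  refine (abs_sub_le_of_bd hb h _ _).trans (mul_le_mul_of_nonneg_left ?_ h.nonneg)
  have h1 : ((i - l).natAbs : ℝ) ≤ n := by exact_mod_cast hl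
  rw [Nat.cast_natAbs] at h1
  push_cast at h1
  rw [abs_le] at h1 ⊢
  constructor <;> linarith [ht.1, ht.2]⟩

variable (M d C) in
/-- one block is bounded by `w` times the standard bound -/
def Tb (i j : ℤ) (T : A →L[ℝ] A) (w : ℝ) : Prop :=
  ‖M.m (ch i) * T * M.m (ch j)‖ ≤
    w * (C * cw (d / cS 0)) * exp (-(d / cS 0 / 4)) ^ (i - j).natAbs

theorem Tb.add {T T' : A →L[ℝ] A} {w w' : ℝ} (h : Tb M d C i j T w) (h' : Tb M d C i j T' w') :
    Tb M d C i j (T + T') (w + w') := by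
  rw [Tb, mul_add, add_mul, add_mul, add_mul]
  exact (norm_add_le _ _).trans (add_le_add h h')

theorem Tb.smul {T : A →L[ℝ] A} {w a : ℝ} (h : Tb M d C i j T w) (ha : |a| ≤ 1) :
    Tb M d C i j (a • T) w := by
  rw [Tb, mul_smul_comm, smul_mul_assoc, norm_smul]
  exact (mul_le_of_le_one_left (norm_nonneg _) ha).trans h

theorem KW.tb (h : M.KW K d C) (hd : 0 < d) (hb : Nr i b β) (hc : Nr j c γ) {w : ℝ} (hw : 0 ≤ w)
    (hz : z = ((i - j).natAbs : ℝ) + 1) (hδ : δ ≤ d / cS 0 / 4)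
    (hle : β * γ ≤ w * (z ^ 2 * exp (2 * (δ * z)))) : Tb M d C i j (M.m b * K * M.m c) w := by
  have cS0 : 0 < cS 0 := lt_of_lt_of_le one_pos (one_le_cS 0)
  have C0 : 0 ≤ C := (norm_nonneg _).trans (h.norm_le hd.le)
  have z0 : 0 ≤ z := by rw [hz]; positivity
  refine (h.blk hd.le hb hc).trans ?_
  have h1 := poly (show 0 < d / cS 0 by positivity) (i - j).natAbs
  rw [← hz] at h1
  have h2 : exp (2 * (δ * z)) ≤ exp (d / cS 0 * z / 2) := exp_le_exp.2 (by nlinarith)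
  have h3 : β * γ ≤ w * (z ^ 2 * exp (d / cS 0 * z / 2)) := hle.trans (by gcongr)
  calc _ ≤ C * (w * (z ^ 2 * exp (d / cS 0 * z / 2))) * exp (d / cS 0 * (3 - (i - j).natAbs)) := by
        gcongr
    _ = C * w * (z ^ 2 * exp (d / cS 0 * z / 2) * exp (d / cS 0 * (3 - (i - j).natAbs))) := by ring
    _ ≤ C * w * (cw (d / cS 0) * exp (-(d / cS 0 / 4)) ^ (i - j).natAbs) := by gcongr
    _ = _ := by ring

theorem KW.norm_of_tb (h : M.KW K d C) (hd : 0 < d) {T : A →L[ℝ] A} {w : ℝ} (hw : 0 ≤ w)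
    (hT : ∀ i j, Tb M d C i j T w) : ‖T‖ ≤ w * cR d C := by
  have cS0 : 0 < cS 0 := lt_of_lt_of_le one_pos (one_le_cS 0)
  have C0 : 0 ≤ C := (norm_nonneg _).trans (h.norm_le hd.le)
  refine (M.schur (by unfold cw; positivity) (exp_pos _).le
    (exp_lt_one_iff.2 (by rw [neg_lt_zero]; positivity)) hT).trans_eq ?_
  rw [cR]; ring

theorem KW.cR_nonneg (h : M.KW K d C) (hd : 0 < d) : 0 ≤ cR d C := by
  have := h.norm_of_tb hd (T := 0) zero_le_one fun i j => by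
    have C0 : 0 ≤ C := (norm_nonneg _).trans (h.norm_le hd.le)
    simp only [Tb, mul_zero, zero_mul, norm_zero, cw]; positivity
  simpa using this

variable (M K) in
/-- the error of the conjugation -/
def cj (ψ : ℝ → ℝ) : A →L[ℝ] A := M.m (ex ψ) * K * M.m (ex (-ψ)) - K

theorem cj_ctr (hψ : Sm ψ) (a : ℝ) : cj M K ψ = cj M K (ψ - fun _ => a) := by
  have e1 : ex (ψ - fun _ => a) = exp (-a) • ex ψ := by
    ext t; simp [ex, ← exp_add, sub_eq_neg_add]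
  have e2 : ex (-(ψ - fun _ => a)) = exp a • ex (-ψ) := by
    ext t; simp [ex, ← exp_add, sub_eq_add_neg]
  rw [cj, cj, e1, e2, M.smul _ hψ.ex, M.smul _ hψ.neg.ex, smul_mul_assoc, smul_mul_assoc,
    mul_smul_comm, smul_smul, ← exp_add]
  simp

theorem cj_eq (hψ : Sm ψ) : cj M K ψ =
    M.m (ex ψ - 1) * K * M.m (ex (-ψ)) + M.m 1 * K * M.m (ex (-ψ) - 1) := by
  rw [M.sub hψ.ex Sm.one, M.sub hψ.neg.ex Sm.one, M.one, cj]; noncomm_ring

/-- the conjugation error is of first order -/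
theorem KW.norm_cj (h : M.KW K d C) (hd : 0 < d) (hψ : Sm ψ) (bψ : Bd 0 (deriv ψ) δ)
    (hδ : δ ≤ d / cS 0 / 4) : ‖cj M K ψ‖ ≤ 2 * δ * cR d C := by
  have δ0 := bψ.nonneg
  refine h.norm_of_tb hd (by positivity) fun i j => ?_
  set z : ℝ := ((i - j).natAbs : ℝ) + 1 with hz
  have z1 : 1 ≤ z := by rw [hz]; linarith [Nat.cast_nonneg (α := ℝ) (i - j).natAbs]
  have xi : Nr i _ (δ * z) := nr_ctr hψ bψ i (n := (i - j).natAbs) (by simp)
  have xj : Nr j _ (δ * z) := nr_ctr hψ bψ i (n := (i - j).natAbs) le_rfl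
  have e1 : exp (2 * (δ * z)) = exp (δ * z) * exp (δ * z) := by rw [two_mul, exp_add]
  have e2 : 1 ≤ exp (δ * z) := one_le_exp (by positivity)
  have e3 : z * exp (δ * z) * exp (δ * z) ≤ z ^ 2 * (exp (δ * z) * exp (δ * z)) := by
    have : 0 ≤ z * (z - 1) * (exp (δ * z) * exp (δ * z)) := by
      have : 0 ≤ z - 1 := by linarith
      positivity
    nlinarith
  have e4 : z * exp (δ * z) ≤ z * exp (δ * z) * exp (δ * z) :=
    le_mul_of_one_le_right (by positivity) e2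
  rw [cj_ctr hψ (ψ i), cj_eq xi.1, two_mul]
  refine (h.tb hd xi.ex1 xj.neg.ex δ0 hz hδ ?_).add (h.tb hd (Nr.one i) xj.neg.ex1 δ0 hz hδ ?_)
  · rw [e1]; nlinarith [mul_le_mul_of_nonneg_left e3 δ0]
  · rw [e1]; nlinarith [mul_le_mul_of_nonneg_left (e4.trans e3) δ0]

/-- the symmetric part of `ς R` -/
theorem KW.norm_sym (h : M.KW K d C) (hd : 0 < d) (hψ : Sm ψ) (bψ : Bd 0 (deriv ψ) δ)
    (hδ : δ ≤ d / cS 0 / 4) (hς : Sm ς) (bς : Bd 0 (deriv ς) ε) (h1 : ∀ t, |ς t| ≤ 1) :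
    ‖M.m ς * cj M K ψ + cj M K (-ψ) * M.m ς‖ ≤ (4 * δ ^ 2 + 4 * (ε * δ)) * cR d C := by
  have δ0 := bψ.nonneg
  have ε0 := bς.nonneg
  refine h.norm_of_tb hd (by positivity) fun i j => ?_
  set z : ℝ := ((i - j).natAbs : ℝ) + 1 with hz
  have z1 : 1 ≤ z := by rw [hz]; linarith [Nat.cast_nonneg (α := ℝ) (i - j).natAbs]
  have xi : Nr i _ (δ * z) := nr_ctr hψ bψ i (n := (i - j).natAbs) (by simp)
  have xj : Nr j _ (δ * z) := nr_ctr hψ bψ i (n := (i - j).natAbs) le_rfl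
  have si : Nr i _ (ε * z) := nr_ctr hς bς i (n := (i - j).natAbs) (by simp)
  have sj : Nr j _ (ε * z) := nr_ctr hς bς i (n := (i - j).natAbs) le_rfl
  have e1 : exp (2 * (δ * z)) = exp (δ * z) * exp (δ * z) := by rw [two_mul, exp_add]
  have e2 : 1 ≤ exp (δ * z) := one_le_exp (by positivity)
  have e4 : exp (δ * z) ≤ exp (δ * z) * exp (δ * z) := le_mul_of_one_le_right (by positivity) e2
  have e5 : 0 ≤ ε * δ * z ^ 2 := by positivity
  have e6 := mul_le_mul_of_nonneg_left e4 e5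
  have en : (-ψ - fun _ => -ψ i) = -(ψ - fun _ => ψ i) := by ext; simp; ring
  rw [cj_ctr hψ (ψ i), cj_ctr hψ.neg (-ψ i), en]
  set x := ψ - fun _ => ψ i
  set s := ς - fun _ => ς i
  have es : M.m ς = ς i • 1 + M.m s := by
    rw [M.sub hς (Sm.const _), M.const]; abel
  have hx := xi.1
  have hs := si.1
  have e : M.m ς * cj M K x + cj M K (-x) * M.m ς =
      ς i • (M.m (ex x - 1) * K * M.m (ex (-x) - 1) + M.m (ex (-x) - 1) * K * M.m (ex x - 1) +
        M.m (ex x + ex (-x) - (1 + 1)) * K * M.m 1 + M.m 1 * K * M.m (ex x + ex (-x) - (1 + 1))) +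
      (M.m (s * (ex x - 1)) * K * M.m (ex (-x)) + M.m s * K * M.m (ex (-x) - 1) +
        M.m (ex (-x)) * K * M.m ((ex x - 1) * s) + M.m (ex (-x) - 1) * K * M.m s) := by
    rw [M.mul hs (hx.ex.sub Sm.one), M.mul (hx.ex.sub Sm.one) hs,
      M.sub (hx.ex.add hx.neg.ex) (Sm.one.add Sm.one), M.add hx.ex hx.neg.ex, M.add Sm.one Sm.one,
      M.sub hx.ex Sm.one, M.sub hx.neg.ex Sm.one, M.one, es, cj, cj, neg_neg]
    simp only [add_mul, mul_add, sub_mul, mul_sub, smul_mul_assoc, mul_smul_comm, one_mul, mul_one,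
      smul_add, smul_sub, mul_assoc]
    abel
  rw [e, show 4 * δ ^ 2 + 4 * (ε * δ) = δ ^ 2 + δ ^ 2 + δ ^ 2 + δ ^ 2 +
    (ε * δ + ε * δ + ε * δ + ε * δ) by ring]
  have w1 : 0 ≤ δ ^ 2 := by positivity
  have w2 : 0 ≤ ε * δ := by positivity
  refine (Tb.smul ((((h.tb hd xi.ex1 xj.neg.ex1 w1 hz hδ ?_).add
    (h.tb hd xi.neg.ex1 xj.ex1 w1 hz hδ ?_)).add (h.tb hd xi.ex2 (Nr.one j) w1 hz hδ ?_)).add
    (h.tb hd (Nr.one i) xj.ex2 w1 hz hδ ?_)) (h1 _)).add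
    ((((h.tb hd (si.mul xi.ex1) xj.neg.ex w2 hz hδ ?_).add
    (h.tb hd si xj.neg.ex1 w2 hz hδ ?_)).add (h.tb hd xi.neg.ex (xj.ex1.mul sj) w2 hz hδ ?_)).add
    (h.tb hd xi.neg.ex1 sj w2 hz hδ ?_))
  · rw [e1]; exact le_of_eq (by ring)
  · rw [e1]; exact le_of_eq (by ring)
  · exact le_of_eq (by ring)
  · exact le_of_eq (by ring)
  · rw [e1]; exact le_of_eq (by ring)
  · rw [e1]; nlinarith
  · rw [e1]; exact le_of_eq (by ring)
  · rw [e1]; nlinarith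

theorem KW.inner_cj (h : M.KW K d C) (hd : 0 < d) (hK : ∀ u v, ⟪K u, v⟫ = ⟪u, K v⟫) (hψ : Sm ψ)
    (bψ : Bd 0 (deriv ψ) δ) (hδ : δ ≤ d / cS 0 / 4) (hς : Sm ς) (bς : Bd 0 (deriv ς) ε)
    (h1 : ∀ t, |ς t| ≤ 1) (x : A) :
    |⟪cj M K ψ x, M.m ς x⟫| ≤ (2 * δ ^ 2 + 2 * (ε * δ)) * cR d C * ‖x‖ ^ 2 := by
  have hn := h.norm_sym hd hψ bψ hδ hς bς h1
  have a1 : ⟪cj M K (-ψ) (M.m ς x), x⟫ = ⟪cj M K ψ x, M.m ς x⟫ := by
    simp only [cj, neg_neg, sub_apply, mul_apply_eq_comp, inner_sub_left]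
    rw [M.sym hψ.neg.ex, hK, M.sym hψ.ex, hK (M.m ς x), real_inner_comm, real_inner_comm (K x)]
  have a2 : ⟪(M.m ς * cj M K ψ + cj M K (-ψ) * M.m ς) x, x⟫ = 2 * ⟪cj M K ψ x, M.m ς x⟫ := by
    simp only [add_apply, mul_apply_eq_comp, inner_add_left]
    rw [a1, M.sym hς]; ring
  have a3 := (abs_real_inner_le_norm _ x).trans (mul_le_mul_of_nonneg_right
    (ContinuousLinearMap.le_of_opNorm_le _ hn x) (norm_nonneg x))
  rw [a2, abs_mul, abs_two] at a3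
  nlinarith

end Mu

end Crest.Agent.X212.Dec35
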