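import Crest.Agent.X212.Dec35.Nat

-- ▼ part X212/Dec35/Pre
section

/-!
# Row 212, DEC (helper35): preparations for the continuity argument
-/

set_option autoImplicit false
set_option linter.unusedSectionVars false
noncomputable section
open scoped Manifold ContDiff Topology InnerProductSpace
open MeasureTheory Set Function Filter Real

namespace Crest.Agent.X212.Dec35
open An Map77 Sob92 Nd18 Cyf70
open Tmp64 (Eq0)
open Neck67 (up dn up_zero up_one dn_zero dn_one)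

section gen
variable {E : Type} [NormedAddCommGroup E] [NormedSpace ℝ E] [FiniteDimensional ℝ E]
  [MeasurableSpace E] [BorelSpace E]
  {HM : Type} [TopologicalSpace HM] {I : ModelWithCorners ℝ E HM} [I.Boundaryless]
  {M : Type} [TopologicalSpace M] [ChartedSpace HM M] [IsManifold I ∞ M] [MeasurableSpace M]
  [T2Space M] [BorelSpace M] [SecondCountableTopology M] {ι : Type} [Fintype ι]
  {V : Type} [NormedAddCommGroup V] [InnerProductSpace ℝ V] [FiniteDimensional ℝ V]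

/-- change of the weight -/
theorem nw_wt (F : Fr I M ι) (D : ℕ → ℝ) (A : ℝ) (k : ℕ) : ∃ K ≥ 0, ∀ (ψ ψ' : M → ℝ) (d d' : ℝ),
    Wd F.toPre ψ d D → Wd F.toPre ψ' d' D → (∀ x, ψ' x ≤ ψ x + A) → ∀ u : M → V, Fl F.toPre u →
      nw F.toPre k ψ' u ≤ K * nw F.toPre k ψ u := by
  obtain ⟨K, h0, hK⟩ := CB_exp (I := I) (M := M) (ι := ι) 1 (fun j => D j + |D j|) k
  refine ⟨cK ι k * |(K * |exp A|)|, mul_nonneg (cK_nonneg _) (abs_nonneg _),
    fun ψ ψ' d d' h h' hA u hu => ?_⟩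
  have s : Sm I (ψ' - ψ) := h'.sm.sub h.sm
  have := nrm_smul (sm_exp s 1) (h.fl hu).sm (hK F (ψ' - ψ) (exp A) s (fun a => ?_) fun x => ?_)
    ((h.fl hu).fl k)
  · simp only [smul_smul, ← exp_add, one_mul, Pi.sub_apply, sub_add_cancel] at this
    exact this
  · have e : F.D a (ψ' - ψ) = F.D a ψ' + -F.D a ψ := funext fun x => by
      rw [F.D_def, dv_sub (h'.sm.mdifferentiableAt (by simp)) (h.sm.mdifferentiableAt (by simp))]
      exact sub_eq_add_neg _ _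
    rw [e]
    exact ⟨(h'.der a).1.add (h.der a).1.neg, fun j => CB_add (h'.der a).1 (h.der a).1.neg
      ((h'.der a).2 j) (CB_neg (h.der a).1 ((h.der a).2 j))⟩
  · exact exp_le_exp.2 (by simp only [Pi.sub_apply]; linarith [hA x])

end gen

variable {E3 : Type} [NormedAddCommGroup E3] [NormedSpace ℝ E3] [FiniteDimensional ℝ E3]
  [MeasurableSpace E3] [BorelSpace E3]
  {H3 : Type} [TopologicalSpace H3] {I3 : ModelWithCorners ℝ E3 H3} [I3.Boundaryless]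
  {Y : Type} [TopologicalSpace Y] [ChartedSpace H3 Y] [IsManifold I3 ∞ Y] [T2Space Y]
  [MeasurableSpace Y] [BorelSpace Y] [SecondCountableTopology Y] [CompactSpace Y]
  {κ : Type} [Fintype κ] {lam : Type} [Fintype lam]
  {V : Type} [NormedAddCommGroup V] [InnerProductSpace ℝ V] [FiniteDimensional ℝ V]
  {D : YD I3 Y κ lam} {β : YC Y κ lam} {τ : Pt (Y × ℝ) (Option κ) lam 0 0}

/-- weighted norms for weights which depend on time only -/
abbrev nz (D : YD I3 Y κ lam) (k : ℕ) (ψ : ℝ → ℝ) (u : Y × ℝ → V) : ℝ :=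
  nw D.Z.toPre k (fun x => ψ x.2) u

/-- weights which depend on time only -/
abbrev Wz (D : YD I3 Y κ lam) (ψ : ℝ → ℝ) (d : ℝ) (Dd : ℕ → ℝ) : Prop :=
  Wd D.Z.toPre (fun x => ψ x.2) d Dd

theorem sl_nonneg (u : Y × ℝ → V) (t : ℝ) : 0 ≤ sl D u t := sqrt_nonneg _

theorem slice_bd (hD : D.OK) {n : Y → V} (hn : Sm I3 n) (Dd : ℕ → ℝ) : ∃ K ≥ 0, ∀ ψ d, Wz D ψ d Dd →
    ∀ u : Y × ℝ → V, Fl D.Z.toPre u → ∀ t, exp (ψ t) * sl D u t ≤ K * nz D 4 ψ u ∧
      exp (ψ t) * |row D n u t| ≤ K * nz D 4 ψ u := by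
  obtain ⟨C, hC⟩ := tame_Z hD
  obtain ⟨K, h0, hK⟩ := Dw_le (V := V) hC Dd 0
  obtain ⟨A, hA⟩ := Cb_of_compact (F := D.F.toPre) hn
  have v := vl_nonneg (D := D)
  refine ⟨vl D * K + vl D ^ 2 * |A 0| * K, by positivity, fun ψ d h u hu t => ?_⟩
  have n0 : 0 ≤ nz D 4 ψ u := nw_nonneg _ _
  have b : ∀ y, ‖u (y, t)‖ ≤ K * exp (-ψ t) * nz D 4 ψ u := fun y => hK _ d h u hu [] le_rfl (y, t)
  have e : exp (ψ t) * exp (-ψ t) = 1 := by rw [← exp_add]; simp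
  have h1 := mul_le_mul_of_nonneg_left (sl_le (D := D) (by positivity) b) (exp_pos (ψ t)).le
  have h2 := mul_le_mul_of_nonneg_left (row_le (D := D)
    (fun y => (CB_bound (hA.2 0) y).trans (le_abs_self _)) b) (exp_pos (ψ t)).le
  have p1 : 0 ≤ vl D * K * nz D 4 ψ u := by positivity
  have p2 : 0 ≤ vl D ^ 2 * |A 0| * K * nz D 4 ψ u := by positivity
  constructor
  · calc _ ≤ _ := h1
      _ = vl D * K * nz D 4 ψ u * (exp (ψ t) * exp (-ψ t)) := by ring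
      _ ≤ _ := by rw [e]; linarith
  · calc _ ≤ _ := h2
      _ = vl D ^ 2 * |A 0| * K * nz D 4 ψ u * (exp (ψ t) * exp (-ψ t)) := by ring
      _ ≤ _ := by rw [e]; linarith

/-- the phase at a slice is bounded by the weighted norm -/
theorem phase_bd (hP : PhStmt I3 Y κ lam) (hD : D.OK) (hβ : D.Adm β) (hc : PreconnectedSpace Y)
    {n : Y → Cv (cy β)} {ν : ℝ} (hn : Rw D β n ν) (Dd : ℕ → ℝ) : ∃ θ₀ > 0, ∃ K ≥ 0, ∀ ψ d, Wz D ψ d Dd →
      ∀ (a u : Cz β) (h : Y × ℝ → En (Fin β.m.N)) (t θ : ℝ), Vr D β a → Vr D β u →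
        Eq0 D.Z (cf (cy β) a) (cf (cy β) u) univ h → (∀ y, a (y, t) = rot (cy β) (fun _ => θ) 0 (y, t)) →
        nz D 4 ψ u ≤ 1 → |θ| ≤ θ₀ → (ν = 0 → θ = 0) → exp (ψ t) * |θ| ≤ K * nz D 4 ψ u := by
  obtain ⟨K, h0, hK⟩ := hP D β hD hβ hc n ν hn
  obtain ⟨S, s0, hS⟩ := slice_bd hD hn.sm Dd
  refine ⟨(4 * K + 1)⁻¹, by positivity, 2 * S + 4 * K * S ^ 2, by positivity,
    fun ψ d hw a u h t θ ha hu e ht h1 h2 h3 => ?_⟩
  have n0 : 0 ≤ nz D 4 ψ u := nw_nonneg _ _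
  rcases hn.alt with rfl | ⟨rfl, -⟩
  swap
  · rw [h3 rfl, abs_zero, mul_zero]; positivity
  have k := hK a u h t θ ha.fl.sm hu.fl.sm ha.tg hu.tg e ht
  obtain ⟨s1, s2⟩ := hS ψ d hw u hu.fl t
  rw [one_mul] at k
  have e1 : 1 ≤ exp (ψ t) := one_le_exp (hw.nn (Classical.choice ?_, t))
  · have p := sl_nonneg (D := D) u t
    have a1 : 4 * K * |θ| ≤ 1 := by
      have := mul_le_mul_of_nonneg_left h2 (by positivity : 0 ≤ 4 * K + 1)
      rw [mul_inv_cancel₀ (by positivity)] at this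
      nlinarith [abs_nonneg θ]
    have a2 : |θ| ≤ 2 * |row D n u t| + 4 * K * sl D u t ^ 2 := by
      have := abs_sub_abs_le_abs_sub θ (row D n u t)
      rw [abs_sub_comm] at this
      have q : K * (sl D u t + |θ|) ^ 2 ≤ K * (2 * sl D u t ^ 2 + 2 * |θ| ^ 2) :=
        mul_le_mul_of_nonneg_left (by nlinarith [sq_nonneg (sl D u t - |θ|)]) h0
      nlinarith [abs_nonneg θ]
    have a3 : sl D u t ≤ S := by nlinarith
    have a4 : exp (ψ t) * sl D u t * sl D u t ≤ S * nz D 4 ψ u * S :=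
      mul_le_mul s1 a3 p (by positivity)
    nlinarith [mul_le_mul_of_nonneg_left a2 (exp_pos (ψ t)).le, mul_le_mul_of_nonneg_left a4 h0]
  · by_contra hY
    rw [not_nonempty_iff] at hY
    simpa [integral_of_isEmpty] using hn.J

theorem fl_sz (hD : D.OK) (hβ : D.Adm β) (h0 : sz D β τ 0 = 0) {l ν : ℝ} {K Kt n}
    (hL : Lz D β τ l K Kt n ν) {u : Cz β} (hu : Vr D β u) : Fl D.Z.toPre (sz D β τ u) := by
  have b := bs_cyl hD hβ
  obtain ⟨C, hC, g⟩ := b.good_lin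
  have e : sz D β τ u = lin D.B D.Z (cy β) u + (fun x => qd D.B (cy β) x (u x) (u x)) -
      (te τ (cy β) u - te τ (cy β) 0) := funext fun x => by
    have := se_eq hD.B hD.G hβ.adm τ hu.fl.sm hu.tg x
    rw [show se D.B D.G τ (cy β) 0 x = 0 from congrFun h0 x, zero_add] at this
    exact this
  rw [e]
  exact ((hu.fl.opA g).add (hu.fl.app (Cb_app b.cb_qd (hu.fl.cb hC)))).sub (hL.fl u hu).2.2.2

/-! ### the cut family -/

variable {v : Cz β} {th : ℝ → ℝ} {L p q c t : ℝ}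

theorem chi_zero (h : t ≤ p ∨ q ≤ t) : chi p q t = 0 := by
  rcases h with h | h
  · rw [chi, up_zero one_pos h, zero_mul]
  · rw [chi, dn_zero one_pos h, mul_zero]

theorem chi_one (h : p + 1 ≤ t) (h' : t ≤ q - 1) : chi p q t = 1 := by
  rw [chi, up_one one_pos h, dn_one one_pos h', one_mul]

theorem ret_one (hL : 0 < L) (h : p ≤ t) (h' : t ≤ q) : ret L p q t = 1 := by
  rw [ret, up_one hL (by linarith), dn_one hL (by linarith), one_mul]

theorem ret_zero (hL : 0 < L) (h : t ≤ p - L ∨ q + L ≤ t) : ret L p q t = 0 := by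
  rcases h with h | h
  · rw [ret, up_zero hL h, zero_mul]
  · rw [ret, dn_zero hL h, mul_zero]

theorem Xc_slice (h : t ≤ p ∨ q ≤ t) (y : Y) :
    Xc v th L p q c (y, t) = rot (cy β) (fun _ => Th th L p q c t) 0 (y, t) :=
  rot_congr rfl (by simp [chi_zero h])

theorem Th_p (hL : 0 < L) (h : p ≤ q) : Th th L p q c p = c := by
  simp [Th, ret_one hL le_rfl h, vth]

theorem Th_q (hL : 0 < L) (h : p ≤ q) : Th th L p q c q = c + vth th p q q := by
  simp [Th, ret_one hL h le_rfl]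

theorem Th_out (hL : 0 < L) (h : t ≤ p - L ∨ q + L ≤ t) : Th th L p q c t = 0 := by
  simp [Th, ret_zero hL h]

theorem Xc_add (hβ : D.Adm β) (a : ℝ) :
    rot (cy β) (fun x => ret L p q x.2 * a) (Xc v th L p q c) = Xc v th L p q (c + a) := by
  rw [Xc, rot_rot hβ.adm.ok.Jsq, Xc]
  congr 1; funext x; simp only [Th]; ring

theorem vth_self : vth th p p = 0 := funext fun t => by simp [vth, chi_zero (le_total _ p)]

theorem Xc_base : Xc v th L p p 0 = 0 := by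
  simp only [Xc, Th, vth_self, chi_zero (le_total _ p), zero_smul, Pi.zero_apply, add_zero, mul_zero]
  exact rot_zero

theorem vth_mid (hs : ContDiff ℝ ∞ th) (h : p + 1 ≤ t) (h' : t ≤ q - 1) :
    vth th p q t = th t + (vth th p q (p + 1) - th (p + 1)) := by
  have c : Continuous fun s => chi p q s * deriv th s :=
    (((Neck67.sm_up le_rfl p).mul (Neck67.sm_dn le_rfl q)).cd.continuous).mul
      (Neck67.cd_deriv hs).continuous
  have e := intervalIntegral.integral_add_adjacent_intervals (μ := volume)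
    (c.intervalIntegrable p (p + 1)) (c.intervalIntegrable (p + 1) t)
  have e' : ∫ s in p + 1..t, chi p q s * deriv th s = th t - th (p + 1) := by
    rw [← intervalIntegral.integral_deriv_eq_sub (fun x _ => Neck67.cd_diff hs x)
      ((Neck67.cd_deriv hs).continuous.intervalIntegrable _ _)]
    refine intervalIntegral.integral_congr fun s hs => ?_
    rw [uIcc_of_le h] at hs
    simp only [chi_one hs.1 (hs.2.trans h'), one_mul]
  simp only [vth]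
  linarith

theorem Inp.mono {γ η q' : ℝ} {k k₁ k₂ : ℕ} (h : Inp D β τ γ k k₁ η v th p q) (hγ : 0 < γ)
    (h1 : p + 2 ≤ q') (h2 : q' ≤ q) (hk : k₂ ≤ k₁) : Inp D β τ γ k k₂ η v th p q' :=
  ⟨h1, h.vb, CB_of_le h.v1 hk, h.sm, h.cb, h.t1.of_le hk, fun t ht =>
    (h.df t ⟨ht.1, ht.2.trans h2⟩).mono le_rfl (mul_le_mul_of_nonneg_left (exp_le_exp.2 (by
      have : min (t - p) (q' - t) ≤ min (t - p) (q - t) := min_le_min le_rfl (by linarith)
      nlinarith)) h.t1.nonneg)⟩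

theorem tent_p (hL : 0 ≤ L) (h : p ≤ q) : tent L p q p = L := by
  rw [tent, sub_self, min_eq_left (by linarith), add_zero, max_eq_right hL]

theorem tent_q (hL : 0 ≤ L) (h : p ≤ q) : tent L p q q = L := by
  rw [tent, sub_self, min_eq_right (by linarith), add_zero, max_eq_right hL]

theorem tent_le {q' : ℝ} (h' : q' ≤ q + 2) : tent L p q' t ≤ tent L p q t + 2 := by
  have h1 := le_max_left 0 (L + min (t - p) (q - t))
  have h2 := le_max_right 0 (L + min (t - p) (q - t))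
  have h3 : min (t - p) (q' - t) ≤ min (t - p) (q - t) + 2 := by
    rw [← min_add_add_right]; exact min_le_min (by linarith) (by linarith)
  exact max_le (by rw [tent]; linarith) (by rw [tent]; linarith)

end Crest.Agent.X212.Dec35
end
end

-- ▼ part X212/Dec35/Core

/-!
# Row 212, DEC (helper35): the continuity argument
-/

set_option autoImplicit false
set_option linter.unusedSectionVars false
noncomputable section
open scoped Manifold ContDiff Topology InnerProductSpace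
open MeasureTheory Set Function Filter Real

namespace Crest.Agent.X212.Dec35
open An Map77 Sob92 Nd18 Cyf70
open Tmp64 (Eq0)

variable {E3 : Type} [NormedAddCommGroup E3] [NormedSpace ℝ E3] [FiniteDimensional ℝ E3]
  [MeasurableSpace E3] [BorelSpace E3]
  {H3 : Type} [TopologicalSpace H3] {I3 : ModelWithCorners ℝ E3 H3} [I3.Boundaryless]
  {Y : Type} [TopologicalSpace Y] [ChartedSpace H3 Y] [IsManifold I3 ∞ Y] [T2Space Y]
  [MeasurableSpace Y] [BorelSpace Y] [SecondCountableTopology Y] [CompactSpace Y]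
  {κ : Type} [Fintype κ] {lam : Type} [Fintype lam]
  {D : YD I3 Y κ lam} {β : YC Y κ lam} {τ : Pt (Y × ℝ) (Option κ) lam 0 0}

variable (D β) in
/-- `a` is gauge equivalent to a variation `u` of weighted norm `≤ b` -/
structure Stt (k : ℕ) (ψ : ℝ → ℝ) (a : Cz β) (b : ℝ) (u : Cz β) (h : Y × ℝ → En (Fin β.m.N)) :
    Prop where
  vr : Vr D β u
  eq : Eq0 D.Z (cf (cy β) a) (cf (cy β) u) univ h
  le : nz D (k + 1) ψ u ≤ b

theorem Stt.nn {k : ℕ} {ψ : ℝ → ℝ} {a u : Cz β} {b : ℝ} {h : Y × ℝ → En (Fin β.m.N)}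
    (H : Stt D β k ψ a b u h) : 0 ≤ b := (nw_nonneg _ _).trans H.le

theorem Stt.le4 {k : ℕ} {ψ : ℝ → ℝ} {a u : Cz β} {b : ℝ} {h : Y × ℝ → En (Fin β.m.N)}
    (H : Stt D β k ψ a b u h) (hk : 3 ≤ k) : nz D 4 ψ u ≤ b := (nw_mono (by omega) u).trans H.le

theorem ga_w (ga : GaStmt (IC I3) (Y × ℝ) (Option κ) lam) (hD : D.OK) (hβ : D.Adm β) {k : ℕ}
    (hk : 7 ≤ k) (C0 : ℝ) (Dd : ℕ → ℝ) : ∃ K ≥ 1, ∀ ψ d a b u (h : Y × ℝ → En (Fin (cy β).m.N)),
      Wz D ψ d Dd → Vr D β a →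
      D.Z.CB k a C0 → K * b ≤ 1 → Stt D β k ψ a b u h → ∀ ψ' d', Wz D ψ' d' Dd →
      (∀ w, Vr D β w → Vr D β (fun x => act (h x) (w x)) ∧
        Eq0 D.Z (cf (cy β) (a + w)) (cf (cy β) (u + fun x => act (h x) (w x))) univ h ∧
        nz D (k + 1) ψ' (fun x => act (h x) (w x)) ≤ K * nz D (k + 1) ψ' w) ∧
      ∀ w : Y × ℝ → Ev (cy β), Fl D.Z.toPre w →
        nz D k ψ' (fun x => acE (h x) (w x)) ≤ K * nz D k ψ' w := by
  obtain ⟨K, h0, hK⟩ := ga D.B D.G (cy β) (bs_cyl hD hβ) k hk C0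
  obtain ⟨N, n0, hN⟩ := nrm_le_nw (I := IC I3) (M := Y × ℝ) (ι := Option κ) (V := Cv (cy β)) Dd k
  obtain ⟨C, hC⟩ := tame_Z hD
  refine ⟨1 + K + N, by linarith, fun ψ d a b u h hw ha hb h1 H ψ' d' hw' => ?_⟩
  have b0 := H.nn
  obtain ⟨c1, -, c3, c4, c5⟩ := hK a u h (ha.fl.cb hC) ha.tg hb H.vr.fl H.vr.tg
    ((hN D.Z _ d hw u H.vr.fl).trans ((mul_le_mul_of_nonneg_left
      ((nw_mono k.le_succ u).trans H.le) n0).trans (by nlinarith))) H.eq
  refine ⟨fun w hv => ⟨⟨hv.fl.app c1, (c5 w hv.fl.sm hv.tg).1⟩, (c5 w hv.fl.sm hv.tg).2, ?_⟩,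
    fun w hv => ?_⟩
  · have := c3 (k + 1) le_rfl _ (hw'.fl hv.fl)
    simp only [map_smul] at this
    exact this.trans (mul_le_mul_of_nonneg_right (by linarith) (nrm_nonneg _ _))
  · have := c4 k k.le_succ _ (hw'.fl hv)
    simp only [map_smul] at this
    exact this.trans (mul_le_mul_of_nonneg_right (by linarith) (nrm_nonneg _ _))

/-- moving the right end -/
theorem step1 (ga : GaStmt (IC I3) (Y × ℝ) (Option κ) lam) (t1 : Tr1Stmt I3 Y κ lam) (hD : D.OK)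
    (hβ : D.Adm β) {δ : ℝ} (δ0 : 0 < δ) (δ1 : δ ≤ 1) {k : ℕ} (hk : 7 ≤ k) (Dd : ℕ → ℝ) (Λ : ℝ) :
    ∃ C ≥ 1, ∀ {γ η L p q q' q₀ c b T : ℝ} {v : Cz β} {th ψ ψ' : ℝ → ℝ} {u h},
      Inp D β τ γ k (k + 1) η v th p q₀ → η ≤ 1 → 1 ≤ L → p ≤ q → q ≤ q' → q' ≤ q + 2 → |c| ≤ 1 →
      |c + vth th p q q| ≤ 1 → Wz D ψ δ Dd → Wz D ψ' δ Dd → (∀ t, δ * tent L p q t ≤ ψ t) →
      (∀ t, ψ' t ≤ δ * tent L p q' t + Λ) → C * b ≤ 1 →
      exp (δ * L) * (η + |c + vth th p q q|) ≤ T → Stt D β k ψ (Xc v th L p q c) b u h →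
      |vth th p q' q' - vth th p q q| ≤ 3 * η ∧
        ∃ u', Stt D β k ψ' (Xc v th L p q' c) (C * (b + T)) u' h := by
  obtain ⟨K, K0, hK⟩ := t1 D β hD hβ δ δ0 δ1 (k + 1) Dd Λ
  obtain ⟨G, G1, hG⟩ := ga_w ga hD hβ hk K Dd
  obtain ⟨W, W0, hW⟩ := nw_wt (V := Cv (cy β)) D.Z Dd (2 + Λ) (k + 1)
  obtain ⟨C, hC⟩ := tame_Z hD
  have gk : 0 ≤ G * K := by positivity
  refine ⟨G + W + G * K, by linarith, fun {γ η L p q q' q₀ c b T v th ψ ψ' u h} I η1 L1 h1 h2 h3 c1 c2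
    hw hw' lo hi hb hT H => ?_⟩
  obtain ⟨v1, v2, b1, -, e, n⟩ := hK η L p q q' c δ v th ψ' I.vb I.v1 I.sm I.cb I.t1 η1 L1 h1 h2 h3 c1
    c2 hw' hi
  have b0 := H.nn
  obtain ⟨g1, g2, g3⟩ := (hG ψ δ _ b u h hw v1 (CB_of_le b1 k.le_succ) (by nlinarith) H ψ' δ hw').1 _
    ⟨v2.fl.sub v1.fl, v2.tg.sub v1.tg⟩
  rw [add_sub_cancel] at g2
  refine ⟨e, _, ⟨H.vr.fl.add g1.fl, H.vr.tg.add g1.tg⟩, g2,
    (nw_add hC hw' H.vr.fl g1.fl _).trans ?_⟩
  have a1 := (hW _ _ _ _ hw hw' (fun x => by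
    have := mul_le_mul_of_nonneg_left (tent_le (L := L) (p := p) (t := x.2) h3) δ0.le
    have := hi x.2
    have := lo x.2
    linarith) u H.vr.fl).trans (mul_le_mul_of_nonneg_left H.le W0)
  have a2 := g3.trans (mul_le_mul_of_nonneg_left (n.trans ((mul_assoc _ _ _).trans_le
    (mul_le_mul_of_nonneg_left hT K0))) (by linarith))
  have T0 : 0 ≤ T := le_trans (mul_nonneg (exp_pos _).le (add_nonneg I.t1.nonneg (abs_nonneg _))) hT
  refine (add_le_add a1 a2).trans ?_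
  nlinarith [mul_nonneg W0 T0, mul_nonneg gk b0]

/-- killing the row at the peak -/
theorem step2 (t2 : Tr2Stmt I3 Y κ lam) (hD : D.OK) (hβ : D.Adm β) {n : Y → Cv (cy β)} {ν : ℝ}
    (hn : Rw D β n ν) {δ : ℝ} (δ0 : 0 < δ) {k : ℕ} (hk : 3 ≤ k) (Dd : ℕ → ℝ) (Λ : ℝ) :
    ∃ C ≥ 1, ∀ {L p q c b : ℝ} {v : Cz β} {th ψ : ℝ → ℝ} {u h}, 1 ≤ L → p ≤ q → Wz D ψ δ Dd →
      (∀ t, δ * tent L p q t ≤ ψ t ∧ ψ t ≤ δ * tent L p q t + Λ) → C * b ≤ 1 →
      Stt D β k ψ (Xc v th L p q c) b u h → ∃ a u', |a| ≤ C * b ∧ (ν = 0 → a = 0) ∧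
        Stt D β k ψ (Xc v th L p q (c + a)) (C * b) u' h ∧
        exp (ψ ((p + q) / 2)) * |row D n u' ((p + q) / 2)| ≤ C * b ^ 2 := by
  obtain ⟨K, K0, hK⟩ := t2 D β hD hβ n ν hn δ δ0 (k + 1) Dd Λ
  obtain ⟨S, S0, hS⟩ := slice_bd hD hn.sm Dd
  obtain ⟨C, hC⟩ := tame_Z hD
  have p1 : 0 ≤ K * S := by positivity
  have p2 : 0 ≤ K * S * S := by positivity
  refine ⟨1 + S + 2 * (K * S) + 2 * (K * S * S), by linarith,
    fun {L p q c b v th ψ u h} L1 h1 hw hψ hb H => ?_⟩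
  set s := (p + q) / 2
  have b0 := H.nn
  have b1 : b ≤ 1 := by nlinarith
  obtain ⟨s1, s2⟩ := hS ψ δ hw u H.vr.fl s
  replace s1 := s1.trans (mul_le_mul_of_nonneg_left (H.le4 hk) S0)
  replace s2 := s2.trans (mul_le_mul_of_nonneg_left (H.le4 hk) S0)
  have e1 : 1 ≤ exp (ψ s) := one_le_exp ((mul_nonneg δ0.le (le_max_left _ _)).trans (hψ s).1)
  have a1 : |row D n u s| ≤ S * b := by nlinarith [abs_nonneg (row D n u s)]
  have a2 : sl D u s ≤ S * b := by nlinarith [sl_nonneg (D := D) u s]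
  obtain ⟨k1, k2, k3⟩ := hK L p q (-row D n u s) δ ψ u L1 h1 (by rw [abs_neg]; nlinarith) hw hψ H.vr
  have z : ν = 0 → row D n u s = 0 := fun h0 => by
    rcases hn.alt with h | ⟨-, rfl⟩
    · simp [h] at h0
    · simp [row]
  rw [abs_neg] at k2 k3
  refine ⟨-row D n u s, _, by rw [abs_neg]; nlinarith, fun h0 => by rw [z h0, neg_zero],
    ⟨k1, Xc_add hβ _ ▸ eq0_rot H.eq _, ?_⟩, ?_⟩
  · have := nw_add hC hw H.vr.fl (k1.fl.sub H.vr.fl) (k + 1)
    rw [add_sub_cancel] at this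
    have q1 := mul_le_mul a1 (H.le.trans b1) (nw_nonneg _ _) (by positivity)
    refine this.trans ((add_le_add H.le k2).trans ?_)
    nlinarith [mul_le_mul_of_nonneg_left q1 K0, mul_le_mul_of_nonneg_left s2 K0]
  · have e : row D n u s + ν * -row D n u s = 0 := by
      rcases hn.alt with h | ⟨h, -⟩
      · rw [h]; ring
      · rw [z h]; ring
    rw [sub_sub, e, sub_zero] at k3
    have q1 := mul_le_mul s2 (add_le_add a1 a2) (add_nonneg (abs_nonneg _) (sl_nonneg _ _))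
      (by positivity)
    refine (mul_le_mul_of_nonneg_left k3 (exp_pos _).le).trans ?_
    nlinarith [mul_le_mul_of_nonneg_left q1 K0, sq_nonneg b]

theorem ev_small (A : ℝ) {t : ℝ} (ht : 0 < t) : ∀ᶠ b in 𝓝[>] (0 : ℝ), A * b ≤ t :=
  mem_nhdsWithin_of_mem_nhds (((continuous_const.mul continuous_id).tendsto' (0 : ℝ) 0
    (by simp)).eventually_le_const ht)

theorem core (ga : GaStmt (IC I3) (Y × ℝ) (Option κ) lam) (wg : WgtStmt I3 Y κ lam)
    (ro : RowStmt I3 Y κ lam) (st : StStmt I3 Y κ lam) (t1 : Tr1Stmt I3 Y κ lam)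
    (t2 : Tr2Stmt I3 Y κ lam) (er : ErrStmt I3 Y κ lam) (ph : PhStmt I3 Y κ lam) :
    CoreStmt I3 Y κ lam := by
  intro D β τ ν H γ γ0
  obtain ⟨l, K, Kt, n, hL⟩ := H.lz
  have hD := H.ok
  have hβ := H.adm
  obtain ⟨ε, ε0, st⟩ := st D β τ ν l K Kt n hD hβ H.irr H.crit hL
  obtain ⟨Λ, Λ1, Dd, wg⟩ := wg D ε ε0
  obtain ⟨G, G0, ro⟩ := ro D β n hD hL.rw.sm Λ Λ1
  obtain ⟨KR, KR0, ro⟩ := ro Dd
  obtain ⟨δ₀, δ₀0, st⟩ := st G G0
  obtain ⟨δ₁, δ₁0, er⟩ := er D β τ hD hβ H.crit H.nat H.p1 γ γ0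
  obtain ⟨δ, δ0, d0, d1, δ1⟩ : ∃ δ > 0, δ ≤ δ₀ ∧ δ ≤ δ₁ ∧ δ ≤ 1 := ⟨min δ₀ (min δ₁ 1), by positivity,
    min_le_left _ _, (min_le_right _ _).trans (min_le_left _ _), (min_le_right _ _).trans (min_le_right _ _)⟩
  refine ⟨δ, δ0, fun k hk B B0 => ?_⟩
  obtain ⟨CS, CS0, r₀, r0, st⟩ := st δ δ0 d0 k hk Dd
  obtain ⟨k₁, KE, KE0, er⟩ := er δ δ0 d1 k Dd Λ
  obtain ⟨KP, KP0, hP⟩ := ph D β hD hβ H.conn n ν hL.rw
  obtain ⟨θ₀, θ0, KT, KT0, hT⟩ := phase_bd ph hD hβ H.conn hL.rw Dd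
  obtain ⟨C1, C11, s1⟩ := step1 (τ := τ) ga t1 hD hβ δ0 δ1 (k := k) (by omega) Dd Λ
  obtain ⟨C2, C21, s2⟩ := step2 t2 hD hβ hL.rw δ0 (k := k) (by omega) Dd Λ
  obtain ⟨K1, -, t1⟩ := t1 D β hD hβ δ δ0 δ1 (k + 1) Dd Λ
  obtain ⟨KG, KG1, ga⟩ := ga_w ga hD hβ (k := k) (by omega) K1 Dd
  obtain ⟨Ct, hC⟩ := tame_Z hD
  obtain ⟨KO, KO0, hO⟩ := Dw_le (V := Cv (cy β)) hC Dd (k - 3)
  -- the constants
  obtain ⟨c1, c11, e1⟩ : ∃ c1 ≥ 1, c1 = C1 * (2 + KT) :=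
    ⟨_, one_le_mul_of_one_le_of_one_le C11 (by linarith), rfl⟩
  obtain ⟨c2, c21, e2⟩ : ∃ c2 ≥ 1, c2 = C2 * c1 := ⟨_, one_le_mul_of_one_le_of_one_le C21 c11, rfl⟩
  obtain ⟨c3, c30, e3⟩ : ∃ c3 ≥ 0, c3 = CS * KG * KE := ⟨_, by positivity, rfl⟩
  obtain ⟨L, LΛ, hLc⟩ : ∃ L ≥ Λ, 6 * (c3 * KT * c2) ≤ L := ⟨_, le_max_left _ _, le_max_right _ _⟩
  have L1 : 1 ≤ L := Λ1.trans LΛ
  have L0 : 0 < L := by linarith
  obtain ⟨b, ⟨⟨b1, b2, b3⟩, b4, b5, b6⟩, b7, b8, b0⟩ := ((((ev_small C1 one_pos).and ((ev_small c2 one_pos).and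
    (ev_small (KG * c2) one_pos))).and ((ev_small c2 r0).and ((ev_small (KT + c2 + 3) θ0).and
    (ev_small (KT + c2 + 3) one_pos)))).and ((ev_small KO B0).and ((ev_small
      (3 * (CS * (KR * (C2 * c1 ^ 2 + KP * c2 ^ 2) + c2 ^ 2))) one_pos).and self_mem_nhdsWithin))).exists
  replace b0 : 0 < b := b0
  obtain ⟨η, ⟨η1, η2⟩, η0⟩ := (((ev_small (exp (δ * L)) b0).and
    (ev_small (3 * (c3 * exp (δ * L))) b0)).and self_mem_nhdsWithin).exists
  replace η0 : 0 < η := η0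
  have E1 : 1 ≤ exp (δ * L) := one_le_exp (by positivity)
  have ηb : η ≤ b := (le_mul_of_one_le_left η0.le E1).trans η1
  have bb : b ≤ 1 := (le_mul_of_one_le_left b0.le C11).trans b1
  refine ⟨max k₁ (k + 1), η, η0, fun v th p q I hth => ?_⟩
  have len := I.len
  choose! ψ ς k' hw using fun q' (h : p ≤ q') => wg δ δ0 δ1 L p q' LΛ h
  -- the phases at the two ends
  have phs : ∀ q' c u h b', p ≤ q' → Vr D β (Xc v th L p q' c) → Stt D β k (ψ q') (Xc v th L p q' c) b' u h →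
      b' ≤ 1 → |c| ≤ θ₀ → |c + vth th p q' q'| ≤ θ₀ → (ν = 0 → c = 0) →
      exp (δ * L) * |c| ≤ KT * b' ∧ exp (δ * L) * |c + vth th p q' q'| ≤ KT * b' := by
    intro q' c u h b' h1 hv S h2 h3 h4 h5
    have w := hw q' h1
    have i := S.le4 (by omega)
    have a1 := hT _ _ w.wd _ u h p c hv S.vr S.eq
      (fun y => by rw [Xc_slice (.inl le_rfl), Th_p L0 h1]) (i.trans h2) h3 h5
    have a2 := hT _ _ w.wd _ u h q' _ hv S.vr S.eq
      (fun y => by rw [Xc_slice (.inr le_rfl), Th_q L0 h1]) (i.trans h2) h4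
      fun h0 => by simp [h5 h0, hth h0, vth]
    have a3 := exp_le_exp.2 (w.lo p)
    have a4 := exp_le_exp.2 (w.lo q')
    rw [tent_p L0.le h1] at a3
    rw [tent_q L0.le h1] at a4
    have := mul_le_mul_of_nonneg_left i KT0
    exact ⟨(mul_le_mul_of_nonneg_right a3 (abs_nonneg _)).trans (a1.trans this),
      (mul_le_mul_of_nonneg_right a4 (abs_nonneg _)).trans (a2.trans this)⟩
  have vr : ∀ q' c, p ≤ q' → |c| ≤ 1 → |c + vth th p q' q'| ≤ 1 →
      Vr D β (Xc v th L p q' c) ∧ D.Z.CB k (Xc v th L p q' c) K1 := fun q' c h1 h2 h3 =>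
    have J := I.mono γ0 len le_rfl (le_max_right _ _)
    have := t1 η L p q' q' c δ v th (ψ q') J.vb J.v1 J.sm J.cb J.t1 (ηb.trans bb) L1 h1 le_rfl
      (by linarith) h2 h3 (hw q' h1).wd (hw q' h1).hi
    ⟨this.1, CB_of_le this.2.2.1 k.le_succ⟩
  let Inv : ℝ → Prop := fun q' => ∃ c u h, Stt D β k (ψ q') (Xc v th L p q' c) b u h ∧
    |c| ≤ min θ₀ 1 ∧ |c + vth th p q' q'| ≤ min θ₀ 1 ∧ (ν = 0 → c = 0)
  have step : ∀ q₀ q', p ≤ q₀ → q₀ ≤ q' → q' ≤ q₀ + 2 → p + 2 ≤ q' → q' ≤ q → Inv q₀ → Inv q' := by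
    rintro q₀ q' h1 h2 h3 h4 h5 ⟨c, u, h, S, i1, i2, i3⟩
    rw [le_min_iff] at i1 i2
    have h6 := h1.trans h2
    have w := hw q' h6
    obtain ⟨p1, p2⟩ := phs q₀ c u h b h1 (vr q₀ c h1 i1.2 i2.2).1 S bb i1.1 i2.1 i3
    obtain ⟨v1, u1, S1⟩ := s1 (T := (1 + KT) * b) (I.mono γ0 len le_rfl (le_max_right _ _)) (ηb.trans bb)
      L1 h1 h2 h3 i1.2 i2.2 (hw q₀ h1).wd w.wd (hw q₀ h1).lo w.hi b1 (by linarith) S
    rw [show C1 * (b + (1 + KT) * b) = c1 * b by rw [e1]; ring] at S1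
    obtain ⟨a, u2, a1, a2, S2, a3⟩ := s2 L1 h6 w.wd (fun t => ⟨w.lo t, w.hi t⟩)
      (by rw [← mul_assoc, ← e2]; exact b2) S1
    rw [← mul_assoc, ← e2] at a1 S2
    have j1 : |c + a| ≤ (KT + c2 + 3) * b := by
      linarith [abs_add_le c a, le_mul_of_one_le_left (abs_nonneg c) E1]
    have j2 : |c + a + vth th p q' q'| ≤ (KT + c2 + 3) * b := by
      have := abs_add_three (c + vth th p q₀ q₀) a (vth th p q' q' - vth th p q₀ q₀)
      rw [show c + vth th p q₀ q₀ + a + (vth th p q' q' - vth th p q₀ q₀) = c + a + vth th p q' q' by ring]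
        at this
      linarith [le_mul_of_one_le_left (abs_nonneg (c + vth th p q₀ q₀)) E1]
    have j3 : ν = 0 → c + a = 0 := fun h0 => by rw [i3 h0, a2 h0, add_zero]
    obtain ⟨x1, x2⟩ := vr q' _ h6 (j1.trans b6) (j2.trans b6)
    obtain ⟨p3, p4⟩ := phs q' _ u2 h _ h6 x1 S2 b2 (j1.trans b5) (j2.trans b5) j3
    have r1 := (er η L p q' _ δ v th (ψ q') (I.mono γ0 h4 h5 (le_max_left _ _)) (ηb.trans bb) L1
      (j1.trans b6) (j2.trans b6) w.wd w.hi).2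
    have r2 := (ga _ _ _ _ u2 h w.wd x1 x2 (by rw [← mul_assoc]; exact b3) S2 _ _ w.wd).2 _
      (fl_sz hD hβ H.crit hL x1)
    replace r2 := (congrArg (nz D k (ψ q'))
      (funext (sz_nat hD hβ H.nat x1.fl.sm x1.tg S2.vr.fl.sm S2.vr.tg S2.eq))).trans_le r2
    have i4 := S2.le4 (by omega)
    obtain ⟨-, g, u3, y1, y2, y3⟩ := st (ψ q') (ς q') (k' q') w.pf w.wd u2 S2.vr (S2.le.trans b4)
      (KR * (C2 * (c1 * b) ^ 2 + KP * (c2 * b) ^ 2)) (by positivity) fun V hV hr => by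
        refine (ro (ψ q') (k' q') δ ((p + q') / 2) KP u2 V w.wd w.pf.sk.cd.continuous w.pf.k1 S2.vr.fl
          hV.fl KP0 fun t ht => ?_).trans (add_le_add (mul_le_mul_of_nonneg_left (add_le_add
            (by rw [hr]; exact a3) (mul_le_mul_of_nonneg_left
              (pow_le_pow_left₀ (nw_nonneg _ _) i4 2) KP0)) KR0) le_rfl)
        have o : (t ≤ p - L ∨ q' + L ≤ t) → |row D n V t| ≤ KP * sl D u2 t ^ 2 := fun o => by
          have := hP _ u2 h t 0 x1.fl.sm S2.vr.fl.sm x1.tg S2.vr.tg S2.eq fun y => by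
            rw [Xc_slice (o.imp (fun _ => by linarith) fun _ => by linarith), Th_out L0 o]
          simpa [hr] using this
        rcases w.sup t ht with o1 | o1 | o1
        exacts [.inr (o (.inl o1)), .inl o1, .inr (o (.inr o1))]
    refine ⟨c + a, u3, _, ⟨y1, S2.eq.trans y2, y3.trans ?_⟩, le_min (j1.trans b5) (j1.trans b6),
      le_min (j2.trans b5) (j2.trans b6), j3⟩
    have z1 : exp (δ * L) * ((|c + a| + |c + a + vth th p q' q'|) / L) ≤ 2 * (KT * (c2 * b)) / L := by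
      rw [← mul_div_assoc]; exact div_le_div_of_nonneg_right (by linarith) L0.le
    have z2 : c3 * (2 * (KT * (c2 * b)) / L) ≤ b / 3 := by
      rw [← mul_div_assoc, div_le_iff₀ L0]; linarith [mul_le_mul_of_nonneg_left hLc b0.le]
    have z3 := pow_le_pow_left₀ (nw_nonneg _ _) S2.le 2
    have z4 := r2.trans (mul_le_mul_of_nonneg_left r1 (by linarith))
    have z5 := mul_le_mul_of_nonneg_left z1 c30
    have z6 := mul_le_mul_of_nonneg_left b8 b0.le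
    refine (mul_le_mul_of_nonneg_left (add_le_add (add_le_add z4 le_rfl) z3) CS0).trans ?_
    rw [e3] at z2 z5 η2
    linarith
  have base : Inv p := by
    refine ⟨0, 0, (cy β).m.p, ⟨⟨Fl.zero, Tg.zero⟩, ?_, ?_⟩, by simp [θ0.le], by simp [vth_self, θ0.le],
      fun _ => rfl⟩
    · rw [Xc_base]
      exact Tmp64.Eq0.refl (G := D.G) (Tmp64.admOn_univ.2 (cf_adm hβ.adm contMDiff_const Tg.zero))
    · simp only [nz, nw, Pi.zero_apply, smul_zero]
      exact (nrm_zero hC _).trans_le b0.le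
  have ind : ∀ j : ℕ, ∀ q', p + 2 ≤ q' → q' ≤ q → q' ≤ p + 2 * (j + 1) → Inv q' := by
    intro j
    induction j with
    | zero => exact fun q' h1 h2 h3 => step p q' le_rfl (by linarith) (by simpa using h3) h1 h2 base
    | succ j ih =>
      intro q' h1 h2 h3
      push_cast at h3
      have j0 : (0 : ℝ) ≤ j := j.cast_nonneg
      have m1 := le_max_left (p + 2) (q' - 2)
      have m2 := le_max_right (p + 2) (q' - 2)
      have m3 : max (p + 2) (q' - 2) ≤ q' := max_le h1 (by linarith)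
      exact step _ q' (by linarith) m3 (by linarith) h1 h2
        (ih _ m1 (m3.trans h2) (max_le (by linarith) (by linarith)))
  obtain ⟨j, hj⟩ := exists_nat_ge (q - p)
  obtain ⟨c, u, h, S, -⟩ := ind j q len le_rfl (by linarith [j.cast_nonneg (α := ℝ)])
  have w := hw q (by linarith)
  refine ⟨u, h, c + (vth th p q (p + 1) - th (p + 1)), S.vr, eq0_congr (S.eq.mono (subset_univ _))
    fun x hx => rot_congr ?_ ?_, fun t ht z hz y => (hO _ _ w.wd u S.vr.fl z hz (y, t)).trans ?_⟩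
  · rw [Th, ret_one L0 (by linarith [hx.2.1]) (by linarith [hx.2.2]), vth_mid I.sm hx.2.1.le hx.2.2.le]
    ring
  · rw [chi_one hx.2.1.le hx.2.2.le, one_smul]
  · have a1 : exp (-ψ q t) ≤ exp (-δ * min (t - p) (q - t)) := exp_le_exp.2 (by
      have := w.lo t
      have := mul_le_mul_of_nonneg_left (le_max_right 0 (L + min (t - p) (q - t))) δ0.le
      have := mul_pos δ0 L0
      simp only [tent] at *
      linarith)
    rw [show k - 3 + 4 = k + 1 by omega, mul_right_comm]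
    exact mul_le_mul ((mul_le_mul_of_nonneg_left S.le KO0).trans b7) a1 (exp_pos _).le B0.le

end Crest.Agent.X212.Dec35
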