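import Crest.Agent.X212.Dec35.Hyp
import Crest.Agent.X212.Kah60.Cut
import Crest.Agent.X212.Wz78.Par
import Crest.Agent.X212.Abel74.Defs
import Crest.Agent.X212.Rsp69.Loc
import Crest.Agent.X212.Eqv71.Cfg
import Crest.Agent.X212.Spn45.Aff
import Crest.Agent.X212.Dgr80.Win
import Crest.Agent.X212.Cht98.Cov
import Crest.Agent.X212.Dec35.Core
import Crest.Agent.X212.Tr6.Two_Mg
import Crest.Agent.X212.Hm83.St
import Crest.Agent.X212.Lad50.Row_Mg
import Crest.Agent.X212.Pj41.Red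
import Crest.Agent.X212.Dec35.Fam
import Crest.Agent.X212.Dec35.FSt

-- ▼ part X212/Cay24/Fix
section

/-!
# Row 212, DEC / FIX (helper24): at a fixed point of the circle the phase is a gauge transformation
-/

set_option autoImplicit false
set_option linter.unusedSectionVars false
noncomputable section
open scoped Manifold ContDiff Topology InnerProductSpace
open MeasureTheory Set Function Filter

namespace Crest.Agent.X212.Cay24
open An Sob92 Cyf70 Neck67 Pj41 Eqv71 Tmp64 Nd18 Bki64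
open Wz78 (nab nabE SA g_p g_p' g_skw g_J g_ρ g_j)

section gen
variable {E : Type} [NormedAddCommGroup E] [NormedSpace ℝ E] [FiniteDimensional ℝ E]
  [MeasurableSpace E] [BorelSpace E]
  {HM : Type} [TopologicalSpace HM] {I : ModelWithCorners ℝ E HM}
  {M : Type} [TopologicalSpace M] [ChartedSpace HM M] [IsManifold I ∞ M]
  [MeasurableSpace M] {ι : Type} [Fintype ι] {lam : Type} [Fintype lam] {r : ℕ}
  {B : Base M ι lam} {G : Geo I M ι lam} {α : Type} {l : Filter α} {S : α → Set M} {k : ℕ}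
  {c : Cfg M ι lam r} {ξ : M → c.m.A} {z : α → M → Circle}

/-- the rotations generated by a parallel unit section of `g` -/
theorem cz_rot (hB : B.OK I) (hc : c.Adm B G) (f1 : Fx B G l S k c) (hξ : ParS G.F c univ ξ)
    (h16 : ∀ x, ‖ξ x‖ ^ 2 = 16) (hΦ : ∀ x, opL (ξ x) (c.Φ x) = c.m.J (c.Φ x))
    (hz : BB G.F.toPre l S (k + 1) fun n x => (z n x : ℂ))
    (hD : ∀ a, ZZ G.F.toPre l S k fun n => G.F.D a fun x => (z n x : ℂ)) :
    CZ G.F l S k (fun _ => c) c (fun n x => (z n x : ℂ).re • c.m.p x + (z n x : ℂ).im • opL (ξ x))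
      fun n x => (z n x)⁻¹ := by
  have H := hc.ok
  have hs : Sm I ξ := contMDiffOn_univ.1 hξ.sm
  have hm := fun x => hξ.mem x trivial
  have sq := fun x => Abel74.sq_of_norm hB H (hm x) (h16 x)
  have bξ : BB G.F.toPre l S (k + 1) fun _ => ξ :=
    (BB.zero_of hz.op (C := 4) (Eventually.of_forall fun _ x _ => ⟨hs x, by
      nlinarith [h16 x, norm_nonneg (ξ x)]⟩)).boot fun j hj hb a =>
      ((((f1.W a).of_le hj).clm Wz78.adcL).app hb).neg.congr (Eventually.of_forall fun _ x _ =>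
        eq_neg_of_add_eq_zero_left (hξ.par a x trivial))
  have bX := (bξ.clm opL).of_le k.le_succ
  have bp := f1.p.of_le k.le_succ
  have hb := (((hz.of_le k.le_succ).clm Complex.reCLM).smul bp).add
    (((hz.of_le k.le_succ).clm Complex.imCLM).smul bX)
  have cm : ∀ n x {T : En (Fin c.m.N)}, Commute T (c.m.p x) → Commute T (opL (ξ x)) →
      Commute T ((z n x : ℂ).re • c.m.p x + (z n x : ℂ).im • opL (ξ x)) :=
    fun _ _ _ h1 h2 => (h1.smul_right _).add_right (h2.smul_right _)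
  have ta : ∀ n x, ad ((z n x : ℂ).re • c.m.p x + (z n x : ℂ).im • opL (ξ x)) =
      (z n x : ℂ).re • c.m.p x - (z n x : ℂ).im • opL (ξ x) := fun n x => by
    have e : ∀ T : En (Fin c.m.N), trn T = trnL T := fun _ => rfl
    rw [ad_trn, e, map_add, map_smul, map_smul, ← e, ← e, Wz78.Sym.trn (H.psym x),
      Wz78.Skw.trn (g_skw (hm x)), smul_neg, sub_eq_add_neg]
  have n1 : ∀ n x, (z n x : ℂ).re * (z n x : ℂ).re + (z n x : ℂ).im * (z n x : ℂ).im = 1 :=
    fun n x => (z n x).normSq_coe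
  refine CZ.mk (hb.sm.mono fun n h => ⟨h, fun x _ => ⟨?_, ?_, ?_⟩,
    fun x _ => cm n x (H.Jp x) (g_J (hm x)),
    fun x _ b => cm n x (((H.cl x).pr b).trans ((H.cl x).pl b).symm) (g_ρ (hm x) b),
    fun x _ s => cm n x ?_ (g_j (hm x) s)⟩) (fun a => ?_) ?_
  iterate 2
    rw [ta, ← ContinuousLinearMap.mul_def]
    simp only [add_mul, mul_add, sub_mul, mul_sub, smul_mul_assoc, mul_smul_comm, H.pidem, sq,
      g_p (hm x), g_p' H (hm x)]
    match_scalars
    · linear_combination n1 n x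
    · ring
  · rw [← ContinuousLinearMap.mul_def]
    simp only [add_mul, smul_mul_assoc, H.pidem, g_p' H (hm x)]
  · have := congrArg trn (H.pj x s)
    rw [Wz78.trn_mul, Wz78.Sym.trn (H.jsym x s), Wz78.Sym.trn (H.psym x)] at this
    exact this.trans (H.pj x s).symm
  · refine ((((((hD a).clm Complex.reCLM).smul bp).add
      (((hD a).clm Complex.imCLM).smul bX))).comp hb.ad).congr (hz.sm.mono fun n h x hx => ?_)
    have h1 := SA.clm Complex.reCLM (h x hx)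
    have h2 := SA.clm Complex.imCLM (h x hx)
    have h3 := SA.clm opL (hs x)
    have := Wz78.nabE_add (e := G.F.e) (A := c.W) a (h1.smul (H.sp x)) (h2.smul h3)
    rw [Wz78.nabE_smul a h1 (H.sp x), Wz78.nabE_smul a h2 h3, Wz78.opL_nab a (hs x),
      hξ.par a x trivial, show nabE I G.F.e c.W a c.m.p x = 0 from hc.conn.cc.par a x,
      dv_clm _ (SA.md (h x hx)), dv_clm _ (SA.md (h x hx)), map_zero, smul_zero, smul_zero,
      add_zero, add_zero] at this
    rw [dA, ← ad_trn, Bki64.cov, add_sub_assoc]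
    exact congrArg (· ∘L _) this
  · refine (ZZ.zero hz.op).congr (f1.adm.mono fun n h x hx => ?_)
    rw [dP, add_apply, smul_apply, smul_apply, h.pΦ hx, hΦ, sub_eq_zero]
    refine (cs_mul H.Jsq _ (z n x) _).trans ?_
    rw [← Circle.coe_mul, inv_mul_cancel, Circle.coe_one, cs_one]

end gen

variable {E3 : Type} [NormedAddCommGroup E3] [NormedSpace ℝ E3] [FiniteDimensional ℝ E3]
  [MeasurableSpace E3] [BorelSpace E3]
  {H3 : Type} [TopologicalSpace H3] {I3 : ModelWithCorners ℝ E3 H3} [I3.Boundaryless]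
  {Y : Type} [TopologicalSpace Y] [ChartedSpace H3 Y] [IsManifold I3 ∞ Y] [T2Space Y]
  [MeasurableSpace Y] [BorelSpace Y] [SecondCountableTopology Y] [CompactSpace Y]
  {κ : Type} [Fintype κ] {lam : Type} [Fintype lam]

/-- slowly varying phases -/
theorem zz_phase {α : Type} {l : Filter α} {S : α → Set (Y × ℝ)} {k : ℕ} {F : Pre I3 Y κ}
    {θ : α → ℝ → ℝ} (hθ : ∀ n, ContDiff ℝ ∞ (θ n))
    (h : ZZ (cylP F) l S k fun n x => deriv (θ n) x.2) :
    BB (cylP F) l S (k + 1) (fun n x => (Circle.exp (θ n x.2) : ℂ)) ∧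
      ∀ a, ZZ (cylP F) l S k fun n => (cylP F).D a fun x => (Circle.exp (θ n x.2) : ℂ) := by
  have sm : ∀ n, ContDiff ℝ ∞ fun t => (Circle.exp (θ n t) : ℂ) := fun n =>
    ((Complex.ofRealCLM.contDiff.comp (hθ n)).mul contDiff_const).cexp
  have key : ∀ j ≤ k, BB (cylP F) l S j (fun n x => (Circle.exp (θ n x.2) : ℂ)) → ∀ a,
      ZZ (cylP F) l S j fun n => (cylP F).D a fun x => (Circle.exp (θ n x.2) : ℂ) := by
    intro j hj hb a
    cases a with
    | some a => simp only [D_some_snd F (sm _)]; exact ZZ.zero h.op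
    | none =>
      simp only [D_none_snd F (sm _)]
      refine ((h.of_le hj).smul (hb.clm (ContinuousLinearMap.mul ℝ ℂ Complex.I))).congr'
        fun n x => ?_
      refine (((((hθ n).differentiable (by simp)) x.2).hasDerivAt.ofReal_comp.mul_const
        Complex.I).cexp.deriv).trans ?_
      simp [mul_comm, mul_left_comm]
  have hb := (BB.zero_of h.op (C := 1) (Eventually.of_forall fun n x _ =>
    ⟨sm_snd (sm n) x, (Circle.norm_coe _).le⟩)).boot fun j hj hb a => (key j hj hb a).bb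
  exact ⟨hb, key k le_rfl (hb.of_le k.le_succ)⟩

theorem fix : Dec35.FixStmt I3 Y κ lam := by
  intro D β hD hβ hY ⟨ξ, hξ, hΦ⟩ k ε hε
  obtain ⟨η, h0, h1⟩ := exists_eta (γ := (r : ℕ) × (c : Cfg (Y × ℝ) (Option κ) lam r) ×
      (Y × ℝ → CL c.m.V β.m.V) × (ℝ → ℝ) × Set ℝ)
    (P := fun ⟨_, c, _, _, S⟩ => ∃ u', ClsT D c β u' 0 S k ε)
    (H := fun ⟨_, c, u, θ, S⟩ η => ClsT D c β u θ S k η) fun d hd => by
      have k1 : CZ D.Z (hyperfilter ℕ) (fun n => univ ×ˢ (d n).2.2.2.2) k (fun n => (d n).2.1) (cy β)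
          (fun n => (d n).2.2.1) fun n x => Circle.exp ((d n).2.2.2.1 x.2) := fun _ hε =>
        (ev_eta 0 hε).mono fun n hn => (hd n).cl.mono (hd n).cl.op Subset.rfl le_rfl hn.2
      have f1 := fx_cy (k := k) hβ k1.op
      have z0 : ZZ D.Z.toPre (hyperfilter ℕ) (fun n => univ ×ˢ (d n).2.2.2.2) k
          fun n x => deriv (d n).2.2.2.1 x.2 := fun _ hε =>
        (ev_eta 0 hε).mono fun n hn => ⟨(hd n).cl.op, lb_snd (hd n).cl.op hε.le
          (contDiff_infty_iff_deriv.1 (hd n).sm).2 fun j hj x _ => by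
            rw [← iteratedDeriv_succ']
            exact ((hd n).bd _ (by omega) (by omega) _).trans hn.2⟩
      obtain ⟨z1, z2⟩ := zz_phase (fun n => (hd n).sm) z0
      have : ∃ h : ℕ → Y × ℝ → CL β.m.V β.m.V, CZ D.Z (hyperfilter ℕ)
          (fun n => univ ×ˢ (d n).2.2.2.2) k (fun _ => cy β) (cy β) h
          fun n x => (Circle.exp ((d n).2.2.2.1 x.2))⁻¹ := by
        by_cases h0 : ∀ x, (cy β).Φ x = 0
        · exact ⟨fun _ => (cy β).m.p, fun _ hε => (k1.op.and f1.adm).mono fun n h => Cl.of_eq h.1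
            (Eq0.refl h.2).iso (fun a x hx => (Eq0.refl h.2).par x hx a)
            (fun x _ => by simp [dP, h0, cs]) hε.le⟩
        obtain ⟨y, hy⟩ := not_forall.1 h0
        have hs : Sm (IC I3) ξ := contMDiffOn_univ.1 hξ.sm
        refine ⟨_, cz_rot (G := D.G) hD.B hβ.adm f1 hξ (fun x => ?_) (fun x => hΦ x trivial) z1 z2⟩
        have e1 : ⟪ξ x, ξ x⟫_ℝ = ⟪ξ y, ξ y⟫_ℝ := Kah60.const_on (h := fun x => ⟪ξ x, ξ x⟫_ℝ)
          D.Z.toPre isOpen_univ isPreconnected_univ (fun w _ => ⟨(SA.inner (hs w) (hs w)).md,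
            fun a => by
              rw [Pre.D_def, Wz78.dv_inner a (Wz78.adW_skw hβ.adm.conn a w) (hs w) (hs w)]
              erw [hξ.par a w trivial]
              simp⟩) trivial trivial
        have e2 := congrArg (· ((cy β).Φ y)) (Abel74.g_sq hD.B hβ.adm.ok (hξ.mem y trivial))
        have e3 := congrArg (· ((cy β).Φ y)) (g_J (hξ.mem y trivial))
        have e4 := congrArg (· ((cy β).Φ y)) hβ.adm.ok.Jsq
        simp only [mul_apply_eq_comp, hΦ y trivial, smul_apply, neg_apply,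
          (admOn_univ.2 hβ.adm).pΦ (mem_univ y)] at e2 e3 e4
        rw [← e3, e4, ← neg_one_smul ℝ] at e2
        have := smul_left_injective ℝ hy e2
        simp only [real_inner_self_eq_norm_sq] at e1
        linarith
      obtain ⟨h, k2⟩ := this
      obtain ⟨n, hn⟩ := ((k1.comp (G := D.G) k2 f1 f1 (((z1.of_le k.le_succ).clm
        (Complex.conjCLE : ℂ →L[ℝ] ℂ)).congr (Eventually.of_forall fun _ _ _ =>
          Circle.coe_inv_eq_conj _))) ε hε).exists
      exact ⟨n, _, hn.congr (fun _ _ => rfl) fun _ _ => by simp, contDiff_const,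
        fun j _ _ t => by simpa using hε.le⟩
  exact ⟨η, h0, fun r c u θ S h => h1 ⟨r, c, u, θ, S⟩ h⟩

end Crest.Agent.X212.Cay24
end
end

-- ▼ part X212/Err63/Gen
section

/-!
# Row 212, DEC-ERR (helper63): pointwise calculus for `rot`, the local part of the equations
-/

set_option autoImplicit false
set_option linter.unusedSectionVars false
noncomputable section
open scoped Manifold ContDiff Topology InnerProductSpace
open MeasureTheory Set Function Filter Real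

namespace Crest.Agent.X212.Err63
open An Map77 Sob92 Dec35 Rsp69
open Wz78 (SA dir)

variable {E : Type} [NormedAddCommGroup E] [NormedSpace ℝ E] [FiniteDimensional ℝ E]
  [MeasurableSpace E] [BorelSpace E]
  {HM : Type} [TopologicalSpace HM] {I : ModelWithCorners ℝ E HM} [I.Boundaryless]
  {M : Type} [TopologicalSpace M] [ChartedSpace HM M] [IsManifold I ∞ M] [MeasurableSpace M]
  [T2Space M] [BorelSpace M] [SecondCountableTopology M]
  {ι : Type} [Fintype ι] {lam : Type} [Fintype lam]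
  {N : Type} [NormedAddCommGroup N] [NormedSpace ℝ N] {r n : ℕ}

section pair
variable {κ : Type} [Fintype κ] {X Y : Type} [NormedAddCommGroup X] [NormedSpace ℝ X]
  [NormedAddCommGroup Y] [NormedSpace ℝ Y]

/-- inclusion of forms -/
abbrev jA : CL (Fm ι (HS κ)) (Cf ι κ) := i1 _ _
/-- inclusion of spinors -/
abbrev jP : CL (Eu κ) (Cf ι κ) := i2 _ _

theorem f2_pair (a : X) (b : Y) : f2 X Y (i1 X Y a + i2 X Y b) = a := by simp
theorem s2_pair (a : X) (b : Y) : s2 X Y (i1 X Y a + i2 X Y b) = b := by simp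

end pair

/-! ### bounded functions of unbounded phases -/

section fam
variable {𝒟 : Type*} {F : Pre I M ι} {l : Filter 𝒟} {S : 𝒟 → Set M} {w : 𝒟 → M → ℝ}
  {θ θ' : 𝒟 → M → ℝ}

/-- scalar families -/
abbrev Bs (F : Pre I M ι) (l : Filter 𝒟) (S : 𝒟 → Set M) (w : 𝒟 → M → ℝ) (k : ℕ)
    (f : 𝒟 → M → N) : Prop := Bk (N := fun _ => N) (fun _ => F) l S w k f

/-- phases with bounded derivatives -/
structure Ph (F : Pre I M ι) (l : Filter 𝒟) (S : 𝒟 → Set M) (k : ℕ) (θ : 𝒟 → M → ℝ) : Prop where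
  sa : ∀ᶠ d in l, ∀ x ∈ S d, SA I (θ d) x
  D : ∀ a, Bs F l S 1 k fun d => F.D a (θ d)

theorem Ph.of_le {j k : ℕ} (h : Ph F l S k θ) (hj : j ≤ k) : Ph F l S j θ :=
  ⟨h.sa, fun a => (h.D a).of_le hj⟩

theorem D_fun_ev {g : ℝ → ℝ} (hg : ContDiff ℝ ∞ g) {u : M → ℝ} {x : M} (hu : SA I u x) (a : ι) :
    (fun y => F.D a u y • deriv g (u y)) =ᶠ[𝓝 x] F.D a fun y => g (u y) :=
  (D_comp_ev (F := F) hg hu a).mono fun y hy => by rw [← hy]; exact (fderiv_eq_smul_deriv _).symm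

theorem Ph.comp (k : ℕ) : ∀ {g : ℝ → ℝ}, Neck67.Sm g → Ph F l S k θ →
    Bs F l S 1 k fun d x => g (θ d x) := by
  have h0 : ∀ {g : ℝ → ℝ}, Neck67.Sm g → (∀ᶠ d in l, ∀ x ∈ S d, SA I (θ d) x) →
      Bs F l S 1 0 fun d x => g (θ d x) := fun hg h =>
    let ⟨C, hC⟩ := hg.bd 0
    ⟨C, hC.nonneg, h.mono fun d h x hx => ⟨zero_le_one,
      hg.cd.contMDiff.contMDiffAt.comp x (h x hx), .zero' (by simpa using hC _)⟩⟩
  induction k with
  | zero => exact fun hg h => h0 hg h.sa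
  | succ k ih =>
    intro g hg h
    exact (h0 hg h.sa).succ fun a => (((h.D a).of_le k.le_succ).smulR
      (ih hg.deriv (h.of_le k.le_succ))).congr
        (h.sa.mono fun d hd x hx => D_fun_ev hg.cd (hd x hx) a)

theorem Ph.comp_sub (k : ℕ) : ∀ {g : ℝ → ℝ}, Neck67.Sm g → Ph F l S k θ → Ph F l S k θ' →
    (Bs F l S w k fun d x => θ d x - θ' d x) →
    Bs F l S w k fun d x => g (θ d x) - g (θ' d x) := by
  have h0 : ∀ {g : ℝ → ℝ}, Neck67.Sm g → (∀ᶠ d in l, ∀ x ∈ S d, SA I (θ d) x) →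
      (∀ᶠ d in l, ∀ x ∈ S d, SA I (θ' d) x) → (Bs F l S w 0 fun d x => θ d x - θ' d x) →
      Bs F l S w 0 fun d x => g (θ d x) - g (θ' d x) := by
    intro g hg h h' ⟨K, hK, h''⟩
    obtain ⟨C, hC⟩ := hg.deriv.bd 0
    refine ⟨C * K, mul_nonneg hC.nonneg hK, ((h.and h').and h'').mono fun d h x hx =>
      ⟨(h.2 x hx).1, (hg.cd.contMDiff.contMDiffAt.comp x (h.1.1 x hx)).sub
        (hg.cd.contMDiff.contMDiffAt.comp x (h.1.2 x hx)), .zero' ?_⟩⟩
    refine (convex_univ.norm_image_sub_le_of_norm_deriv_le (C := C) (fun y _ => hg.diff y)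
      (fun y _ => hC y) trivial trivial).trans ?_
    rw [mul_assoc]
    exact mul_le_mul_of_nonneg_left (h.2 x hx).2.2.bd hC.nonneg
  induction k with
  | zero => exact fun hg h h' e => h0 hg h.sa h'.sa e
  | succ k ih =>
    intro g hg h h' e
    refine (h0 hg h.sa h'.sa (e.of_le (Nat.zero_le _))).succ fun a =>
      (((e.D a).smulL (Ph.comp k hg.deriv (h.of_le k.le_succ))).add
        (((h'.D a).of_le k.le_succ).smulR (ih hg.deriv (h.of_le k.le_succ) (h'.of_le k.le_succ)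
          (e.of_le k.le_succ)))).congr ?_
    filter_upwards [h.sa, h'.sa] with d hd hd' x hx
    have s1 := hg.cd.contMDiff.contMDiffAt.comp x (hd x hx)
    have s2 := hg.cd.contMDiff.contMDiffAt.comp x (hd' x hx)
    filter_upwards [D_fun_ev (F := F) hg.cd (hd x hx) a, D_fun_ev (F := F) hg.cd (hd' x hx) a,
      (hd x hx).ev, (hd' x hx).ev, SA.ev s1, SA.ev s2] with y e1 e2 m1 m2 m3 m4
    have e3 : F.D a (fun y => θ d y - θ' d y) y = F.D a (θ d) y - F.D a (θ' d) y := dv_sub m1 m2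
    have e4 : F.D a (fun y => g (θ d y) - g (θ' d y)) y
        = F.D a (fun y => g (θ d y)) y - F.D a (fun y => g (θ' d y)) y := dv_sub m3 m4
    rw [e4, e3, ← e1, ← e2]
    simp only [smul_eq_mul]
    ring

theorem Ph.exp (k : ℕ) : Ph F l S k θ →
    Bs F l S (fun d x => exp (θ d x)) k fun d x => exp (θ d x) := by
  have h0 : (∀ᶠ d in l, ∀ x ∈ S d, SA I (θ d) x) →
      Bs F l S (fun d x => Real.exp (θ d x)) 0 fun d x => Real.exp (θ d x) := fun h =>
    ⟨1, zero_le_one, h.mono fun d h x hx => ⟨(exp_pos _).le,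
      contDiff_exp.contMDiff.contMDiffAt.comp x (h x hx), .zero' (by simp)⟩⟩
  induction k with
  | zero => exact fun h => h0 h.sa
  | succ k ih =>
    intro h
    refine (h0 h.sa).succ fun a => (((h.D a).of_le k.le_succ).smulR (ih (h.of_le k.le_succ))).congr
      (h.sa.mono fun d hd x hx => ?_)
    simpa only [Real.deriv_exp] using D_fun_ev (F := F) contDiff_exp (hd x hx) a

theorem bd_cs (k : ℕ) : Neck67.Bd k cos 1 ∧ Neck67.Bd k sin 1 := by
  induction k with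
  | zero => exact ⟨abs_cos_le_one, abs_sin_le_one⟩
  | succ k ih =>
    refine ⟨⟨abs_cos_le_one, ?_⟩, abs_sin_le_one, ?_⟩
    · rw [Real.deriv_cos']; exact ih.2.neg
    · rw [Real.deriv_sin]; exact ih.1

theorem sm_cos : Neck67.Sm cos := ⟨contDiff_cos, fun k => ⟨1, (bd_cs k).1⟩⟩
theorem sm_sin : Neck67.Sm sin := ⟨contDiff_sin, fun k => ⟨1, (bd_cs k).2⟩⟩

theorem Bs.clm {N' : Type} [NormedAddCommGroup N'] [NormedSpace ℝ N'] (L : N →L[ℝ] N') {k : ℕ}
    {f : 𝒟 → M → N} (h : Bs F l S w k f) : Bs F l S w k fun d x => L (f d x) :=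
  Bk.clm (L := fun _ => L) (Ub.const _) h

theorem cb_of_bs {f : M → N} (h : ∀ k, Bs F (⊤ : Filter Unit) (fun _ => univ) 1 k fun _ => f) :
    F.Cb f := by
  choose K _ hK using h
  simp only [eventually_top, forall_const, mem_univ, Pi.one_apply, mul_one] at hK
  exact ⟨K, fun x => (hK 0 x).2.1, fun k => CB_of_PB fun x => (hK k x).2.2⟩

variable {c : Cfg M ι lam r} {k : ℕ} {v v' : 𝒟 → M → Cv c}

theorem rot_eq (θ : M → ℝ) (v : M → Cv c) (x : M) : rot c θ v x = jA (fa (v x)) +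
    jP (cos (θ x) • (c.Φ x + fp (v x)) + sin (θ x) • c.m.J (c.Φ x + fp (v x)) - c.Φ x) := rfl

theorem bs_rot (hΦ : F.Cb c.Φ) (h : Ph F l S k θ) (hv : Bs F l S 1 k v) :
    Bs F l S 1 k fun d => rot c (θ d) (v d) := by
  have h1 : Bs F l S 1 k fun d x => c.Φ x + fp (v d x) := (Bk.of_Cb hΦ).add (hv.clm fp)
  have h2 : Bs F l S 1 k fun d x => cos (θ d x) • (c.Φ x + fp (v d x)) +
      sin (θ d x) • c.m.J (c.Φ x + fp (v d x)) - c.Φ x := (((h.comp k sm_cos).smulR h1).add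
    ((h.comp k sm_sin).smulR (h1.clm c.m.J))).sub (Bk.of_Cb hΦ)
  exact ((hv.clm fa).clm jA).add (h2.clm jP)

theorem bs_rot_sub (hΦ : F.Cb c.Φ) (h : Ph F l S k θ) (h' : Ph F l S k θ') (hv : Bs F l S 1 k v)
    (e : Bs F l S w k fun d x => θ d x - θ' d x) (e' : Bs F l S w k fun d x => v d x - v' d x) :
    Bs F l S w k fun d x => rot c (θ d) (v d) x - rot c (θ' d) (v' d) x := by
  have h1 : Bs F l S 1 k fun d x => c.Φ x + fp (v d x) := (Bk.of_Cb hΦ).add (hv.clm fp)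
  have h2 := e'.clm fp
  convert ((e'.clm fa).clm jA).add (Bs.clm jP
    (((((h.comp_sub k sm_cos h' e).smulL h1).add
      ((h.comp_sub k sm_sin h' e).smulL (h1.clm c.m.J))).add
      ((h'.comp k sm_cos).smulR h2)).add ((h'.comp k sm_sin).smulR (h2.clm c.m.J)))) using 3 with d x
  refine ext2 (by simp [rot_eq]) ?_
  simp only [rot_eq, map_add, map_sub, s2_i1, s2_i2]
  module

end fam

/-! ### the local part of the equations -/

/-- admissible bounded base configurations -/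
structure Cd (B : Base M ι lam) (G : Geo I M ι lam) (c : Cfg M ι lam r) : Prop where
  hB : B.OK I
  hG : G.OK B
  adm : c.Adm B G
  dat : Std94.Kl.Dat (Std94.cbK G.F.toPre) B c.m id
  cW : ∀ a, G.F.Cb (c.W a)
  cΦ : G.F.Cb c.Φ
  cc : ∀ a b k, G.F.Cb (G.F.c a b k)

variable {B : Base M ι lam} {G : Geo I M ι lam} {c : Cfg M ι lam r}

variable (B G c) in
/-- the unperturbed equations at `c + u` -/
def Lc (u : M → Cv c) (x : M) : Ev c :=
  sm2 (ContinuousLinearMap.id ℝ _) (c.m.p2 B x)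
    ((mbd B c.m).N G.F (fun y => base c.W c.Φ y + u y) x)

theorem f2_se (τ : Pt M ι lam r n) (u : M → Cv c) (x : M) :
    f2 _ _ (se B G τ c u x) = (cf c u).eD G τ x := f2_pair _ _

theorem s2_se (τ : Pt M ι lam r n) (u : M → Cv c) (x : M) :
    s2 _ _ (se B G τ c u x) = (cf c u).eC B G τ x := s2_pair _ _

theorem f2_te (τ : Pt M ι lam r n) (u : M → Cv c) (x : M) :
    f2 _ _ (te τ c u x) = τ.D (cf c u) x := f2_pair _ _

theorem s2_te (τ : Pt M ι lam r n) (u : M → Cv c) (x : M) :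
    s2 _ _ (te τ c u x) = τ.C (cf c u) x := s2_pair _ _

theorem se_eq' (hG : G.OK B) (h : Sm I (base c.W c.Φ)) (τ : Pt M ι lam r n) {u : M → Cv c}
    (hu : Sm I u) (x : M) : se B G τ c u x = Lc B G c u x - te τ c u x := by
  have s0 : Sm I fun y => base c.W c.Φ y + u y := h.add hu
  have e1 := Bd.f2_N (d := mbd B c.m) (F := G.F) _ s0 x
  have e2 := Bd.s2_N (d := mbd B c.m) (F := G.F) hG.P _ s0 x
  simp only [map_add, oa_base, fp_base] at e1 e2
  refine ext2 ?_ ?_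
  · rw [f2_se, map_sub, Lc, f2_sm2, ContinuousLinearMap.id_apply, e1, f2_te]
    rfl
  · rw [s2_se, map_sub, Lc, s2_sm2, s2_te]
    refine congrArg (· - τ.C (cf c u) x) ?_
    change c.m.p2 B x (c.m.Fg _ (c.m.addC c.W fun y => fa (u y)) x) -
      c.m.mu B x (c.Φ x + fp (u x)) (c.Φ x + fp (u x)) = _
    refine fm_ext fun s => ?_
    simp only [Md.p2, Md.mu, Md.Fg, Md.q, e2, PiLp.sub_apply, idx_apply, Std94.pg_pg, map_sub,
      smul_sub, Finset.sum_sub_distrib, map_add]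
    rfl

namespace Cd
variable (h : Cd B G c)
include h

theorem inK : (mbd B c.m).In (F := fun _ : Unit => G.F.toPre) (cb _ univ) :=
  have H := fun t => Std94.pmx h.adm.ok (id t)
  ⟨fun a b _ _ => h.dat.P a b, fun a _ _ => h.dat.ρ a, fun _ _ => h.dat.pg h.hB H,
    fun _ _ => h.dat.p1 h.hB H, fun _ _ => h.dat.p2 h.hB H, fun _ _ => h.dat.pp,
    fun _ _ => h.dat.pm⟩

theorem cσ (a : ι) : G.F.Cb ((mbd B c.m).σ a) :=
  Bd.In.σ (F := fun _ : Unit => G.F) h.inK a () trivial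

theorem cβ : G.F.Cb (mbd B c.m).β := Bd.In.β (F := fun _ : Unit => G.F) h.inK () trivial

theorem cB : G.F.Cb (Bc G.F : M → CL (Cv c) (Ev c)) :=
  Bd.In.Bc (F := fun _ : Unit => G.F) (K := cb _ univ) (fun a b k _ _ => h.cc a b k) () trivial

theorem c0 : G.F.Cb (base c.W c.Φ) :=
  Cls.base (F := fun _ : Unit => G.F.toPre) (K := cb _ univ) (W := fun _ => c.W)
    (Φ := fun _ => c.Φ) (fun a _ _ => h.cW a) (fun _ _ => h.cΦ) () trivial

theorem cQ : G.F.Cb fun x => (sm2 (ContinuousLinearMap.id ℝ _) (c.m.p2 B x) : CL (Ev c) (Ev c)) :=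
  Cls.ps (F := fun _ : Unit => G.F.toPre) (K := cb _ univ)
    (p := fun _ _ => ContinuousLinearMap.id ℝ _) (q := fun _ => c.m.p2 B)
    (fun _ _ => Cb_const _) h.inK.p2 () trivial

variable {𝒟 : Type*} {l : Filter 𝒟} {S : 𝒟 → Set M} {w : 𝒟 → M → ℝ} {k : ℕ} {u v : 𝒟 → M → Cv c}

theorem bs_Lc (hu : Bs G.F.toPre l S 1 (k + 1) u) :
    Bs G.F.toPre l S 1 k fun d => Lc B G c (u d) := by
  have h1 : Bs G.F.toPre l S 1 (k + 1) fun d y => base c.W c.Φ y + u d y := (Bk.of_Cb h.c0).add hu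
  have h2 := h1.of_le k.le_succ
  exact (Bk.of_Cb h.cQ).appR (((Bk.sum _ Bk.nn1 fun a _ => (Bk.of_Cb (h.cσ a)).appR (h1.D a)).add
    ((Bk.of_Cb h.cB).appR h2)).add (((Bk.of_Cb h.cβ).appR h2).appR h2))

theorem bs_Lc_sub (hu : Bs G.F.toPre l S 1 (k + 1) u) (hv : Bs G.F.toPre l S 1 (k + 1) v)
    (e : Bs G.F.toPre l S w (k + 1) fun d x => u d x - v d x) :
    Bs G.F.toPre l S w k fun d x => Lc B G c (u d) x - Lc B G c (v d) x := by
  have h1 : Bs G.F.toPre l S 1 (k + 1) fun d y => base c.W c.Φ y + u d y := (Bk.of_Cb h.c0).add hu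
  have h2 : Bs G.F.toPre l S 1 (k + 1) fun d y => base c.W c.Φ y + v d y := (Bk.of_Cb h.c0).add hv
  have e' := e.of_le k.le_succ
  refine ((Bk.of_Cb h.cQ).appR ((((Bk.sum Finset.univ e.nn fun a _ =>
    (Bk.of_Cb (h.cσ a)).appR (e.D a)).add ((Bk.of_Cb h.cB).appR e')).add
      (((Bk.of_Cb h.cβ).appR e').appL (h1.of_le k.le_succ))).add
      (((Bk.of_Cb h.cβ).appR (h2.of_le k.le_succ)).appR e'))).congr ?_
  filter_upwards [h1.sa, h2.sa] with d s1 s2 x hx
  filter_upwards [(s1 x hx).ev, (s2 x hx).ev] with y m1 m2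
  have e1 : ∀ a, G.F.D a (fun x => u d x - v d x) y =
      G.F.D a (fun y => base c.W c.Φ y + u d y) y - G.F.D a (fun y => base c.W c.Φ y + v d y) y :=
    fun a => by
      refine Eq.trans ?_ (dv_sub m1 m2)
      exact congrArg (fun f => G.F.D a f y) (funext fun z => (add_sub_add_left_eq_sub _ _ _).symm)
  rw [Lc, Lc, ← map_sub]
  congr 1
  simp only [Bd.N, Nq, Pre.op, e1, map_sub, map_add, Finset.sum_sub_distrib, sub_apply, add_apply]
  abel

theorem se_eq (τ : Pt M ι lam r n) {u : M → Cv c} (hu : Sm I u) (x : M) :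
    se B G τ c u x = Lc B G c u x - te τ c u x := se_eq' h.hG (Cb.sm h.c0) τ hu x

theorem sm_Lc {u : M → Cv c} (hu : G.F.Cb u) : Sm I (Lc B G c u) :=
  Cb.sm (cb_of_bs fun _ => h.bs_Lc (Bk.of_Cb hu))

end Cd

/-! ### admissibility and phases -/

theorem Tg.fa {u : M → Cv c} (h : Tg B c u) (x : M) : c.m.p1 B x (fa (u x)) = fa (u x) :=
  (f2_ps x (u x)).symm.trans (congrArg _ (h x))

theorem Tg.fp {u : M → Cv c} (h : Tg B c u) (x : M) : c.m.pp B x (fp (u x)) = fp (u x) :=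
  (s2_ps x (u x)).symm.trans (congrArg _ (h x))

theorem adm_cf (h : c.Adm B G) {u : M → Cv c} (hu : Sm I u) (ht : Tg B c u) : (cf c u).Adm B G :=
  ⟨h.ok, Spn45.isConn_addC h.ok h.conn (fa.contMDiff.comp hu) (Tg.fa ht),
    h.sm.add (fp.contMDiff.comp hu), fun x => by
      show c.m.pp B x (c.Φ x + fp (u x)) = c.Φ x + fp (u x)
      rw [map_add, h.pos, Tg.fp ht], h.z⟩

theorem tg_rot (h : c.Adm B G) {v : M → Cv c} (ht : Tg B c v) (θ : M → ℝ) :
    Tg B c (rot c θ v) := fun x => by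
  have e : ∀ a, c.m.pp B x (c.m.J a) = c.m.J (c.m.pp B x a) := fun a =>
    (congrArg (fun T : En _ => T a) (Wz78.J_pp h.ok x)).symm
  refine ext2 ((f2_ps x _).trans ?_) ((s2_ps x _).trans ?_)
  · rw [rot_eq, f2_pair]; exact Tg.fa ht x
  · rw [rot_eq, s2_pair]
    show c.m.pp B x _ = _
    simp only [map_add, map_sub, map_smul, e, h.pos, Tg.fp ht x]

theorem rot_zero (c : Cfg M ι lam r) : rot c (fun _ => 0) 0 = 0 := funext fun x => by
  simp [rot_eq]

theorem cf_zero_z {c : Cfg M ι lam 0} (u v : M → Cv c) (ζ : ℂ) : (cf c v).z = ζ • (cf c u).z :=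
  Subsingleton.elim _ _

/-- the phase acting on the values of the equations -/
def phE (c : Cfg M ι lam r) (θ : ℝ) : CL (Ev c) (Ev c) := sm2 (ph c θ) (ContinuousLinearMap.id ℝ _)

theorem ph_eq (θ : ℝ) (a : c.m.V) : ph c θ a = cs c.m.J (Circle.exp θ) a := by
  simp [ph, cs, Complex.exp_ofReal_mul_I_re, Complex.exp_ofReal_mul_I_im]

theorem ph_add (h : c.m.OK I B) (s t : ℝ) (a : c.m.V) : ph c (s + t) a = ph c t (ph c s a) := by
  rw [ph_eq, ph_eq, ph_eq, Eqv71.cs_mul h.Jsq, add_comm, Circle.exp_add, Circle.coe_mul]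

theorem ub_phE (c : Cfg M ι lam r) : ∃ K ≥ 0, ∀ θ, ‖phE c θ‖ ≤ K := by
  have e : ∀ θ, phE c θ = cos θ • sm2 1 0 + sin θ • sm2 c.m.J 0 +
      sm2 0 (ContinuousLinearMap.id ℝ _) := fun θ =>
    ContinuousLinearMap.ext fun a => ext2 (by simp [phE, ph]) (by simp [phE])
  refine ⟨‖(sm2 1 0 : CL (Ev c) (Ev c))‖ + ‖(sm2 c.m.J 0 : CL (Ev c) (Ev c))‖ +
    ‖(sm2 0 (ContinuousLinearMap.id ℝ _) : CL (Ev c) (Ev c))‖, by positivity, fun θ => ?_⟩
  rw [e]
  refine norm_add_le_of_le (norm_add_le_of_le ?_ ?_) le_rfl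
  · rw [norm_smul]; exact mul_le_of_le_one_left (norm_nonneg _) (abs_cos_le_one θ)
  · rw [norm_smul]; exact mul_le_of_le_one_left (norm_nonneg _) (abs_sin_le_one θ)

/-- a constant phase acts on the equations -/
theorem se_phase {c : Cfg M ι lam 0} {τ : Pt M ι lam 0 n} (hB : B.OK I) (hG : G.OK B)
    (h : c.Adm B G)
    (nat : ∀ (c c' : Cfg M ι lam 0) (u : M → CL c.m.V c'.m.V) (ζ : Circle), c.Adm B G →
      c'.Adm B G → CEq G.F c c' univ id (fun x b a => B.P b a x) B.l u ζ →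
      ∀ x, τ.D c' x = cs c'.m.J ζ (u x (τ.D c x)) ∧ ∀ s, τ.C c' x s = Eqv71.cj (u x) (τ.C c x s))
    {θ : M → ℝ} {v : M → Cv c} (ht : Tg B c v) (s : ℝ) (h1 : Sm I (rot c θ v))
    (h2 : Sm I (rot c (fun x => θ x + s) v)) (x : M) :
    se B G τ c (rot c (fun x => θ x + s) v) x = phE c s (se B G τ c (rot c θ v) x) := by
  have a1 := adm_cf h h1 (tg_rot h ht θ)
  have a2 := adm_cf h h2 (tg_rot h ht _)
  have g := Eqv71.lg_refl hB hG isOpen_univ
  have e1 := Eqv71.ceq_refl hB hG (Eqv71.ad0 a1) isOpen_univ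
  have hW : (cf c (rot c (fun x => θ x + s) v)).W = (cf c (rot c θ v)).W := by
    funext a y; simp [cf, Nd18.vr, Md.addC, rot]
  have e2 : CEq G.F (cf c (rot c θ v)) (cf c (rot c (fun x => θ x + s) v)) univ id
      (fun x b a => B.P b a x) B.l c.m.p (Circle.exp s) := by
    refine ⟨e1.m, hW ▸ e1.W, fun y _ => ?_, cf_zero_z _ _ _⟩
    refine Eq.trans ?_ ((ph_eq (c := c) s _).trans
      (congrArg _ (Eqv71.p_Φ (Eqv71.ad0 a1) y).symm))
    show c.Φ y + fp (rot c _ v y) = ph c s (c.Φ y + fp (rot c θ v y))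
    simp [rot, ph_add h.ok]
  have d1 := Eqv71.ceq_eD g a1 a1 e1 (mem_univ x) (nat _ _ _ _ a1 a1 e1 x).1
  have d2 := Eqv71.ceq_eD g a1 a2 e2 (mem_univ x) (nat _ _ _ _ a1 a2 e2 x).1
  have c1 : τ.C (cf c (rot c (fun x => θ x + s) v)) x = τ.C (cf c (rot c θ v)) x :=
    fm_ext fun t => ((nat _ _ _ _ a1 a2 e2 x).2 t).trans ((nat _ _ _ _ a1 a1 e1 x).2 t).symm
  have c2 := (Eqv71.ceq_p2F g a1 a2 e2 (mem_univ x)).trans
    (Eqv71.ceq_p2F g a1 a1 e1 (mem_univ x)).symm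
  have c3 := (Eqv71.ceq_mu g a1 a2 e2 (mem_univ x)).trans
    (Eqv71.ceq_mu g a1 a1 e1 (mem_univ x)).symm
  rw [Circle.coe_one, Eqv71.cs_one] at d1
  refine ext2 ?_ ?_
  · rw [phE, f2_sm2, ph_eq, f2_se, f2_se]
    exact d2.trans (congrArg _ d1.symm)
  · rw [phE, s2_sm2, ContinuousLinearMap.id_apply, s2_se, s2_se]
    exact congrArg₂ (· - ·) (congrArg₂ (· - ·) c2 c3) c1

/-! ### from pointwise bounds to Sobolev norms -/

/-- the number of words of length `≤ k` -/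
def cN (ι : Type) [Fintype ι] : ℕ → ℝ
  | 0 => 1
  | k + 1 => 1 + Fintype.card ι * cN ι k

theorem cN_nonneg : ∀ k, 0 ≤ cN ι k
  | 0 => zero_le_one
  | k + 1 => by have := cN_nonneg k; unfold cN; positivity

theorem n2_le {F : Pre I M ι} {W V : M → ℝ} (hV : Integrable V F.μ) (hW : ∀ x, W x ^ 2 ≤ V x)
    (k : ℕ) : ∀ {f : M → N}, Sm I f → (∀ x, PB F k f x (W x)) →
      FL F k f ∧ N2 F k f ≤ cN ι k * ∫ x, V x ∂F.μ := by
  have h0 : ∀ {f : M → N}, Sm I f → (∀ x, ‖f x‖ ≤ W x) →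
      MemLp f 2 F.μ ∧ ∫ x, ‖f x‖ ^ 2 ∂F.μ ≤ ∫ x, V x ∂F.μ := fun {f} hf h => by
    have e : ∀ x, ‖f x‖ ^ 2 ≤ V x := fun x =>
      (pow_le_pow_left₀ (norm_nonneg _) (h x) 2).trans (hW x)
    have m := hf.continuous.aestronglyMeasurable (μ := F.μ)
    exact ⟨(memLp_two_iff_integrable_sq_norm m).2 (hV.mono' (m.norm.pow 2)
      (.of_forall fun x => by rw [Real.norm_of_nonneg (by positivity)]; exact e x)),
      integral_mono_of_nonneg (.of_forall fun x => by positivity) hV (.of_forall e)⟩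
  induction k with
  | zero => exact fun hf h => by rw [cN, one_mul]; exact h0 hf fun x => (h x).bd
  | succ k ih =>
    intro f hf h
    have h1 := h0 hf fun x => (h x).bd
    have h2 := fun a => ih (F.sm_D hf a) fun x => (h x).D a
    refine ⟨⟨h1.1, fun a => (h2 a).1⟩, (add_le_add h1.2 (Finset.sum_le_sum fun a _ =>
      (h2 a).2)).trans (le_of_eq ?_)⟩
    simp only [cN, Finset.sum_const, Finset.card_univ, nsmul_eq_mul]
    ring

end Crest.Agent.X212.Err63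
end
end

-- ▼ part X212/Err63/Tm
section

/-!
# Row 212, DEC-ERR (helper63): the functions of time of the cut family
-/

set_option autoImplicit false
noncomputable section
open scoped Topology ContDiff
open MeasureTheory Set Function Filter Real

namespace Crest.Agent.X212.Err63
open Dec35 Neck67

variable {th : ℝ → ℝ} {L p q c s t η : ℝ} {k : ℕ}

theorem chi_eq (p q : ℝ) : chi p q = up p 1 * dn q 1 := rfl

theorem ret_eq (L p q : ℝ) : ret L p q = up (p - L) L * dn (q + L) L := rfl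

theorem sm_chi (p q : ℝ) : Sm (chi p q) := (sm_up le_rfl p).mul (sm_dn le_rfl q)

theorem bd_chi (k : ℕ) (p q : ℝ) : Bd k (chi p q) (2 ^ k * cS k * cS k) :=
  Bd.mul (sm_up le_rfl p).cd (sm_dn le_rfl q).cd (bd_up k le_rfl p).of_succ
    (bd_dn k le_rfl q).of_succ

theorem chi_one (h : t ∈ Icc (p + 1) (q - 1)) : chi p q t = 1 := by
  rw [chi, up_one one_pos h.1, dn_one one_pos h.2, one_mul]

theorem chi_left (h : t ≤ p) : chi p q t = 0 := by rw [chi, up_zero one_pos h, zero_mul]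

theorem chi_right (h : q ≤ t) : chi p q t = 0 := by rw [chi, dn_zero one_pos h, mul_zero]

theorem ret_one (hL : 0 < L) (h : t ∈ Icc p q) : ret L p q t = 1 := by
  rw [ret, up_one hL (by linarith [h.1]), dn_one hL (by linarith [h.2]), one_mul]

theorem ret_left (hL : 0 < L) (h : t ≤ p - L) : ret L p q t = 0 := by
  rw [ret, up_zero hL h, zero_mul]

theorem ret_right (hL : 0 < L) (h : q + L ≤ t) : ret L p q t = 0 := by
  rw [ret, dn_zero hL h, mul_zero]

section vth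
variable (h : ContDiff ℝ ∞ th)
include h

theorem cont_ig (p q : ℝ) : Continuous fun s => chi p q s * deriv th s :=
  (sm_chi p q).cd.continuous.mul (cd_deriv h).continuous

theorem hasDerivAt_vth (t : ℝ) : HasDerivAt (vth th p q) (chi p q t * deriv th t) t :=
  (cont_ig h p q).deriv_integral _ p t ▸
    ((intervalIntegral.differentiable_integral_of_continuous (cont_ig h p q)) t).hasDerivAt

theorem deriv_vth : deriv (vth th p q) = chi p q * deriv th :=
  funext fun t => (hasDerivAt_vth h t).deriv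

theorem cd_vth : ContDiff ℝ ∞ (vth th p q) :=
  contDiff_infty_iff_deriv.2 ⟨fun t => (hasDerivAt_vth h t).differentiableAt,
    deriv_vth h ▸ (sm_chi p q).cd.mul (cd_deriv h)⟩

theorem vth_sub (s t : ℝ) :
    vth th p q s - vth th p q t = ∫ x in t..s, chi p q x * deriv th x :=
  intervalIntegral.integral_interval_sub_left ((cont_ig h p q).intervalIntegrable _ _)
    ((cont_ig h p q).intervalIntegrable _ _)

omit h in
theorem vth_left (ht : t ≤ p) : vth th p q t = 0 := by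
  rw [vth, intervalIntegral.integral_congr (g := fun _ => 0), intervalIntegral.integral_zero]
  intro x hx
  rw [uIcc_of_ge ht] at hx
  simp only [chi_left hx.2, zero_mul]

theorem vth_right (ht : q ≤ t) : vth th p q t = vth th p q q := by
  rw [← sub_eq_zero, vth_sub h, intervalIntegral.integral_congr (g := fun _ => 0),
    intervalIntegral.integral_zero]
  intro x hx
  rw [uIcc_of_le ht] at hx
  simp only [chi_right hx.1, zero_mul]

theorem vth_mid (hs : s ∈ Icc (p + 1) (q - 1)) (ht : t ∈ Icc (p + 1) (q - 1)) :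
    vth th p q s - vth th p q t = th s - th t := by
  rw [vth_sub h, intervalIntegral.integral_congr (g := deriv th),
    intervalIntegral.integral_deriv_eq_sub (fun x _ => cd_diff h x)
      ((cd_deriv h).continuous.intervalIntegrable _ _)]
  intro x hx
  simp only [chi_one (uIcc_subset_Icc ht hs hx), one_mul]

theorem Th_mid (hL : 0 < L) (hs : s ∈ Icc (p + 1) (q - 1)) (ht : t ∈ Icc (p + 1) (q - 1)) :
    Th th L p q c s = th s + (Th th L p q c t - th t) := by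
  have := vth_mid h hs ht
  rw [Th, Th, ret_one hL ⟨by linarith [hs.1], by linarith [hs.2]⟩,
    ret_one hL ⟨by linarith [ht.1], by linarith [ht.2]⟩]
  linarith

theorem cd_Th (hL : 1 ≤ L) : ContDiff ℝ ∞ (Th th L p q c) :=
  ((sm_up hL _).mul (sm_dn hL _)).cd.mul (contDiff_const.add (cd_vth h))

theorem deriv_Th (hL : 1 ≤ L) : deriv (Th th L p q c) =
    c • (deriv (up (p - L) L) * dn (q + L) L) +
      (c + vth th p q q) • (up (p - L) L * deriv (dn (q + L) L)) + chi p q * deriv th := by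
  have h0 : 0 < L := by linarith
  funext t
  have d := ((((sm_up hL (p - L)).diff t).hasDerivAt.mul
    ((sm_dn hL (q + L)).diff t).hasDerivAt).mul ((hasDerivAt_vth (p := p) (q := q) h t).const_add c))
  have e1 : deriv (up (p - L) L) t * vth th p q t = 0 := by
    rcases le_or_gt t p with ht | ht
    · rw [vth_left ht, mul_zero]
    · rw [deriv_zero_off isClosed_Iic (fun u hu => up_one h0 (by
        linarith [not_le.1 (show ¬u ≤ p from hu)])) t (not_le.2 ht), zero_mul]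
  have e2 : deriv (dn (q + L) L) t * vth th p q t = deriv (dn (q + L) L) t * vth th p q q := by
    rcases le_or_gt q t with ht | ht
    · rw [vth_right h ht]
    · rw [deriv_zero_off isClosed_Ici (fun u hu => dn_one h0 (by
        linarith [not_le.1 (show ¬q ≤ u from hu)])) t (not_le.2 ht), zero_mul, zero_mul]
  have e3 : up (p - L) L t * dn (q + L) L t * chi p q t = chi p q t := by
    rcases le_or_gt t p with ht | ht
    · rw [chi_left ht, mul_zero]
    · rcases le_or_gt q t with ht' | ht'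
      · rw [chi_right ht', mul_zero]
      · exact (congrArg (· * _) (ret_one h0 ⟨ht.le, ht'.le⟩)).trans (one_mul _)
  refine d.deriv.trans ?_
  simp only [Pi.add_apply, Pi.mul_apply, Pi.smul_apply, smul_eq_mul]
  linear_combination dn (q + L) L t * e1 + up (p - L) L t * e2 + deriv th t * e3

theorem sm_dTh (hL : 1 ≤ L) (h' : Sm (deriv th)) : Sm (deriv (Th th L p q c)) := by
  rw [deriv_Th h hL]
  exact ((((sm_up hL _).deriv.mul (sm_dn hL _)).smul _).add
    (((sm_up hL _).mul (sm_dn hL _).deriv).smul _)).add ((sm_chi p q).mul h')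

end vth

/-- the constant of the cut family -/
def cA (k : ℕ) : ℝ := 2 ^ k * (2 ^ k * cS k * cS k)

theorem one_le_cA (k : ℕ) : 1 ≤ cA k := by
  have h := one_le_cS k
  have h2 : (1 : ℝ) ≤ 2 ^ k := one_le_pow₀ one_le_two
  exact one_le_mul_of_one_le_of_one_le h2 (one_le_mul_of_one_le_of_one_le
    (one_le_mul_of_one_le_of_one_le h2 h) h)

theorem bd_dTh (h : ContDiff ℝ ∞ th) (hL : 1 ≤ L) (hb : Bd k (deriv th) η) :
    Bd k (deriv (Th th L p q c)) (cA k * (η + (|c| + |c + vth th p q q|) / L)) := by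
  rw [deriv_Th h hL]
  have u := sm_up hL (p - L)
  have d := sm_dn hL (q + L)
  have b1 := (Bd.mul u.deriv.cd d.cd (bd_deriv_up k hL (p - L)) (bd_dn k hL (q + L)).of_succ).smul c
  have b2 := (Bd.mul u.cd d.deriv.cd (bd_up k hL (p - L)).of_succ (bd_deriv_dn k hL (q + L))).smul
    (c + vth th p q q)
  have b3 := Bd.mul (sm_chi p q).cd (cd_deriv h) (bd_chi k p q) hb
  refine (Bd.add (((u.deriv.mul d).smul _).add ((u.mul d.deriv).smul _)).cd
    ((sm_chi p q).cd.mul (cd_deriv h)) (Bd.add ((u.deriv.mul d).smul _).cd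
      ((u.mul d.deriv).smul _).cd b1 b2) b3).mono ?_
  have h2 : (1 : ℝ) ≤ 2 ^ k := one_le_pow₀ one_le_two
  have h3 := one_le_cS k
  have h4 : 0 ≤ 2 ^ k * cS k * cS k * ((|c| + |c + vth th p q q|) / L) := by positivity
  have := mul_le_mul_of_nonneg_right h2 h4
  rw [cA, div_eq_mul_inv] at *
  nlinarith

/-! ### the weight -/

/-- the depth which controls the error -/
def sg (L p q t : ℝ) : ℝ := max (min (t - p) (q - t)) (max 0 (-L - min (t - p) (q - t)))

/-- four windows -/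
def V4 (δ L p q t : ℝ) : ℝ :=
  Dgr80.b δ (t - p) + Dgr80.b δ (t - q) + Dgr80.b δ (t - (p - L)) + Dgr80.b δ (t - (q + L))

theorem integrable_V4 {δ : ℝ} (hδ : 0 < δ) (L p q : ℝ) : Integrable (V4 δ L p q) :=
  have h := (Dgr80.integrable_b hδ).comp_sub_right
  (((h _).add (h _)).add (h _)).add (h _)

theorem integral_V4 {δ : ℝ} (hδ : 0 < δ) (L p q : ℝ) : ∫ t, V4 δ L p q t = 4 := by
  have h := (Dgr80.integrable_b hδ).comp_sub_right
  unfold V4
  rw [integral_add (((h _).fun_add (h _)).fun_add (h _)) (h _),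
    integral_add ((h _).fun_add (h _)) (h _), integral_add (h _) (h _)]
  simp only [integral_sub_right_eq_self (Dgr80.b δ), Dgr80.integral_b hδ]
  norm_num

theorem wt_le {δ g A ψ : ℝ} (hδ : 0 < δ) (hg : 2 * δ ≤ g) (hL : 0 ≤ L)
    (h : ψ ≤ δ * max 0 (L + min (t - p) (q - t)) + A) :
    exp (ψ - g * sg L p q t) ^ 2 ≤ exp (A + δ * L) ^ 2 * (2 / δ) * V4 (2 * δ) L p q t := by
  have hδ2 : 0 < 2 * δ := by positivity
  have key : ∀ a, ψ - g * sg L p q t ≤ A + δ * L - δ * |t - a| →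
      exp (ψ - g * sg L p q t) ^ 2 ≤ exp (A + δ * L) ^ 2 * (2 / δ) * Dgr80.b (2 * δ) (t - a) := by
    intro a ha
    have h1 := Dgr80.b_ge hδ2 (t - a)
    calc _ ≤ exp (A + δ * L - δ * |t - a|) ^ 2 := by gcongr
      _ = exp (A + δ * L) ^ 2 * (2 / δ) * (2 * δ / 4 * exp (-(2 * δ * |t - a|))) := by
          rw [sub_eq_add_neg, exp_add, mul_pow, ← exp_nat_mul (-(δ * |t - a|))]
          field_simp
          norm_num
          ring_nf
      _ ≤ _ := by gcongr
  have b := fun a => (Dgr80.b_pos hδ2 (t - a)).le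
  have fin : ∀ a, Dgr80.b (2 * δ) (t - a) ≤ V4 (2 * δ) L p q t →
      ψ - g * sg L p q t ≤ A + δ * L - δ * |t - a| →
      exp (ψ - g * sg L p q t) ^ 2 ≤ exp (A + δ * L) ^ 2 * (2 / δ) * V4 (2 * δ) L p q t :=
    fun a h1 h2 => (key a h2).trans (by gcongr)
  set r := min (t - p) (q - t) with hr
  have s1 : r ≤ sg L p q t := le_max_left _ _
  have s2 : 0 ≤ sg L p q t := (le_max_left _ _).trans (le_max_right _ _)
  have s3 : -L - r ≤ sg L p q t := (le_max_right _ _).trans (le_max_right _ _)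
  rcases le_total 0 (L + r) with h1 | h1
  · rw [max_eq_right h1] at h
    have e : ψ - g * sg L p q t ≤ A + δ * L - δ * |r| := by
      rcases abs_cases r with ⟨e, _⟩ | ⟨e, _⟩ <;> rw [e] <;> nlinarith
    rcases min_choice (t - p) (q - t) with e' | e'
    · exact fin p (by unfold V4; linarith [b q, b (p - L), b (q + L)]) (by rwa [← e'])
    · exact fin q (by unfold V4; linarith [b p, b (p - L), b (q + L)])
        (by rwa [abs_sub_comm, ← e'])
  · rw [max_eq_left h1] at h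
    have e : ψ - g * sg L p q t ≤ A + δ * L - δ * |L + r| := by
      rw [abs_of_nonpos h1]; nlinarith
    rcases min_choice (t - p) (q - t) with e' | e'
    · exact fin (p - L) (by unfold V4; linarith [b q, b p, b (q + L)])
        (by rwa [show t - (p - L) = L + r by rw [hr, e']; ring])
    · exact fin (q + L) (by unfold V4; linarith [b p, b (p - L), b q])
        (by rwa [abs_sub_comm, show q + L - t = L + r by rw [hr, e']; ring])

theorem lin_le_exp {g ρ x : ℝ} (hg : 0 < g) (h0 : 0 ≤ x) (h : ρ ≤ x) :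
    1 + x ≤ (1 + 2 / g) * (exp (-(g / 2 * ρ)) * exp (g * x)) := by
  have h1 : exp (g / 2 * x) ≤ exp (-(g / 2 * ρ)) * exp (g * x) := by
    rw [← exp_add]; exact exp_le_exp.2 (by nlinarith)
  have h2 := add_one_le_exp (g / 2 * x)
  have h3 : 1 + x ≤ (1 + 2 / g) * (g / 2 * x + 1) := by
    have : (1 + 2 / g) * (g / 2 * x + 1) = 1 + x + (g / 2 * x + 2 / g) := by field_simp; ring
    rw [this]; exact le_add_of_nonneg_right (by positivity)
  exact h3.trans (mul_le_mul_of_nonneg_left (h2.trans h1) (by positivity))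

end Crest.Agent.X212.Err63
end
end

-- ▼ part X212/Err63/Main
section

/-!
# Row 212, DEC-ERR (helper63): the cut configuration is an approximate solution
-/

set_option autoImplicit false
set_option linter.unusedSectionVars false
noncomputable section
open scoped Manifold ContDiff Topology InnerProductSpace
open MeasureTheory Set Function Filter Real

namespace Crest.Agent.X212.Err63
open An Map77 Sob92 Nd18 Cyf70 Dec35 Rsp69
open Wz78 (SA)

variable {E3 : Type} [NormedAddCommGroup E3] [NormedSpace ℝ E3] [FiniteDimensional ℝ E3]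
  [MeasurableSpace E3] [BorelSpace E3]
  {H3 : Type} [TopologicalSpace H3] {I3 : ModelWithCorners ℝ E3 H3} [I3.Boundaryless]
  {Y : Type} [TopologicalSpace Y] [ChartedSpace H3 Y] [IsManifold I3 ∞ Y] [T2Space Y]
  [MeasurableSpace Y] [BorelSpace Y] [SecondCountableTopology Y] [CompactSpace Y]
  {κ : Type} [Fintype κ] {lam : Type} [Fintype lam]
  {N : Type} [NormedAddCommGroup N] [NormedSpace ℝ N]
  {D : YD I3 Y κ lam} {β : YC Y κ lam} {τ : Pt (Y × ℝ) (Option κ) lam 0 0}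

/-- smooth `t`-invariant functions are bounded with all derivatives -/
theorem cb_inv {f : Y × ℝ → N} (h : Sm (IC I3) f) (e : ∀ x, f x = f (x.1, 0)) : D.Z.Cb f := by
  rw [funext e]
  exact Cht98.Cb_fst D.F.toPre (Cb_of_compact (sm_slice_fst h 0))

theorem cd_cy (hD : D.OK) (hβ : D.Adm β) : Cd D.B D.G (cy β) where
  hB := hD.B
  hG := hD.G
  adm := hβ.adm
  dat := ⟨fun a b => cb_inv (hD.B.sP a b) fun x => by cases a <;> cases b <;> rfl,
    fun a b c d => cb_inv (hD.B.so a b c d) fun _ => rfl, cb_inv hβ.adm.ok.sp fun _ => rfl,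
    fun a => cb_inv (hβ.adm.ok.sρ a) fun _ => rfl, cb_inv hβ.adm.ok.sj fun _ => rfl⟩
  cW a := cb_inv (fun x => hβ.adm.conn.cc.sm a x) fun _ => rfl
  cΦ := cb_inv hβ.adm.sm fun _ => rfl
  cc a b k := cb_inv (D.Z.c_sm a b k) fun x => by cases a <;> cases b <;> cases k <;> rfl

theorem cb_time (k : ℕ) : ∀ {h : ℝ → ℝ} {A : ℝ}, ContDiff ℝ ∞ h → Neck67.Bd k h A →
    D.Z.CB k (fun x => h x.2) A := by
  induction k with
  | zero => exact fun _ hb => CB_zero.2 fun x => hb x.2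
  | succ k ih =>
    intro h A hh hb
    refine CB_succ.2 ⟨fun x => hb.1 x.2, fun a => ?_⟩
    cases a with
    | none => exact (D_none_snd D.F.toPre hh).symm ▸ ih (Neck67.cd_deriv hh) hb.2
    | some a =>
      exact (D_some_snd D.F.toPre hh a).symm ▸
        CB_mono (CB_const k (0 : ℝ)) (by simpa using hb.nonneg)

theorem cb_D_time {k : ℕ} {h : ℝ → ℝ} {A : ℝ} (hh : ContDiff ℝ ∞ h)
    (hb : Neck67.Bd k (deriv h) A) (a : Option κ) : D.Z.CB k (D.Z.D a fun x => h x.2) A := by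
  cases a with
  | none => exact (D_none_snd D.F.toPre hh).symm ▸ cb_time k (Neck67.cd_deriv hh) hb
  | some a =>
    exact (D_some_snd D.F.toPre hh a).symm ▸ CB_mono (CB_const k (0 : ℝ)) (by simpa using hb.nonneg)

theorem ph_time {𝒟 : Type*} {S : 𝒟 → Set (Y × ℝ)} {k : ℕ} {θ : 𝒟 → ℝ → ℝ} {A : ℝ}
    (h : ∀ d, ContDiff ℝ ∞ (θ d)) (hb : ∀ d, Neck67.Bd k (deriv (θ d)) A) :
    Ph D.Z.toPre ⊤ S k fun d x => θ d x.2 :=
  ⟨.of_forall fun d x _ => sm_snd (h d) x, fun a => Bk.of_CB (.of_forall fun d =>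
    ⟨D.Z.sm_D (sm_snd (h d)) a, cb_D_time (h d) (hb d) a⟩)⟩

variable (D β) in
/-- a phase function and a variation with the bound `A` in order `k` -/
structure Ok (A : ℝ) (k : ℕ) (θ : ℝ → ℝ) (v : Cz β) : Prop where
  cd : ContDiff ℝ ∞ θ
  sm : Neck67.Sm (deriv θ)
  bd : Neck67.Bd k (deriv θ) A
  vb : Vb D β v
  cb : D.Z.CB k v A

theorem vb_rot (hD : D.OK) (hβ : D.Adm β) {θ : ℝ → ℝ} {v : Cz β} (h : ContDiff ℝ ∞ θ)
    (h' : Neck67.Sm (deriv θ)) (hv : Vb D β v) : Vb D β (rot (cy β) (fun x => θ x.2) v) :=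
  ⟨cb_of_bs fun k => bs_rot (cd_cy hD hβ).cΦ
    (ph_time (fun _ => h) fun _ => (h'.bd k).choose_spec) (Bk.of_Cb hv.cb), tg_rot hβ.adm hv.tg _⟩

theorem Ok.rot (hD : D.OK) (hβ : D.Adm β) {A : ℝ} {k : ℕ} {θ : ℝ → ℝ} {v : Cz β}
    (h : Ok D β A k θ v) : Vb D β (rot (cy β) (fun x => θ x.2) v) := vb_rot hD hβ h.cd h.sm h.vb

theorem sz_eq (hD : D.OK) (hβ : D.Adm β) {u : Cz β} (hu : Vb D β u) :
    sz D β τ u = fun x => Lc D.B D.G (cy β) u x - te τ (cy β) u x :=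
  funext ((cd_cy hD hβ).se_eq τ (Cb.sm hu.cb))

theorem sm_sz (hD : D.OK) (hβ : D.Adm β) (p1 : P1Z D β τ) {u : Cz β} (hu : Vb D β u) :
    Sm (IC I3) (sz D β τ u) :=
  sz_eq (τ := τ) hD hβ hu ▸ ((cd_cy hD hβ).sm_Lc hu.cb).sub (p1.1 u hu)

variable (D β) in
/-- two configurations which agree near the time `t` -/
structure Pr (A : ℝ) (k : ℕ) where
  θ : ℝ → ℝ
  θ' : ℝ → ℝ
  v : Cz β
  v' : Cz β
  t : ℝ
  ρ : ℝ
  m : ℝ
  h : Ok D β A k θ v
  h' : Ok D β A k θ' v'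
  e : θ t = θ' t
  bd : Neck67.Bd k (deriv θ - deriv θ') m
  cb : D.Z.CB k (fun x => v x - v' x) m
  eq : ∀ s, |s - t| < ρ → θ s = θ' s ∧ ∀ y, v (y, s) = v' (y, s)

namespace Pr
variable {A : ℝ} {k : ℕ} (P : Pr D β A k)

abbrev a : Cz β := rot (cy β) (fun x => P.θ x.2) P.v
abbrev a' : Cz β := rot (cy β) (fun x => P.θ' x.2) P.v'

theorem pb (x : Y × ℝ) :
    PB D.Z.toPre k (fun x => P.θ x.2 - P.θ' x.2) x (P.m * (1 + |x.2 - P.t|)) := by
  have hm := P.bd.nonneg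
  have hc := P.h.cd.sub P.h'.cd
  have e : deriv (fun s => P.θ s - P.θ' s) = deriv P.θ - deriv P.θ' :=
    funext fun s => deriv_sub (Neck67.cd_diff P.h.cd s) (Neck67.cd_diff P.h'.cd s)
  have h1 : ‖P.θ x.2 - P.θ' x.2‖ ≤ P.m * (1 + |x.2 - P.t|) := by
    have := convex_univ.norm_image_sub_le_of_norm_deriv_le (f := fun s => P.θ s - P.θ' s)
      (C := P.m) (fun s _ => Neck67.cd_diff hc s) (fun s _ => e ▸ P.bd.abs_le s) (mem_univ P.t)
      (mem_univ x.2)
    rw [P.e, sub_self, sub_zero] at this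
    exact this.trans (mul_le_mul_of_nonneg_left (le_add_of_nonneg_left zero_le_one) hm)
  have h2 : Neck67.Bd k (deriv fun s => P.θ s - P.θ' s) P.m := e ▸ P.bd
  have h3 : PB D.Z.toPre (k + 1) (fun x : Y × ℝ => P.θ x.2 - P.θ' x.2) x
      (P.m * (1 + |x.2 - P.t|)) :=
    PB.succ h1 fun a => (PB.of_CB (cb_D_time (D := D) hc h2 a) x).mono
      (le_mul_of_one_le_right hm (le_add_of_nonneg_right (abs_nonneg _)))
  exact h3.of_le k.le_succ

theorem ev {x : Y × ℝ} (hx : |x.2 - P.t| < P.ρ) :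
    (fun y => P.a y - P.a' y) =ᶠ[𝓝 x] fun _ => 0 := by
  filter_upwards [(isOpen_lt (f := fun y : Y × ℝ => |y.2 - P.t|) (by fun_prop)
    continuous_const).mem_nhds hx] with y hy
  have := P.eq y.2 hy
  simp only [rot, this.1, this.2 y.1, sub_self]

end Pr

section
variable (hD : D.OK) (hβ : D.Adm β) (A : ℝ) (k : ℕ)
include hD hβ

theorem bs_a : Bs D.Z.toPre ⊤ (fun _ => univ) 1 k fun P : Pr D β A k => P.a :=
  bs_rot (cd_cy hD hβ).cΦ (ph_time (fun P => P.h.cd) fun P => P.h.bd)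
    (Bk.of_CB (.of_forall fun P => ⟨Cb.sm P.h.vb.cb, P.h.cb⟩))

theorem bs_a' : Bs D.Z.toPre ⊤ (fun _ => univ) 1 k fun P : Pr D β A k => P.a' :=
  bs_rot (cd_cy hD hβ).cΦ (ph_time (fun P => P.h'.cd) fun P => P.h'.bd)
    (Bk.of_CB (.of_forall fun P => ⟨Cb.sm P.h'.vb.cb, P.h'.cb⟩))

theorem bs_sub {g : ℝ} (hg : 0 < g) : Bs D.Z.toPre ⊤ (fun _ => univ)
    (fun P x => P.m * exp (-(g / 2 * P.ρ)) * exp (g * |x.2 - P.t|)) k
    fun (P : Pr D β A k) x => P.a x - P.a' x := by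
  have nn : ∀ (P : Pr D β A k) (x : Y × ℝ), 0 ≤ P.m * (1 + |x.2 - P.t|) := fun P x =>
    mul_nonneg P.bd.nonneg (by positivity)
  obtain ⟨K, hK, h⟩ : Bs D.Z.toPre ⊤ (fun _ => univ) (fun P x => P.m * (1 + |x.2 - P.t|)) k
      fun (P : Pr D β A k) x => P.a x - P.a' x :=
    bs_rot_sub (cd_cy hD hβ).cΦ (ph_time (fun P => P.h.cd) fun P => P.h.bd)
      (ph_time (fun P => P.h'.cd) fun P => P.h'.bd)
      (Bk.of_CB (.of_forall fun P => ⟨Cb.sm P.h.vb.cb, P.h.cb⟩))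
      ⟨1, zero_le_one, .of_forall fun P x _ => ⟨nn P x, (sm_snd P.h.cd x).sub (sm_snd P.h'.cd x),
        (P.pb x).mono (one_mul _).ge⟩⟩
      ⟨1, zero_le_one, .of_forall fun P x _ => ⟨nn P x, (Cb.sm P.h.vb.cb x).sub
        (Cb.sm P.h'.vb.cb x), (PB.of_CB P.cb x).mono (by
          rw [one_mul]
          exact le_mul_of_one_le_right P.bd.nonneg (le_add_of_nonneg_right (abs_nonneg _)))⟩⟩
  refine ⟨K * (1 + 2 / g), by positivity, h.mono fun P h x hx => ?_⟩
  have hm := P.bd.nonneg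
  refine ⟨by positivity, (h x hx).2.1, ?_⟩
  rcases lt_or_ge |x.2 - P.t| P.ρ with h1 | h1
  · exact .of_ev_zero k (P.ev h1) (by positivity)
  · refine (h x hx).2.2.mono ?_
    calc K * (P.m * (1 + |x.2 - P.t|))
        ≤ K * (P.m * ((1 + 2 / g) * (exp (-(g / 2 * P.ρ)) * exp (g * |x.2 - P.t|)))) := by
          gcongr; exact lin_le_exp hg (abs_nonneg _) h1
      _ = _ := by ring

end

/-- **comparison**: the equations of two configurations which agree near `t` are close at `t` -/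
theorem lemL (hD : D.OK) (hβ : D.Adm β) (p1 : P1Z D β τ) : ∃ g > 0, ∀ k, ∃ k₁, ∀ A, ∃ K ≥ 0,
    ∀ (P : Pr D β A k₁) y, PB D.Z.toPre k (fun x => sz D β τ P.a x - sz D β τ P.a' x) (y, P.t)
      (K * (P.m * exp (-(g * P.ρ)))) := by
  obtain ⟨g, hg, h⟩ := p1.2
  refine ⟨g / 2, by positivity, fun k => ?_⟩
  obtain ⟨k', h⟩ := h k
  refine ⟨max k' (k + 1), fun A => ?_⟩
  have b1 := bs_a hD hβ A (max k' (k + 1))
  have b2 := bs_a' hD hβ A (max k' (k + 1))
  have b3 := bs_sub hD hβ A (max k' (k + 1)) hg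
  obtain ⟨K4, h4, b4⟩ := (cd_cy hD hβ).bs_Lc_sub (b1.of_le (le_max_right _ _))
    (b2.of_le (le_max_right _ _)) (b3.of_le (le_max_right _ _))
  obtain ⟨K1, h1, b1⟩ := b1.of_le (le_max_left _ _)
  obtain ⟨K2, h2, b2⟩ := b2.of_le (le_max_left _ _)
  obtain ⟨K3, h3, b3⟩ := b3.of_le (le_max_left _ _)
  simp only [eventually_top, mem_univ, forall_const, Pi.one_apply, mul_one] at b1 b2 b3 b4
  obtain ⟨K, h⟩ := h (K1 + K2)
  refine ⟨K4 + |K| * K3, by positivity, fun P y => ?_⟩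
  have hm := P.bd.nonneg
  have v1 := P.h.rot hD hβ
  have v2 := P.h'.rot hD hβ
  have h5 := h P.a P.a' v1 v2 (CB_of_PB fun x => (b1 P x).2.2.mono (by linarith))
    (CB_of_PB fun x => (b2 P x).2.2.mono (by linarith)) P.t (K3 * (P.m * exp (-(g / 2 * P.ρ))))
    (by positivity) fun s w hw y => ((b3 P (y, s)).2.2 w hw).trans (le_of_eq (by ring))
  have h6 : PB D.Z.toPre k (fun x => te τ (cy β) P.a x - te τ (cy β) P.a' x) (y, P.t)
      (|K| * (K3 * (P.m * exp (-(g / 2 * P.ρ))))) := fun w hw =>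
    (h5 w hw y).trans (mul_le_mul_of_nonneg_right (le_abs_self K) (by positivity))
  have s1 : SA (IC I3) (fun x => te τ (cy β) P.a x - te τ (cy β) P.a' x) (y, P.t) :=
    (p1.1 _ v1 _).sub (p1.1 _ v2 _)
  have h7 := PB.add k (b4 P (y, P.t)).2.1 (sa_clm _ s1) (b4 P (y, P.t)).2.2
    (PB.clm (-ContinuousLinearMap.id ℝ _) k s1 h6)
  rw [sz_eq hD hβ v1, sz_eq hD hβ v2]
  refine (h7.mono ?_).congr (.of_forall fun x => ?_)
  · have : ‖-ContinuousLinearMap.id ℝ (Ev (cy β))‖ ≤ 1 := by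
      rw [norm_neg]; exact ContinuousLinearMap.norm_id_le
    simp only [sub_self, abs_zero, mul_zero, exp_zero, mul_one]
    calc _ ≤ K4 * (P.m * exp (-(g / 2 * P.ρ))) +
          1 * (|K| * (K3 * (P.m * exp (-(g / 2 * P.ρ))))) := by gcongr
      _ = _ := by ring
  · simp only [neg_apply, ContinuousLinearMap.id_apply]; abel

variable (D β τ) in
/-- the data of the cut family -/
structure Dt (γ : ℝ) (k k₁ : ℕ) where
  η : ℝ
  L : ℝ
  p : ℝ
  q : ℝ
  c : ℝ
  v : Cz β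
  th : ℝ → ℝ
  inp : Inp D β τ γ k k₁ η v th p q
  η1 : η ≤ 1
  L1 : 1 ≤ L
  c1 : |c| ≤ 1
  c2 : |c + vth th p q q| ≤ 1

namespace Dt
variable {γ : ℝ} {k k₁ : ℕ} (d : Dt D β τ γ k k₁)

/-- the size of the error -/
def m : ℝ := d.η + (|d.c| + |d.c + vth d.th d.p d.q d.q|) / d.L

abbrev Θ : ℝ → ℝ := Th d.th d.L d.p d.q d.c
abbrev w : Cz β := fun x => chi d.p d.q x.2 • d.v x
abbrev X : Cz β := Xc d.v d.th d.L d.p d.q d.c

theorem η0 : 0 ≤ d.η := d.inp.t1.nonneg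

theorem L0 : 0 < d.L := by linarith [d.L1]

theorem η_le : d.η ≤ d.m := le_add_of_nonneg_right (by have := d.L0; positivity)

theorem m0 : 0 ≤ d.m := d.η0.trans d.η_le

theorem m3 : d.m ≤ 3 := by
  have := div_le_self (add_nonneg (abs_nonneg d.c) (abs_nonneg (d.c + vth d.th d.p d.q d.q))) d.L1
  unfold m
  linarith [d.η1, d.c1, d.c2]

theorem bdΘ : Neck67.Bd k₁ (deriv d.Θ) (cA k₁ * d.m) := bd_dTh d.inp.sm d.L1 d.inp.t1

theorem cbw : D.Z.CB k₁ d.w (cA k₁ * d.m) := CB_of_PB fun x =>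
  (PB.smul (sm_snd (sm_chi d.p d.q).cd x) (Cb.sm d.inp.vb.cb x)
    (.of_CB (cb_time k₁ (sm_chi d.p d.q).cd (bd_chi k₁ d.p d.q)) x) (.of_CB d.inp.v1 x)).mono
    (mul_le_mul_of_nonneg_left d.η_le (zero_le_one.trans (one_le_cA k₁)))

theorem vbw : Vb D β d.w := by
  choose C hC using (sm_chi d.p d.q).bd
  exact ⟨Cb_smul ⟨C, sm_snd (sm_chi d.p d.q).cd, fun k => cb_time k (sm_chi d.p d.q).cd (hC k)⟩
    d.inp.vb.cb, fun x => by rw [map_smul, d.inp.vb.tg]⟩

theorem le3 : cA k₁ * d.m ≤ cA k₁ * 3 :=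
  mul_le_mul_of_nonneg_left d.m3 (zero_le_one.trans (one_le_cA k₁))

theorem η3 : d.η ≤ cA k₁ * 3 := by linarith [d.η1, one_le_cA k₁]

theorem ηm : d.η ≤ cA k₁ * d.m := d.η_le.trans (le_mul_of_one_le_left d.m0 (one_le_cA k₁))

theorem ok : Ok D β (cA k₁ * 3) k₁ d.Θ d.w :=
  ⟨cd_Th d.inp.sm d.L1, sm_dTh d.inp.sm d.L1 d.inp.cb, d.bdΘ.mono d.le3, d.vbw, CB_mono d.cbw d.le3⟩

theorem ok_in (s : ℝ) : Ok D β (cA k₁ * 3) k₁ (fun t => d.th t + s) d.v :=
  ⟨d.inp.sm.add contDiff_const, by rw [deriv_add_const']; exact d.inp.cb,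
    by rw [deriv_add_const']; exact d.inp.t1.mono d.η3, d.inp.vb, CB_mono d.inp.v1 d.η3⟩

theorem vb0 : Vb D β 0 := ⟨Cb_const 0, fun _ => map_zero _⟩

theorem ok_out (s : ℝ) : Ok D β (cA k₁ * 3) k₁ (fun _ => 0 + s) 0 :=
  have h : 0 ≤ cA k₁ * 3 := by linarith [one_le_cA k₁]
  ⟨contDiff_const, by rw [deriv_const']; exact .const 0,
    by rw [deriv_const']; exact .const (by simpa using h), vb0,
    CB_mono (CB_const k₁ (0 : Cv (cy β))) (by simpa using h)⟩

/-- comparison with the solution -/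
def prIn {t : ℝ} (ht : t ∈ Icc (d.p + 1) (d.q - 1)) : Pr D β (cA k₁ * 3) k₁ where
  θ := d.Θ
  θ' s := d.th s + (d.Θ t - d.th t)
  v := d.w
  v' := d.v
  t := t
  ρ := min (t - d.p) (d.q - t) - 1
  m := cA k₁ * d.m + cA k₁ * d.m
  h := d.ok
  h' := d.ok_in _
  e := by ring
  bd := by
    rw [deriv_add_const']
    exact .sub (Neck67.cd_deriv d.ok.cd) d.inp.cb.cd d.bdΘ (d.inp.t1.mono d.ηm)
  cb := by
    have h := CB_add (Cb.sm d.vbw.cb) (Cb.sm d.inp.vb.cb).neg d.cbw (CB_neg (Cb.sm d.inp.vb.cb)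
      d.inp.v1)
    simp only [sub_eq_add_neg]
    exact CB_mono h (by rw [abs_of_nonneg d.η0]; linarith [d.ηm])
  eq s hs := by
    have h1 := abs_lt.1 hs
    have h2 : s ∈ Icc (d.p + 1) (d.q - 1) :=
      ⟨by linarith [min_le_left (t - d.p) (d.q - t)], by linarith [min_le_right (t - d.p) (d.q - t)]⟩
    exact ⟨Th_mid d.inp.sm d.L0 h2 ht, fun y => by simp only [w, chi_one h2, one_smul]⟩

/-- comparison with the critical point -/
def prOut (t : ℝ) : Pr D β (cA k₁ * 3) k₁ where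
  θ := d.Θ
  θ' _ := 0 + d.Θ t
  v := d.w
  v' := 0
  t := t
  ρ := max 0 (-d.L - min (t - d.p) (d.q - t))
  m := cA k₁ * d.m + cA k₁ * d.m
  h := d.ok
  h' := ok_out _
  e := by ring
  bd := by
    rw [deriv_const']
    exact .sub (Neck67.cd_deriv d.ok.cd) contDiff_const d.bdΘ
      (.const (by simpa using d.bdΘ.nonneg))
  cb := by
    simp only [Pi.zero_apply, sub_zero]
    exact CB_mono d.cbw (by linarith [d.bdΘ.nonneg])
  eq s hs := by
    have h0 := d.L0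
    have h1 := abs_lt.1 hs
    have h2 : 0 < -d.L - min (t - d.p) (d.q - t) := by
      rcases lt_max_iff.1 ((abs_nonneg _).trans_lt hs) with h | h
      exacts [absurd h (lt_irrefl _), h]
    rw [max_eq_right h2.le] at h1
    rcases min_choice (t - d.p) (d.q - t) with e | e <;> rw [e] at h1 h2
    · have a1 : s ≤ d.p - d.L := by linarith [h1.2]
      have a2 : t ≤ d.p - d.L := by linarith
      have a3 : s ≤ d.p := by linarith
      exact ⟨by simp only [Θ, Th, ret_left h0 a1, ret_left h0 a2, zero_mul, add_zero],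
        fun y => by simp only [w, chi_left a3, zero_smul, Pi.zero_apply]⟩
    · have a1 : d.q + d.L ≤ s := by linarith [h1.1]
      have a2 : d.q + d.L ≤ t := by linarith
      have a3 : d.q ≤ s := by linarith
      exact ⟨by simp only [Θ, Th, ret_right h0 a1, ret_right h0 a2, zero_mul, add_zero],
        fun y => by simp only [w, chi_right a3, zero_smul, Pi.zero_apply]⟩

end Dt

theorem sz_phase (hD : D.OK) (hβ : D.Adm β) (nat : NatZ D τ) {A A' : ℝ} {k k' : ℕ} {θ : ℝ → ℝ}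
    {v : Cz β} {s : ℝ} (h : Ok D β A k θ v) (h' : Ok D β A' k' (fun t => θ t + s) v) :
    sz D β τ (rot (cy β) (fun x => θ x.2 + s) v) =
      fun x => phE (cy β) s (sz D β τ (rot (cy β) (fun x => θ x.2) v) x) :=
  funext (se_phase hD.B hD.G hβ.adm nat h.vb.tg s (Cb.sm (h.rot hD hβ).cb)
    (Cb.sm (h'.rot hD hβ).cb))

/-- the slice bound -/
theorem slice (hD : D.OK) (hβ : D.Adm β) (h0 : sz D β τ 0 = 0) (nat : NatZ D τ) (p1 : P1Z D β τ)
    {γ : ℝ} (hγ : 0 < γ) : ∃ g > 0, ∀ k, ∃ k₁, ∃ K ≥ 0, ∀ (d : Dt D β τ γ k k₁) x,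
      PB D.Z.toPre k (sz D β τ d.X) x (K * (d.m * exp (-(g * sg d.L d.p d.q x.2)))) := by
  obtain ⟨g, hg, h⟩ := lemL hD hβ p1
  have hg' : 0 < min g γ := lt_min hg hγ
  refine ⟨min g γ, hg', fun k => ?_⟩
  obtain ⟨k₁, h⟩ := h k
  obtain ⟨K, hK, h⟩ := h (cA k₁ * 3)
  obtain ⟨K', hK', h'⟩ := ub_phE (cy β)
  have hA := zero_le_one.trans (one_le_cA k₁)
  refine ⟨k₁, K * (2 * cA k₁) * exp (min g γ) + K', by positivity, fun d ⟨y, t⟩ => ?_⟩
  have hm := d.m0
  have key : ∀ ρ, 0 ≤ ρ → sg d.L d.p d.q t ≤ ρ + 1 →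
      K * ((cA k₁ * d.m + cA k₁ * d.m) * exp (-(g * ρ))) ≤
        K * (2 * cA k₁) * exp (min g γ) * (d.m * exp (-(min g γ * sg d.L d.p d.q t))) := by
    intro ρ h1 h2
    have : exp (-(g * ρ)) ≤ exp (min g γ) * exp (-(min g γ * sg d.L d.p d.q t)) := by
      rw [← exp_add]; exact exp_le_exp.2 (by nlinarith [min_le_left g γ])
    calc _ ≤ K * ((cA k₁ * d.m + cA k₁ * d.m) *
          (exp (min g γ) * exp (-(min g γ * sg d.L d.p d.q t)))) := by gcongr
      _ = _ := by ring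
  by_cases ht : t ∈ Icc (d.p + 1) (d.q - 1)
  · have r1 : 1 ≤ min (t - d.p) (d.q - t) := le_min (by linarith [ht.1]) (by linarith [ht.2])
    have e : sg d.L d.p d.q t = min (t - d.p) (d.q - t) :=
      max_eq_left (max_le (by linarith) (by linarith [d.L0]))
    have o := d.ok_in 0
    simp only [add_zero] at o
    have s1 := sm_sz hD hβ p1 (d.ok.rot hD hβ) (y, t)
    have s2 := sm_sz hD hβ p1 ((d.prIn ht).h'.rot hD hβ) (y, t)
    have h2 : PB D.Z.toPre k (sz D β τ (d.prIn ht).a') (y, t)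
        (K' * (d.m * exp (-(min g γ * sg d.L d.p d.q t)))) := by
      rw [show sz D β τ (d.prIn ht).a' = _ from sz_phase hD hβ nat o (d.ok_in _)]
      refine (PB.clm _ k (sm_sz hD hβ p1 (o.rot hD hβ) _) fun w hw =>
        d.inp.df t ⟨by linarith [ht.1], by linarith [ht.2]⟩ w hw y).mono ?_
      have := d.η0
      rw [e]
      gcongr
      exacts [h' _, d.η_le, by nlinarith [min_le_right g γ]]
    refine ((PB.add k (s1.sub s2) s2 (h (d.prIn ht) y) h2).mono ?_).congr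
      (.of_forall fun x => sub_add_cancel _ _)
    rw [add_mul]
    exact add_le_add (key _ (by show 0 ≤ min _ _ - 1; linarith)
      (by show _ ≤ min _ _ - 1 + 1; rw [e]; linarith)) le_rfl
  · have o := Dt.ok_out (D := D) (β := β) (k₁ := k₁) 0
    simp only [add_zero] at o
    have e0 : sz D β τ (rot (cy β) (fun _ => 0) 0) = 0 := (congrArg (sz D β τ) (rot_zero _)).trans h0
    have e : ∀ x, sz D β τ (d.prOut t).a' x = 0 := fun x => by
      have := congrFun (sz_phase hD hβ nat o (Dt.ok_out (k₁ := k₁) (d.Θ t))) x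
      rw [e0] at this
      exact this.trans (map_zero _)
    have h2 : PB D.Z.toPre k (sz D β τ d.X) (y, t) _ :=
      (h (d.prOut t) y).congr (.of_forall fun x =>
        (congrArg (sz D β τ d.X x - ·) (e x)).trans (sub_zero _))
    refine h2.mono ((key _ (le_max_left _ _) ?_).trans ?_)
    · have r1 : min (t - d.p) (d.q - t) ≤ 1 := by
        by_contra k
        have := lt_min_iff.1 (not_le.1 k)
        exact ht ⟨by linarith [this.1], by linarith [this.2]⟩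
      have r2 := le_max_left 0 (-d.L - min (t - d.p) (d.q - t))
      exact max_le (by show _ ≤ max _ _ + 1; linarith) (by show _ ≤ max _ _ + 1; linarith)
    · rw [add_mul]; exact le_add_of_nonneg_right (by positivity)

/-- **DEC-ERR** -/
theorem errStmt : ErrStmt I3 Y κ lam := by
  intro D β τ hD hβ h0 nat p1 γ hγ
  obtain ⟨g, hg, h⟩ := slice hD hβ h0 nat p1 hγ
  refine ⟨g / 2, by positivity, fun δ hδ hδg k Dd A => ?_⟩
  obtain ⟨k₁, K, hK, h⟩ := h k
  obtain ⟨K', hK', h'⟩ := Ph.exp (F := D.Z.toPre) (l := ⊤) (S := fun _ => univ)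
    (θ := fun ψ : {ψ : Y × ℝ → ℝ // ∃ d, Wd D.Z.toPre ψ d Dd} => ψ.1) k
    ⟨.of_forall fun ψ x _ => ψ.2.choose_spec.sm x, fun a => Bk.of_CB (.of_forall fun ψ =>
      ⟨(ψ.2.choose_spec.der a).1, (ψ.2.choose_spec.der a).2 k⟩)⟩
  simp only [eventually_top, mem_univ, forall_const] at h'
  have := D.F.fin
  have hδ' : 2 * δ ≤ g := by linarith
  have hc := cN_nonneg (ι := Option κ) k
  have hv : 0 ≤ D.F.μ.real univ := measureReal_nonneg
  refine ⟨k₁, 2 ^ k * K' * K * exp A * √(cN (Option κ) k * (2 / δ) * (D.F.μ.real univ * 4)),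
    by positivity, fun η L p q c d v th ψ inp η1 L1 c1 c2 hw hψ => ?_⟩
  let e : Dt D β τ γ k k₁ := ⟨η, L, p, q, c, v, th, inp, η1, L1, c1, c2⟩
  have hm := e.m0
  have s1 := sm_sz hD hβ p1 (e.ok.rot hD hβ)
  have s2 : Sm (IC I3) fun x : Y × ℝ => exp (ψ x.2) := fun x => (h' ⟨_, d, hw⟩ x).2.1
  have hδ2 : 0 < 2 * δ := by positivity
  set R := (2 ^ k * K' * K * e.m) ^ 2 * (exp (A + δ * L) ^ 2 * (2 / δ)) with hR
  obtain ⟨f1, f2⟩ := n2_le (F := D.Z.toPre)
    (W := fun x => 2 ^ k * K' * K * e.m * exp (ψ x.2 - g * sg L p q x.2))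
    (V := fun x => R * V4 (2 * δ) L p q x.2)
    (((integrable_V4 hδ2 L p q).comp_snd D.F.μ).const_mul R) (fun x => by
      rw [mul_pow, hR, mul_assoc (_ ^ 2)]
      exact mul_le_mul_of_nonneg_left (wt_le hδ hδ' e.L0.le (hψ x.2)) (sq_nonneg _))
    k (s2.smul s1) fun x => (PB.smul (s2 x) (s1 x) (h' ⟨_, d, hw⟩ x).2.2 (h e x)).mono
      (le_of_eq (by rw [sub_eq_add_neg, exp_add]; ring))
  refine ⟨f1, nrm_le_of_sq (by positivity) (f2.trans (le_of_eq ?_))⟩
  rw [integral_const_mul, show ∫ x : Y × ℝ, V4 (2 * δ) L p q x.2 ∂D.Z.μ = _ from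
    integral_fun_snd _, integral_V4 hδ2, hR, exp_add]
  simp only [mul_pow, smul_eq_mul]
  rw [sq_sqrt (by positivity)]
  show _ = _ * e.m ^ 2
  ring

end Crest.Agent.X212.Err63
end
end

-- ▼ part X212/Dec35/Main
section

/-!
# Row 212, DEC (helper35): exponential decay on necks, assembled
-/

set_option autoImplicit false
noncomputable section
open scoped Manifold ContDiff

namespace Crest.Agent.X212.Dec35

variable {E3 : Type} [NormedAddCommGroup E3] [NormedSpace ℝ E3] [FiniteDimensional ℝ E3]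
  [MeasurableSpace E3] [BorelSpace E3]
  {H3 : Type} [TopologicalSpace H3] {I3 : ModelWithCorners ℝ E3 H3} [I3.Boundaryless]
  {Y : Type} [TopologicalSpace Y] [ChartedSpace H3 Y] [IsManifold I3 ∞ Y] [T2Space Y]
  [MeasurableSpace Y] [BorelSpace Y] [SecondCountableTopology Y] [CompactSpace Y]
  {κ : Type} [Fintype κ] {lam : Type} [Fintype lam]

theorem coreStmt : CoreStmt I3 Y κ lam :=
  core Hm83.ga Lad50.Wg.wgt Lad50.Rw.rowS Hm83.st Tr6.tr1 Tr6.tr2 Err63.errStmt Hm83.phs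

/-- **DEC** -/
theorem dec : DecStmt I3 Y κ lam := Pj41.red coreStmt Cay24.fix

end Crest.Agent.X212.Dec35
end
end

-- ▼ part X212/Dec35/FEr
section

/-!
# Row 212, DEC-U (helper35): the error estimate of `Err63.errStmt`, uniformly on a family
-/

set_option autoImplicit false
set_option linter.unusedSectionVars false
noncomputable section
open scoped Manifold ContDiff Topology InnerProductSpace
open MeasureTheory Set Function Filter Real

namespace Crest.Agent.X212.Dec35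
open An Map77 Sob92 Nd18 Cyf70 Err63 Rsp69
open Wz78 (SA)

variable {E3 : Type} [NormedAddCommGroup E3] [NormedSpace ℝ E3] [FiniteDimensional ℝ E3]
  [MeasurableSpace E3] [BorelSpace E3]
  {H3 : Type} [TopologicalSpace H3] {I3 : ModelWithCorners ℝ E3 H3} [I3.Boundaryless]
  {Y : Type} [TopologicalSpace Y] [ChartedSpace H3 Y] [IsManifold I3 ∞ Y] [T2Space Y]
  [MeasurableSpace Y] [BorelSpace Y] [SecondCountableTopology Y] [CompactSpace Y]
  {κ : Type} [Fintype κ] {lam : Type} [Fintype lam] {D : YD I3 Y κ lam} {β : YC Y κ lam}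
  {T : Set (Pt (Y × ℝ) (Option κ) lam 0 0)} {K₀ : Cz β → Y × ℝ → Ev (cy β)} {d₀ : ℝ}

theorem lemU (hD : D.OK) (hβ : D.Adm β) {g : ℝ} (p1 : P1U D β g T) (hg : 0 < g) (k : ℕ) :
    ∃ k₁, ∀ A, ∃ K ≥ 0, ∀ τ ∈ T, ∀ (P : Pr D β A k₁) y,
      PB D.Z.toPre k (fun x => sz D β τ P.a x - sz D β τ P.a' x) (y, P.t)
      (K * (P.m * exp (-(g / 2 * P.ρ)))) := by
  obtain ⟨k', h⟩ := p1.bd k
  refine ⟨max k' (k + 1), fun A => ?_⟩
  have b1 := bs_a hD hβ A (max k' (k + 1))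
  have b2 := bs_a' hD hβ A (max k' (k + 1))
  have b3 := bs_sub hD hβ A (max k' (k + 1)) hg
  obtain ⟨K4, h4, b4⟩ := (cd_cy hD hβ).bs_Lc_sub (b1.of_le (le_max_right _ _))
    (b2.of_le (le_max_right _ _)) (b3.of_le (le_max_right _ _))
  obtain ⟨K1, h1, b1⟩ := b1.of_le (le_max_left _ _)
  obtain ⟨K2, h2, b2⟩ := b2.of_le (le_max_left _ _)
  obtain ⟨K3, h3, b3⟩ := b3.of_le (le_max_left _ _)
  simp only [eventually_top, mem_univ, forall_const, Pi.one_apply, mul_one] at b1 b2 b3 b4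
  obtain ⟨K, h⟩ := h (K1 + K2)
  refine ⟨K4 + |K| * K3, by positivity, fun τ hτ P y => ?_⟩
  have hm := P.bd.nonneg
  have v1 := P.h.rot hD hβ
  have v2 := P.h'.rot hD hβ
  have h5 := h τ hτ P.a P.a' v1 v2 (CB_of_PB fun x => (b1 P x).2.2.mono (by linarith))
    (CB_of_PB fun x => (b2 P x).2.2.mono (by linarith)) P.t (K3 * (P.m * exp (-(g / 2 * P.ρ))))
    (by positivity) fun s w hw y => ((b3 P (y, s)).2.2 w hw).trans (le_of_eq (by ring))
  have h6 : PB D.Z.toPre k (fun x => te τ (cy β) P.a x - te τ (cy β) P.a' x) (y, P.t)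
      (|K| * (K3 * (P.m * exp (-(g / 2 * P.ρ))))) := fun w hw =>
    (h5 w hw y).trans (mul_le_mul_of_nonneg_right (le_abs_self K) (by positivity))
  have s1 : SA (IC I3) (fun x => te τ (cy β) P.a x - te τ (cy β) P.a' x) (y, P.t) :=
    (p1.sm τ hτ _ v1 _).sub (p1.sm τ hτ _ v2 _)
  have h7 := PB.add k (b4 P (y, P.t)).2.1 (sa_clm _ s1) (b4 P (y, P.t)).2.2
    (PB.clm (-ContinuousLinearMap.id ℝ _) k s1 h6)
  rw [sz_eq hD hβ v1, sz_eq hD hβ v2]
  refine (h7.mono ?_).congr (.of_forall fun x => ?_)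
  · have : ‖-ContinuousLinearMap.id ℝ (Ev (cy β))‖ ≤ 1 := by
      rw [norm_neg]; exact ContinuousLinearMap.norm_id_le
    simp only [sub_self, abs_zero, mul_zero, exp_zero, mul_one]
    calc _ ≤ K4 * (P.m * exp (-(g / 2 * P.ρ))) +
          1 * (|K| * (K3 * (P.m * exp (-(g / 2 * P.ρ))))) := by gcongr
      _ = _ := by ring
  · simp only [neg_apply, ContinuousLinearMap.id_apply]; abel

theorem sliceU (hD : D.OK) (hβ : D.Adm β) {g₁ g : ℝ} (F : Fu D β K₀ g₁ d₀ T) (hg₁ : 0 < g₁)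
    (e₁ : g = g₁ / 2) {γ : ℝ} (hγ : 0 < γ) (k : ℕ) : ∃ k₁, ∃ K ≥ 0, ∀ τ ∈ T,
      ∀ (d : Dt D β τ γ k k₁) x,
      PB D.Z.toPre k (sz D β τ d.X) x (K * (d.m * exp (-(min g γ * sg d.L d.p d.q x.2)))) := by
  have hg : 0 < g := by rw [e₁]; positivity
  have hg' : 0 < min g γ := lt_min hg hγ
  obtain ⟨k₁, h⟩ := lemU hD hβ F.p1 hg₁ k
  rw [← e₁] at h
  obtain ⟨K, hK, h⟩ := h (cA k₁ * 3)
  obtain ⟨K', hK', h'⟩ := ub_phE (cy β)
  have hA := zero_le_one.trans (one_le_cA k₁)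
  refine ⟨k₁, K * (2 * cA k₁) * exp (min g γ) + K', by positivity, fun τ hτ d ⟨y, t⟩ => ?_⟩
  have p1 := F.p1.p1 hg₁ hτ
  have nat := F.nat τ hτ
  have h0 := F.crit τ hτ
  replace h := h τ hτ
  have hm := d.m0
  have key : ∀ ρ, 0 ≤ ρ → sg d.L d.p d.q t ≤ ρ + 1 →
      K * ((cA k₁ * d.m + cA k₁ * d.m) * exp (-(g * ρ))) ≤
        K * (2 * cA k₁) * exp (min g γ) * (d.m * exp (-(min g γ * sg d.L d.p d.q t))) := by
    intro ρ h1 h2
    have : exp (-(g * ρ)) ≤ exp (min g γ) * exp (-(min g γ * sg d.L d.p d.q t)) := by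
      rw [← exp_add]; exact exp_le_exp.2 (by nlinarith [min_le_left g γ])
    calc _ ≤ K * ((cA k₁ * d.m + cA k₁ * d.m) *
          (exp (min g γ) * exp (-(min g γ * sg d.L d.p d.q t)))) := by gcongr
      _ = _ := by ring
  by_cases ht : t ∈ Icc (d.p + 1) (d.q - 1)
  · have r1 : 1 ≤ min (t - d.p) (d.q - t) := le_min (by linarith [ht.1]) (by linarith [ht.2])
    have e : sg d.L d.p d.q t = min (t - d.p) (d.q - t) :=
      max_eq_left (max_le (by linarith) (by linarith [d.L0]))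
    have o := d.ok_in 0
    simp only [add_zero] at o
    have s1 := sm_sz hD hβ p1 (d.ok.rot hD hβ) (y, t)
    have s2 := sm_sz hD hβ p1 ((d.prIn ht).h'.rot hD hβ) (y, t)
    have h2 : PB D.Z.toPre k (sz D β τ (d.prIn ht).a') (y, t)
        (K' * (d.m * exp (-(min g γ * sg d.L d.p d.q t)))) := by
      rw [show sz D β τ (d.prIn ht).a' = _ from sz_phase hD hβ nat o (d.ok_in _)]
      refine (PB.clm _ k (sm_sz hD hβ p1 (o.rot hD hβ) _) fun w hw =>
        d.inp.df t ⟨by linarith [ht.1], by linarith [ht.2]⟩ w hw y).mono ?_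
      have := d.η0
      rw [e]
      gcongr
      exacts [h' _, d.η_le, by nlinarith [min_le_right g γ]]
    refine ((PB.add k (s1.sub s2) s2 (h (d.prIn ht) y) h2).mono ?_).congr
      (.of_forall fun x => sub_add_cancel _ _)
    rw [add_mul]
    exact add_le_add (key _ (by show 0 ≤ min _ _ - 1; linarith)
      (by show _ ≤ min _ _ - 1 + 1; rw [e]; linarith)) le_rfl
  · have o := Dt.ok_out (D := D) (β := β) (k₁ := k₁) 0
    simp only [add_zero] at o
    have e0 : sz D β τ (rot (cy β) (fun _ => 0) 0) = 0 := (congrArg (sz D β τ) (Err63.rot_zero _)).trans h0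
    have e : ∀ x, sz D β τ (d.prOut t).a' x = 0 := fun x => by
      have := congrFun (sz_phase hD hβ nat o (Dt.ok_out (k₁ := k₁) (d.Θ t))) x
      rw [e0] at this
      exact this.trans (map_zero _)
    have h2 : PB D.Z.toPre k (sz D β τ d.X) (y, t) _ :=
      (h (d.prOut t) y).congr (.of_forall fun x =>
        (congrArg (sz D β τ d.X x - ·) (e x)).trans (sub_zero _))
    refine h2.mono ((key _ (le_max_left _ _) ?_).trans ?_)
    · have r1 : min (t - d.p) (d.q - t) ≤ 1 := by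
        by_contra k
        have := lt_min_iff.1 (not_le.1 k)
        exact ht ⟨by linarith [this.1], by linarith [this.2]⟩
      have r2 := le_max_left 0 (-d.L - min (t - d.p) (d.q - t))
      exact max_le (by show _ ≤ max _ _ + 1; linarith) (by show _ ≤ max _ _ + 1; linarith)
    · rw [add_mul]; exact le_add_of_nonneg_right (by positivity)

theorem errU (hD : D.OK) (hβ : D.Adm β) {g₁ γ : ℝ} (hg₁ : 0 < g₁) (hγ : 0 < γ) :
    ∃ δ₁ > 0, ∀ δ, 0 < δ → δ ≤ δ₁ → ∀ (k : ℕ) (Dd : ℕ → ℝ) (A : ℝ) T, Fu D β K₀ g₁ d₀ T →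
      ∃ k₁, ∃ K ≥ 0, ∀ τ ∈ T, ∀ (η L p q c d : ℝ) (v : Cz β) (th ψ : ℝ → ℝ),
      Inp D β τ γ k k₁ η v th p q → η ≤ 1 → 1 ≤ L → |c| ≤ 1 → |c + vth th p q q| ≤ 1 →
      Wd D.Z.toPre (fun x => ψ x.2) d Dd →
      (∀ t, ψ t ≤ δ * max 0 (L + min (t - p) (q - t)) + A) →
      FL D.Z.toPre k (fun x => exp (ψ x.2) • sz D β τ (Xc v th L p q c) x) ∧
      nw D.Z.toPre k (fun x => ψ x.2) (sz D β τ (Xc v th L p q c)) ≤
        K * exp (δ * L) * (η + (|c| + |c + vth th p q q|) / L) := by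
  obtain ⟨g, e₁⟩ : ∃ g, g = min (g₁ / 2) γ := ⟨_, rfl⟩
  have hg : 0 < g := by rw [e₁]; positivity
  refine ⟨g / 2, by positivity, fun δ hδ hδg k Dd A T F => ?_⟩
  obtain ⟨k₁, K, hK, h⟩ := sliceU hD hβ F hg₁ rfl hγ k
  rw [← e₁] at h
  obtain ⟨K', hK', h'⟩ := Ph.exp (F := D.Z.toPre) (l := ⊤) (S := fun _ => univ)
    (θ := fun ψ : {ψ : Y × ℝ → ℝ // ∃ d, Wd D.Z.toPre ψ d Dd} => ψ.1) k
    ⟨.of_forall fun ψ x _ => ψ.2.choose_spec.sm x, fun a => Bk.of_CB (.of_forall fun ψ =>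
      ⟨(ψ.2.choose_spec.der a).1, (ψ.2.choose_spec.der a).2 k⟩)⟩
  simp only [eventually_top, mem_univ, forall_const] at h'
  have := D.F.fin
  have hδ' : 2 * δ ≤ g := by linarith
  have hc := cN_nonneg (ι := Option κ) k
  have hv : 0 ≤ D.F.μ.real univ := measureReal_nonneg
  refine ⟨k₁, 2 ^ k * K' * K * exp A * √(cN (Option κ) k * (2 / δ) * (D.F.μ.real univ * 4)),
    by positivity, fun τ hτ η L p q c d v th ψ inp η1 L1 c1 c2 hw hψ => ?_⟩
  have p1 := F.p1.p1 hg₁ hτ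
  replace h := h τ hτ
  let e : Dt D β τ γ k k₁ := ⟨η, L, p, q, c, v, th, inp, η1, L1, c1, c2⟩
  have hm := e.m0
  have s1 := sm_sz hD hβ p1 (e.ok.rot hD hβ)
  have s2 : Sm (IC I3) fun x : Y × ℝ => exp (ψ x.2) := fun x => (h' ⟨_, d, hw⟩ x).2.1
  have hδ2 : 0 < 2 * δ := by positivity
  set R := (2 ^ k * K' * K * e.m) ^ 2 * (exp (A + δ * L) ^ 2 * (2 / δ)) with hR
  obtain ⟨f1, f2⟩ := n2_le (F := D.Z.toPre)
    (W := fun x => 2 ^ k * K' * K * e.m * exp (ψ x.2 - g * sg L p q x.2))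
    (V := fun x => R * V4 (2 * δ) L p q x.2)
    (((integrable_V4 hδ2 L p q).comp_snd D.F.μ).const_mul R) (fun x => by
      rw [mul_pow, hR, mul_assoc (_ ^ 2)]
      exact mul_le_mul_of_nonneg_left (wt_le hδ hδ' e.L0.le (hψ x.2)) (sq_nonneg _))
    k (s2.smul s1) fun x => (PB.smul (s2 x) (s1 x) (h' ⟨_, d, hw⟩ x).2.2 (h e x)).mono
      (le_of_eq (by rw [sub_eq_add_neg, exp_add]; ring))
  refine ⟨f1, nrm_le_of_sq (by positivity) (f2.trans (le_of_eq ?_))⟩
  rw [integral_const_mul, show ∫ x : Y × ℝ, V4 (2 * δ) L p q x.2 ∂D.Z.μ = _ from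
    integral_fun_snd _, integral_V4 hδ2, hR, exp_add]
  simp only [mul_pow, smul_eq_mul]
  rw [sq_sqrt (by positivity)]
  show _ = _ * e.m ^ 2
  ring

end Crest.Agent.X212.Dec35
end
end

-- ▼ part X212/Dec35/FCo
section

/-!
# Row 212, DEC-U (helper35): the continuity argument, uniformly on a family
-/

set_option autoImplicit false
set_option linter.unusedSectionVars false
noncomputable section
open scoped Manifold ContDiff Topology InnerProductSpace
open MeasureTheory Set Function Filter Real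

namespace Crest.Agent.X212.Dec35
open An Map77 Sob92 Nd18 Cyf70
open Tmp64 (Eq0)

variable {E3 : Type} [NormedAddCommGroup E3] [NormedSpace ℝ E3] [FiniteDimensional ℝ E3]
  [MeasurableSpace E3] [BorelSpace E3]
  {H3 : Type} [TopologicalSpace H3] {I3 : ModelWithCorners ℝ E3 H3} [I3.Boundaryless]
  {Y : Type} [TopologicalSpace Y] [ChartedSpace H3 Y] [IsManifold I3 ∞ Y] [T2Space Y]
  [MeasurableSpace Y] [BorelSpace Y] [SecondCountableTopology Y] [CompactSpace Y]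
  {κ : Type} [Fintype κ] {lam : Type} [Fintype lam] {D : YD I3 Y κ lam} {β : YC Y κ lam}

theorem fl_szU {τ : Pt (Y × ℝ) (Option κ) lam 0 0} (hD : D.OK) (hβ : D.Adm β) (h0 : sz D β τ 0 = 0)
    {u : Cz β} (hL : Vr D β u → Fl D.Z.toPre (te τ (cy β) u - te τ (cy β) 0)) (hu : Vr D β u) :
    Fl D.Z.toPre (sz D β τ u) := by
  have b := bs_cyl hD hβ
  obtain ⟨C, hC, g⟩ := b.good_lin
  have e : sz D β τ u = lin D.B D.Z (cy β) u + (fun x => qd D.B (cy β) x (u x) (u x)) -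
      (te τ (cy β) u - te τ (cy β) 0) := funext fun x => by
    have := se_eq hD.B hD.G hβ.adm τ hu.fl.sm hu.tg x
    rw [show se D.B D.G τ (cy β) 0 x = 0 from congrFun h0 x, zero_add] at this
    exact this
  rw [e]
  exact ((hu.fl.opA g).add (hu.fl.app (Cb_app b.cb_qd (hu.fl.cb hC)))).sub (hL hu)

/-- moving the right end -/
theorem step1U (hD : D.OK)
    (hβ : D.Adm β) {δ : ℝ} (δ0 : 0 < δ) (δ1 : δ ≤ 1) {k : ℕ} (hk : 7 ≤ k) (Dd : ℕ → ℝ) (Λ : ℝ) :
    ∃ C ≥ 1, ∀ {τ} {γ η L p q q' q₀ c b T : ℝ} {v : Cz β} {th ψ ψ' : ℝ → ℝ} {u h},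
      Inp D β τ γ k (k + 1) η v th p q₀ → η ≤ 1 → 1 ≤ L → p ≤ q → q ≤ q' → q' ≤ q + 2 → |c| ≤ 1 →
      |c + vth th p q q| ≤ 1 → Wz D ψ δ Dd → Wz D ψ' δ Dd → (∀ t, δ * tent L p q t ≤ ψ t) →
      (∀ t, ψ' t ≤ δ * tent L p q' t + Λ) → C * b ≤ 1 →
      exp (δ * L) * (η + |c + vth th p q q|) ≤ T → Stt D β k ψ (Xc v th L p q c) b u h →
      |vth th p q' q' - vth th p q q| ≤ 3 * η ∧
        ∃ u', Stt D β k ψ' (Xc v th L p q' c) (C * (b + T)) u' h := by
  obtain ⟨K, K0, hK⟩ := Tr6.tr1 D β hD hβ δ δ0 δ1 (k + 1) Dd Λ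
  obtain ⟨G, G1, hG⟩ := ga_w Hm83.ga hD hβ hk K Dd
  obtain ⟨W, W0, hW⟩ := nw_wt (V := Cv (cy β)) D.Z Dd (2 + Λ) (k + 1)
  obtain ⟨C, hC⟩ := tame_Z hD
  have gk : 0 ≤ G * K := by positivity
  refine ⟨G + W + G * K, by linarith, fun {τ γ η L p q q' q₀ c b T v th ψ ψ' u h} I η1 L1 h1 h2 h3 c1 c2
    hw hw' lo hi hb hT H => ?_⟩
  obtain ⟨v1, v2, b1, -, e, n⟩ := hK η L p q q' c δ v th ψ' I.vb I.v1 I.sm I.cb I.t1 η1 L1 h1 h2 h3 c1
    c2 hw' hi
  have b0 := H.nn
  obtain ⟨g1, g2, g3⟩ := (hG ψ δ _ b u h hw v1 (CB_of_le b1 k.le_succ) (by nlinarith) H ψ' δ hw').1 _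
    ⟨v2.fl.sub v1.fl, v2.tg.sub v1.tg⟩
  rw [add_sub_cancel] at g2
  refine ⟨e, _, ⟨H.vr.fl.add g1.fl, H.vr.tg.add g1.tg⟩, g2,
    (nw_add hC hw' H.vr.fl g1.fl _).trans ?_⟩
  have a1 := (hW _ _ _ _ hw hw' (fun x => by
    have := mul_le_mul_of_nonneg_left (tent_le (L := L) (p := p) (t := x.2) h3) δ0.le
    have := hi x.2
    have := lo x.2
    linarith) u H.vr.fl).trans (mul_le_mul_of_nonneg_left H.le W0)
  have a2 := g3.trans (mul_le_mul_of_nonneg_left (n.trans ((mul_assoc _ _ _).trans_le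
    (mul_le_mul_of_nonneg_left hT K0))) (by linarith))
  have T0 : 0 ≤ T := le_trans (mul_nonneg (exp_pos _).le (add_nonneg I.t1.nonneg (abs_nonneg _))) hT
  refine (add_le_add a1 a2).trans ?_
  nlinarith [mul_nonneg W0 T0, mul_nonneg gk b0]

theorem coreU {K : Cz β → Y × ℝ → Ev (cy β)} {ν g₁ d₀ γ : ℝ} (H : Bu D β K ν) (hg₁ : 0 < g₁)
    (hd₀ : 0 < d₀) (γ0 : 0 < γ) : ∃ δ > 0, ∀ T, Fu D β K g₁ d₀ T → ∀ k, 8 ≤ k → ∀ B > 0, ∃ k₁, ∃ η > 0,
      ∀ τ ∈ T, ∀ (v : Cz β) (th : ℝ → ℝ) (p q : ℝ), Inp D β τ γ k k₁ η v th p q → (ν = 0 → th = 0) →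
      ∃ (u : Cz β) (h : Y × ℝ → En (Fin β.m.N)) (θ : ℝ), Vr D β u ∧
        Eq0 D.Z (cf (cy β) (rot (cy β) (fun x => th x.2 + θ) v)) (cf (cy β) u)
          (univ ×ˢ Ioo (p + 1) (q - 1)) h ∧
        ∀ t ∈ Icc p q, Lt D (k - 3) u t (B * exp (-δ * min (t - p) (q - t))) := by
  obtain ⟨τ₀, l, Kt, n, hL⟩ := H.lz
  have hD := H.ok
  have hβ := H.adm
  obtain ⟨ε, ε0, st⟩ := stU hD hβ H.irr hL hd₀
  obtain ⟨Λ, Λ1, Dd, wg⟩ := Lad50.Wg.wgt D ε ε0
  obtain ⟨G, G0, ro⟩ := Lad50.Rw.rowS D β n hD hL.rw.sm Λ Λ1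
  obtain ⟨KR, KR0, ro⟩ := ro Dd
  obtain ⟨δ₀, δ₀0, st⟩ := st G G0
  obtain ⟨δ₁, δ₁0, er⟩ := errU (K₀ := K) (d₀ := d₀) hD hβ hg₁ γ0
  obtain ⟨δ, δ0, d0, d1, δ1⟩ : ∃ δ > 0, δ ≤ δ₀ ∧ δ ≤ δ₁ ∧ δ ≤ 1 := ⟨min δ₀ (min δ₁ 1), by positivity,
    min_le_left _ _, (min_le_right _ _).trans (min_le_left _ _), (min_le_right _ _).trans (min_le_right _ _)⟩
  refine ⟨δ, δ0, fun T F k hk B B0 => ?_⟩
  obtain ⟨CS, CS0, r₀, r0, st⟩ := st δ δ0 d0 k hk Dd T F.qd F.crit
  obtain ⟨k₁, KE, KE0, er⟩ := er δ δ0 d1 k Dd Λ T F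
  obtain ⟨KP, KP0, hP⟩ := Hm83.phs D β hD hβ H.conn n ν hL.rw
  obtain ⟨θ₀, θ0, KT, KT0, hT⟩ := phase_bd Hm83.phs hD hβ H.conn hL.rw Dd
  obtain ⟨C1, C11, s1⟩ := step1U hD hβ δ0 δ1 (k := k) (by omega) Dd Λ
  obtain ⟨C2, C21, s2⟩ := step2 Tr6.tr2 hD hβ hL.rw δ0 (k := k) (by omega) Dd Λ
  obtain ⟨K1, -, t1⟩ := Tr6.tr1 D β hD hβ δ δ0 δ1 (k + 1) Dd Λ
  obtain ⟨KG, KG1, ga⟩ := ga_w Hm83.ga hD hβ (k := k) (by omega) K1 Dd
  obtain ⟨Ct, hC⟩ := tame_Z hD
  obtain ⟨KO, KO0, hO⟩ := Dw_le (V := Cv (cy β)) hC Dd (k - 3)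
  -- the constants
  obtain ⟨c1, c11, e1⟩ : ∃ c1 ≥ 1, c1 = C1 * (2 + KT) :=
    ⟨_, one_le_mul_of_one_le_of_one_le C11 (by linarith), rfl⟩
  obtain ⟨c2, c21, e2⟩ : ∃ c2 ≥ 1, c2 = C2 * c1 := ⟨_, one_le_mul_of_one_le_of_one_le C21 c11, rfl⟩
  obtain ⟨c3, c30, e3⟩ : ∃ c3 ≥ 0, c3 = CS * KG * KE := ⟨_, by positivity, rfl⟩
  obtain ⟨L, LΛ, hLc⟩ : ∃ L ≥ Λ, 6 * (c3 * KT * c2) ≤ L := ⟨_, le_max_left _ _, le_max_right _ _⟩
  have L1 : 1 ≤ L := Λ1.trans LΛ
  have L0 : 0 < L := by linarith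
  obtain ⟨b, ⟨⟨b1, b2, b3⟩, b4, b5, b6⟩, b7, b8, b0⟩ := ((((ev_small C1 one_pos).and ((ev_small c2 one_pos).and
    (ev_small (KG * c2) one_pos))).and ((ev_small c2 r0).and ((ev_small (KT + c2 + 3) θ0).and
    (ev_small (KT + c2 + 3) one_pos)))).and ((ev_small KO B0).and ((ev_small
      (3 * (CS * (KR * (C2 * c1 ^ 2 + KP * c2 ^ 2) + c2 ^ 2))) one_pos).and self_mem_nhdsWithin))).exists
  replace b0 : 0 < b := b0
  obtain ⟨η, ⟨η1, η2⟩, η0⟩ := (((ev_small (exp (δ * L)) b0).and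
    (ev_small (3 * (c3 * exp (δ * L))) b0)).and self_mem_nhdsWithin).exists
  replace η0 : 0 < η := η0
  have E1 : 1 ≤ exp (δ * L) := one_le_exp (by positivity)
  have ηb : η ≤ b := (le_mul_of_one_le_left η0.le E1).trans η1
  have bb : b ≤ 1 := (le_mul_of_one_le_left b0.le C11).trans b1
  refine ⟨max k₁ (k + 1), η, η0, fun τ hτ v th p q I hth => ?_⟩
  replace st := st τ hτ
  replace er := er τ hτ
  have len := I.len
  choose! ψ ς k' hw using fun q' (h : p ≤ q') => wg δ δ0 δ1 L p q' LΛ h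
  -- the phases at the two ends
  have phs : ∀ q' c u h b', p ≤ q' → Vr D β (Xc v th L p q' c) → Stt D β k (ψ q') (Xc v th L p q' c) b' u h →
      b' ≤ 1 → |c| ≤ θ₀ → |c + vth th p q' q'| ≤ θ₀ → (ν = 0 → c = 0) →
      exp (δ * L) * |c| ≤ KT * b' ∧ exp (δ * L) * |c + vth th p q' q'| ≤ KT * b' := by
    intro q' c u h b' h1 hv S h2 h3 h4 h5
    have w := hw q' h1
    have i := S.le4 (by omega)
    have a1 := hT _ _ w.wd _ u h p c hv S.vr S.eq
      (fun y => by rw [Xc_slice (.inl le_rfl), Th_p L0 h1]) (i.trans h2) h3 h5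
    have a2 := hT _ _ w.wd _ u h q' _ hv S.vr S.eq
      (fun y => by rw [Xc_slice (.inr le_rfl), Th_q L0 h1]) (i.trans h2) h4
      fun h0 => by simp [h5 h0, hth h0, vth]
    have a3 := exp_le_exp.2 (w.lo p)
    have a4 := exp_le_exp.2 (w.lo q')
    rw [tent_p L0.le h1] at a3
    rw [tent_q L0.le h1] at a4
    have := mul_le_mul_of_nonneg_left i KT0
    exact ⟨(mul_le_mul_of_nonneg_right a3 (abs_nonneg _)).trans (a1.trans this),
      (mul_le_mul_of_nonneg_right a4 (abs_nonneg _)).trans (a2.trans this)⟩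
  have vr : ∀ q' c, p ≤ q' → |c| ≤ 1 → |c + vth th p q' q'| ≤ 1 →
      Vr D β (Xc v th L p q' c) ∧ D.Z.CB k (Xc v th L p q' c) K1 := fun q' c h1 h2 h3 =>
    have J := I.mono γ0 len le_rfl (le_max_right _ _)
    have := t1 η L p q' q' c δ v th (ψ q') J.vb J.v1 J.sm J.cb J.t1 (ηb.trans bb) L1 h1 le_rfl
      (by linarith) h2 h3 (hw q' h1).wd (hw q' h1).hi
    ⟨this.1, CB_of_le this.2.2.1 k.le_succ⟩
  let Inv : ℝ → Prop := fun q' => ∃ c u h, Stt D β k (ψ q') (Xc v th L p q' c) b u h ∧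
    |c| ≤ min θ₀ 1 ∧ |c + vth th p q' q'| ≤ min θ₀ 1 ∧ (ν = 0 → c = 0)
  have step : ∀ q₀ q', p ≤ q₀ → q₀ ≤ q' → q' ≤ q₀ + 2 → p + 2 ≤ q' → q' ≤ q → Inv q₀ → Inv q' := by
    rintro q₀ q' h1 h2 h3 h4 h5 ⟨c, u, h, S, i1, i2, i3⟩
    rw [le_min_iff] at i1 i2
    have h6 := h1.trans h2
    have w := hw q' h6
    obtain ⟨p1, p2⟩ := phs q₀ c u h b h1 (vr q₀ c h1 i1.2 i2.2).1 S bb i1.1 i2.1 i3
    obtain ⟨v1, u1, S1⟩ := s1 (T := (1 + KT) * b) (I.mono γ0 len le_rfl (le_max_right _ _)) (ηb.trans bb)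
      L1 h1 h2 h3 i1.2 i2.2 (hw q₀ h1).wd w.wd (hw q₀ h1).lo w.hi b1 (by linarith) S
    rw [show C1 * (b + (1 + KT) * b) = c1 * b by rw [e1]; ring] at S1
    obtain ⟨a, u2, a1, a2, S2, a3⟩ := s2 L1 h6 w.wd (fun t => ⟨w.lo t, w.hi t⟩)
      (by rw [← mul_assoc, ← e2]; exact b2) S1
    rw [← mul_assoc, ← e2] at a1 S2
    have j1 : |c + a| ≤ (KT + c2 + 3) * b := by
      linarith [abs_add_le c a, le_mul_of_one_le_left (abs_nonneg c) E1]
    have j2 : |c + a + vth th p q' q'| ≤ (KT + c2 + 3) * b := by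
      have := abs_add_three (c + vth th p q₀ q₀) a (vth th p q' q' - vth th p q₀ q₀)
      rw [show c + vth th p q₀ q₀ + a + (vth th p q' q' - vth th p q₀ q₀) = c + a + vth th p q' q' by ring]
        at this
      linarith [le_mul_of_one_le_left (abs_nonneg (c + vth th p q₀ q₀)) E1]
    have j3 : ν = 0 → c + a = 0 := fun h0 => by rw [i3 h0, a2 h0, add_zero]
    obtain ⟨x1, x2⟩ := vr q' _ h6 (j1.trans b6) (j2.trans b6)
    obtain ⟨p3, p4⟩ := phs q' _ u2 h _ h6 x1 S2 b2 (j1.trans b5) (j2.trans b5) j3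
    have r1 := (er η L p q' _ δ v th (ψ q') (I.mono γ0 h4 h5 (le_max_left _ _)) (ηb.trans bb) L1
      (j1.trans b6) (j2.trans b6) w.wd w.hi).2
    have r2 := (ga _ _ _ _ u2 h w.wd x1 x2 (by rw [← mul_assoc]; exact b3) S2 _ _ w.wd).2 _
      (fl_szU hD hβ (F.crit τ hτ) (F.qd.fl τ hτ _) x1)
    replace r2 := (congrArg (nz D k (ψ q'))
      (funext (sz_nat hD hβ (F.nat τ hτ) x1.fl.sm x1.tg S2.vr.fl.sm S2.vr.tg S2.eq))).trans_le r2
    have i4 := S2.le4 (by omega)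
    obtain ⟨-, g, u3, y1, y2, y3⟩ := st (ψ q') (ς q') (k' q') w.pf w.wd u2 S2.vr (S2.le.trans b4)
      (KR * (C2 * (c1 * b) ^ 2 + KP * (c2 * b) ^ 2)) (by positivity) fun V hV hr => by
        refine (ro (ψ q') (k' q') δ ((p + q') / 2) KP u2 V w.wd w.pf.sk.cd.continuous w.pf.k1 S2.vr.fl
          hV.fl KP0 fun t ht => ?_).trans (add_le_add (mul_le_mul_of_nonneg_left (add_le_add
            (by rw [hr]; exact a3) (mul_le_mul_of_nonneg_left
              (pow_le_pow_left₀ (nw_nonneg _ _) i4 2) KP0)) KR0) le_rfl)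
        have o : (t ≤ p - L ∨ q' + L ≤ t) → |row D n V t| ≤ KP * sl D u2 t ^ 2 := fun o => by
          have := hP _ u2 h t 0 x1.fl.sm S2.vr.fl.sm x1.tg S2.vr.tg S2.eq fun y => by
            rw [Xc_slice (o.imp (fun _ => by linarith) fun _ => by linarith), Th_out L0 o]
          simpa [hr] using this
        rcases w.sup t ht with o1 | o1 | o1
        exacts [.inr (o (.inl o1)), .inl o1, .inr (o (.inr o1))]
    refine ⟨c + a, u3, _, ⟨y1, S2.eq.trans y2, y3.trans ?_⟩, le_min (j1.trans b5) (j1.trans b6),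
      le_min (j2.trans b5) (j2.trans b6), j3⟩
    have z1 : exp (δ * L) * ((|c + a| + |c + a + vth th p q' q'|) / L) ≤ 2 * (KT * (c2 * b)) / L := by
      rw [← mul_div_assoc]; exact div_le_div_of_nonneg_right (by linarith) L0.le
    have z2 : c3 * (2 * (KT * (c2 * b)) / L) ≤ b / 3 := by
      rw [← mul_div_assoc, div_le_iff₀ L0]; linarith [mul_le_mul_of_nonneg_left hLc b0.le]
    have z3 := pow_le_pow_left₀ (nw_nonneg _ _) S2.le 2
    have z4 := r2.trans (mul_le_mul_of_nonneg_left r1 (by linarith))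
    have z5 := mul_le_mul_of_nonneg_left z1 c30
    have z6 := mul_le_mul_of_nonneg_left b8 b0.le
    refine (mul_le_mul_of_nonneg_left (add_le_add (add_le_add z4 le_rfl) z3) CS0).trans ?_
    rw [e3] at z2 z5 η2
    linarith
  have base : Inv p := by
    refine ⟨0, 0, (cy β).m.p, ⟨⟨Fl.zero, Tg.zero⟩, ?_, ?_⟩, by simp [θ0.le], by simp [vth_self, θ0.le],
      fun _ => rfl⟩
    · rw [Xc_base]
      exact Tmp64.Eq0.refl (G := D.G) (Tmp64.admOn_univ.2 (cf_adm hβ.adm contMDiff_const Tg.zero))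
    · simp only [nz, nw, Pi.zero_apply, smul_zero]
      exact (nrm_zero hC _).trans_le b0.le
  have ind : ∀ j : ℕ, ∀ q', p + 2 ≤ q' → q' ≤ q → q' ≤ p + 2 * (j + 1) → Inv q' := by
    intro j
    induction j with
    | zero => exact fun q' h1 h2 h3 => step p q' le_rfl (by linarith) (by simpa using h3) h1 h2 base
    | succ j ih =>
      intro q' h1 h2 h3
      push_cast at h3
      have j0 : (0 : ℝ) ≤ j := j.cast_nonneg
      have m1 := le_max_left (p + 2) (q' - 2)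
      have m2 := le_max_right (p + 2) (q' - 2)
      have m3 : max (p + 2) (q' - 2) ≤ q' := max_le h1 (by linarith)
      exact step _ q' (by linarith) m3 (by linarith) h1 h2
        (ih _ m1 (m3.trans h2) (max_le (by linarith) (by linarith)))
  obtain ⟨j, hj⟩ := exists_nat_ge (q - p)
  obtain ⟨c, u, h, S, -⟩ := ind j q len le_rfl (by linarith [j.cast_nonneg (α := ℝ)])
  have w := hw q (by linarith)
  refine ⟨u, h, c + (vth th p q (p + 1) - th (p + 1)), S.vr, eq0_congr (S.eq.mono (subset_univ _))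
    fun x hx => rot_congr ?_ ?_, fun t ht z hz y => (hO _ _ w.wd u S.vr.fl z hz (y, t)).trans ?_⟩
  · rw [Th, ret_one L0 (by linarith [hx.2.1]) (by linarith [hx.2.2]), vth_mid I.sm hx.2.1.le hx.2.2.le]
    ring
  · rw [chi_one hx.2.1.le hx.2.2.le, one_smul]
  · have a1 : exp (-ψ q t) ≤ exp (-δ * min (t - p) (q - t)) := exp_le_exp.2 (by
      have := w.lo t
      have := mul_le_mul_of_nonneg_left (le_max_right 0 (L + min (t - p) (q - t))) δ0.le
      have := mul_pos δ0 L0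
      simp only [tent] at *
      linarith)
    rw [show k - 3 + 4 = k + 1 by omega, mul_right_comm]
    exact mul_le_mul ((mul_le_mul_of_nonneg_left S.le KO0).trans b7) a1 (exp_pos _).le B0.le

end Crest.Agent.X212.Dec35
end
end

-- ▼ part X212/Dec35/FRd

/-!
# Row 212, DEC-U (helper35): the reduction of `Pj41.red`, uniformly on a family
-/

set_option autoImplicit false
set_option linter.unusedSectionVars false
noncomputable section
open scoped Manifold ContDiff Topology InnerProductSpace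
open Set Function Filter Real

namespace Crest.Agent.X212.Dec35
open An Map77 Sob92 Tmp64 Cyf70 Nd18 Pj41
open Bki64 (Cl ClsT win Cn BB cov dA dP csB)
open Neck67 (Lb up dn cS)

variable {E3 : Type} [NormedAddCommGroup E3] [NormedSpace ℝ E3] [FiniteDimensional ℝ E3]
  [MeasurableSpace E3] [BorelSpace E3]
  {H3 : Type} [TopologicalSpace H3] {I3 : ModelWithCorners ℝ E3 H3} [I3.Boundaryless]
  {Y : Type} [TopologicalSpace Y] [ChartedSpace H3 Y] [IsManifold I3 ∞ Y] [T2Space Y]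
  [MeasurableSpace Y] [BorelSpace Y] [SecondCountableTopology Y] [CompactSpace Y]
  {κ : Type} [Fintype κ] {lam : Type} [Fintype lam] {D : YD I3 Y κ lam} {β : YC Y κ lam}

/-- **DEC-U**: the rate depends only on the data at `β` and on the rates of the inputs -/
theorem decU {K₀ : Cz β → Y × ℝ → Ev (cy β)} {ν g₁ d₀ γ : ℝ} (H : Bu D β K₀ ν) (hg₁ : 0 < g₁)
    (hd₀ : 0 < d₀) (hγ : 0 < γ) : ∃ d > 0, ∀ T, Fu D β K₀ g₁ d₀ T → DecU D β γ d T := by
  have hD := H.ok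
  have hβ := H.adm
  obtain ⟨δ, hδ, core⟩ := coreU H hg₁ hd₀ hγ
  refine ⟨δ, hδ, fun T F k' K k B hB => ?_⟩
  obtain ⟨K₁, p₁, h₁⟩ := cl_of_ex (F := D.Z) (c' := cy β) hβ.adm.ok
  obtain ⟨k₁, η₀, p₀, core⟩ := core T F (k + 11) (by omega) (B / (K₁ + 1)) (by positivity)
  obtain ⟨K₂, p₂, h₂⟩ := exists_cutW hD hβ (max k₁ (k' (k + 11)))
  obtain ⟨C, hC⟩ := rot_bd hβ (k' (k + 11)) η₀
  have pε : 0 < η₀ / (K₂ + 1) := by positivity
  have hε : K₂ * (η₀ / (K₂ + 1)) ≤ η₀ := by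
    rw [mul_div_assoc', div_le_iff₀ (by positivity)]; nlinarith
  obtain ⟨η₁, p₃, g⟩ : ∃ η > 0, ∀ r (c : Cfg (Y × ℝ) (Option κ) lam r) (S : Set ℝ),
      S.OrdConnected → (∀ s ∈ S, AdmOn c D.B D.G (win Y s 7) ∧ ∃ u ζ, Cn D c β u ζ (win Y s 7) η) →
      ∃ u θ, ClsT D c β u θ (Metric.thickening 1 S) (max k₁ (k' (k + 11))) (η₀ / (K₂ + 1)) ∧
        (ν = 0 → θ = 0) := by
    by_cases hν : ν = 0
    · obtain ⟨ε, p, f⟩ := Cay24.fix D β hD hβ H.conn (H.fix hν) (max k₁ (k' (k + 11))) _ pε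
      obtain ⟨η, q, g⟩ := Bki64.g1' hD hβ (max k₁ (k' (k + 11))) p
      refine ⟨η, q, fun r c S h1 h2 => ?_⟩
      obtain ⟨u, θ, h⟩ := g r c S h1 h2
      exact (f r c u θ _ h).imp fun u' h' => ⟨0, h', fun _ => rfl⟩
    · obtain ⟨η, q, g⟩ := Bki64.g1' hD hβ (max k₁ (k' (k + 11))) pε
      exact ⟨η, q, fun r c S h1 h2 => (g r c S h1 h2).imp fun u h => h.imp fun θ h =>
        ⟨h, fun e => (hν e).elim⟩⟩
  obtain ⟨R, hR, R4⟩ : ∃ R : ℝ, K (k + 11) C * exp (-γ * (R - 3)) ≤ η₀ ∧ 4 ≤ R := by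
    have : Tendsto (fun R : ℝ => K (k + 11) C * exp (-γ * (R - 3))) atTop (𝓝 (K (k + 11) C * 0)) :=
      (tendsto_exp_atBot.comp ((tendsto_atTop_add_const_right _ (-3) tendsto_id).const_mul_atTop_of_neg
        (neg_neg_of_pos hγ))).const_mul _
    exact ((this.eventually (ge_mem_nhds (by simpa))).and (eventually_ge_atTop 4)).exists
  have pη : 0 < min η₁ (R + 7)⁻¹ := lt_min p₃ (by positivity)
  have hη : R + 7 ≤ (min η₁ (R + 7)⁻¹)⁻¹ := le_inv_of_le_inv₀ pη (min_le_right _ _)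
  refine ⟨_, pη, fun τ hτ r c S a b hab hA hw => ?_⟩
  generalize min η₁ (R + 7)⁻¹ = η, min_le_left η₁ (R + 7)⁻¹ = hη' at hη pη hw
  have w7 : ∀ s ∈ Icc (a - R) (b + R), s ∈ S ∧ AdmOn c D.B D.G (win Y s 7) ∧
      ∃ u ζ, Cn D c β u ζ (win Y s 7) η₁ := fun s hs => by
    obtain ⟨s', h1, h2⟩ := exists_clamp hab (by linarith) hs
    obtain ⟨h3, h4, u, ζ, h5⟩ := hw s' h1
    have := Bki64.win_sub (Y := Y) (s := s) (s' := s') (L := 7) (L' := η⁻¹) (by linarith)
    exact ⟨h3 ⟨by linarith [(abs_le.1 h2).1], by linarith [(abs_le.1 h2).2]⟩, h4.mono this, u, ζ,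
      h5.mono (Bki64.win_op _ _) this pη hη'⟩
  obtain ⟨u, θ, hu, hν⟩ := g r c _ ordConnected_Icc fun s hs => (w7 s hs).2
  have sub := Metric.self_subset_thickening one_pos (Icc (a - R) (b + R))
  obtain ⟨v, th, v1, v2, t1, t2, t3, t4, ex⟩ := h₂ r c u θ _ _ _ _ pε.le hu
    Metric.isOpen_thickening sub fun s hs => (w7 s hs).2.1
  have v3 : ∀ j ≤ max k₁ (k' (k + 11)), D.Z.CB j v η₀ := fun j hj w hw x => (v2 w (hw.trans hj) x).trans hε
  have iso : ∀ t L, a - R ≤ t - L → t + L ≤ b + R → Iso0 (IC I3) c.m (cy β).m (win Y t L) u :=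
    fun t L h1 h2 => hu.cl.iso.mono (prod_mono_right fun s hs => sub ⟨h1.trans hs.1.le,
      hs.2.le.trans h2⟩)
  obtain ⟨u', h, θ₀, k1, k2, k3⟩ := core τ hτ v th (a - 2) (b + 2) ⟨by linarith, v1,
    v3 _ (le_max_left _ _), t1, t2, (t3.of_le (le_max_left _ _)).mono hε, fun t ht => by
      have m0 : 0 ≤ min (t - (a - 2)) (b + 2 - t) := le_min (by linarith [ht.1]) (by linarith [ht.2])
      have m1 := min_le_left (t - (a - 2)) (b + 2 - t)
      have m2 := min_le_right (t - (a - 2)) (b + 2 - t)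
      generalize min (t - (a - 2)) (b + 2 - t) = m at m0 m1 m2
      refine (hA (k + 11) C _ u t (R - 3 + m) (by linarith)
        (fun s hs => (w7 s ⟨by linarith [hs.1], by linarith [hs.2]⟩).1) (rot_vb hβ v1 t1 t2)
        (hC v th v1.cb.choose_spec.1 (v3 _ (le_max_right _ _)) t1
          ((t3.of_le (le_max_right _ _)).mono hε))
        (cl_of_ex0 (Bki64.win_op _ _) (iso _ _ (by linarith) (by linarith)) fun x hx => by
          simpa only [add_zero] using
            ex x ⟨by linarith [hx.2.1], by linarith [hx.2.2]⟩ 0)).mono le_rfl ?_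
      rw [mul_add, exp_add, ← mul_assoc]
      gcongr⟩ fun e => t4 (hν e)
  refine ⟨fun x => h x ∘L u x, Circle.exp θ₀, fun s hs => ?_⟩
  have sb : win Y s 1 ⊆ univ ×ˢ Ioo (a - 2 + 1) (b + 2 - 1) :=
    prod_mono_right (Ioo_subset_Ioo (by linarith [hs.1]) (by linarith [hs.2]))
  have i1 := iso s 1 (by linarith [hs.1]) (by linarith [hs.2])
  refine (h₁ r c _ u' θ₀ _ k (B / (K₁ + 1) * exp (-δ * min (s - a) (b - s))) (by positivity)
    (Bki64.win_op _ _) (i1.trans (k2.iso.mono sb)) k1.tg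
    (fun x hx => (ex x ⟨by linarith [hx.2.1, hs.1], by linarith [hx.2.2, hs.2]⟩ θ₀).comp
      (i1.su x hx) k2 (sb hx))
    (Lb.of_Dw (fun x _ => k1.fl.sm x) fun w hw x hx => (k3 x.2
      ⟨by linarith [hx.2.1, hs.1], by linarith [hx.2.2, hs.2]⟩ w (by omega) x.1).trans ?_)).mono
    (Bki64.win_op _ _) Subset.rfl le_rfl ?_
  · refine mul_le_mul_of_nonneg_left (exp_le_exp.2 ?_) (by positivity)
    refine mul_le_mul_of_nonpos_left (min_le_min ?_ ?_) (by linarith)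
    · linarith [hx.2.1]
    · linarith [hx.2.2]
  · rw [← mul_assoc]
    gcongr
    rw [mul_div_assoc', div_le_iff₀ (by positivity)]; nlinarith

end Crest.Agent.X212.Dec35
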