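import Crest.Agent.X212.Ax1.Fr
import Crest.Agent.X212.Ax1.Lc
import Crest.Agent.X212.Dgr80.Elm
import Crest.Agent.X212.Dec35.Jb
import Crest.Agent.X212.Cyf70.Ka
import Crest.Agent.X212.Dec35.Jp
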