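import Crest.Agent.X212.Dec35.Fl
import Crest.Agent.X212.Mon62.Hyp
import Crest.Agent.X212.Mon62.RE
import Crest.Agent.X212.Dec35.Alg
import Crest.Agent.X212.Cys97.Defs

-- ▼ part X212/Dec35/TwA
section

/-!
# Row 212, KP-TW (helper35): the Banach model over a family of weights
-/

set_option autoImplicit false
set_option linter.unusedSectionVars false
set_option maxSynthPendingDepth 3
noncomputable section
open scoped Manifold ContDiff Topology InnerProductSpace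
open MeasureTheory Set Function Filter Real

namespace Crest.Agent.X212.Dec35
open An Sob92 Hm83 Mon62
open Nk89 (wt wt_wt WtP cW cT cW_nonneg)
open Ell97 (UB)

variable {E : Type} [NormedAddCommGroup E] [NormedSpace ℝ E] [FiniteDimensional ℝ E]
  [MeasurableSpace E] [BorelSpace E]
  {HM : Type} [TopologicalSpace HM] {I : ModelWithCorners ℝ E HM} [I.Boundaryless]
  {M : Type} [TopologicalSpace M] [ChartedSpace HM M] [IsManifold I ∞ M] [MeasurableSpace M]
  [T2Space M] [BorelSpace M] [SecondCountableTopology M] {ι : Type} [Fintype ι]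
  {N : Type} [NormedAddCommGroup N] [NormedSpace ℝ N]
  {V W : Type} [NormedAddCommGroup V] [InnerProductSpace ℝ V] [FiniteDimensional ℝ V]
  [NormedAddCommGroup W] [InnerProductSpace ℝ W] [FiniteDimensional ℝ W]
  {F F' : Fr I M ι} {C D : ℕ → ℝ} {ψ : M → ℝ} {d : ℝ}

theorem ML_of_le {μ ν : Measure M} {c : NNReal} (h : ν ≤ c • μ) (k : ℕ) : ∀ {u : M → N},
    ML I F.e μ k u → ML I F.e ν k u := by
  have h0 : ∀ {u : M → N}, MemLp u 2 μ → MemLp u 2 ν := fun hu =>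
    (hu.smul_measure (c := (c : ENNReal)) ENNReal.coe_ne_top).mono_measure h
  induction k with
  | zero => exact h0
  | succ k ih => exact fun hu => ⟨h0 hu.1, fun a => ih (hu.2 a)⟩

theorem nrm_exp_fl (h : WtP F.toPre F'.toPre ψ) (hF : F'.Tame C)
    (hD : ∀ a, F.CBs (F.D a ψ) D) (k : ℕ) : ∀ {u : M → V}, Fl F'.toPre u →
      F.nrm k (fun x => exp (ψ x) • u x) ≤ cW ι D k * F'.nrm k u := by
  induction k with
  | zero => intro u _; rw [h.nrm_zero, cW, one_mul]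
  | succ k ih =>
    intro u hu
    refine (Prm93.nrm_succ_le k _).trans ?_
    rw [← h.nrm_zero, cW, add_mul, one_mul]
    refine add_le_add (nrm_mono (Nat.zero_le _) u) ?_
    have hs : ∀ a, Fl F'.toPre fun x => F.D a ψ x • u x := fun a =>
      hu.smul (h.Cb.2 ⟨_, hD a⟩)
    have hd : ∀ a, Fl F'.toPre (F.D a u) := fun a => h.D a u ▸ hu.D a
    refine (Finset.sum_le_card_nsmul _ _ (cW ι D k * (1 + cK ι k * |D k|) * F'.nrm (k + 1) u)
      fun a _ => ?_).trans (by simp [mul_assoc])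
    rw [Nk89.D_exp_smul F.toPre h.sm hu.sm]
    refine (ih (u := F.D a u + fun x => F.D a ψ x • u x) ((hd a).add (hs a))).trans ?_
    rw [mul_assoc]
    refine mul_le_mul_of_nonneg_left ((nrm_add hF (hd a) (hs a) k).trans ?_) (cW_nonneg D k)
    rw [add_mul, one_mul]
    refine add_le_add (h.D a u ▸ nrm_D_le k u a) ((nrm_smul (hD a).1 hu.sm (h.CB.2 ((hD a).2 k))
      (hu.fl k)).trans ?_)
    have := cK_nonneg (ι := ι) k
    exact mul_le_mul_of_nonneg_left (nrm_mono (Nat.le_succ k) u) (by positivity)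

theorem fl_of_val (hF : F.Tame C) {g : M → W}
    (h : ∀ j, 8 ≤ j → ∃ y : F.H j (triv M W), F.val j _ y = g) : Fl F.toPre g := by
  have sm : Sm I g := contMDiff_infty.2 fun n => by
    obtain ⟨y, rfl⟩ := h (n + 8) (by omega)
    exact contMDiff_val (Sup.of_tame hF) (by omega) y
  refine ⟨sm, fun k => ?_⟩
  obtain ⟨y, rfl⟩ := h (k + 8) (by omega)
  exact ((Is.val (Sup.of_tame hF) (by omega) y).incl (Nat.le_add_right k 8)).FL sm

namespace Wd
variable (h : Wd F.toPre ψ d D)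

/-- the weighted frame -/
abbrev fr : Fr I M ι := wt F ψ h.sm

theorem wp : WtP F.toPre h.fr.toPre ψ := (wt_wt F h.sm).toWtP

theorem tame (hF : F.Tame C) : h.fr.Tame (cT ι C D) := (wt_wt F h.sm).tame hF h.nn h.der

theorem fl_fr {u : M → N} (hu : Fl F.toPre u) : Fl h.fr.toPre u :=
  let ⟨_, hA⟩ := h.bd
  ⟨hu.sm, fun k => ML_of_le (F := F) (Nk89.wm_le hA) k (hu.fl k)⟩

theorem fl_of {u : M → N} (hu : Fl h.fr.toPre u) : Fl F.toPre u :=
  ⟨hu.sm, fun k => ML_mono_measure (F := F.toPre) (Nk89.le_wm h.nn) k (hu.fl k)⟩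

theorem nw_le (hF : F.Tame C) {u : M → V} (hu : Fl F.toPre u) (k : ℕ) :
    nw F.toPre k ψ u ≤ cW ι D k * h.fr.nrm k u :=
  nrm_exp_fl h.wp (h.tame hF) h.der k (h.fl_fr hu)

theorem le_nw (hF : F.Tame C) {u : M → V} (hu : Fl F.toPre u) (k : ℕ) :
    h.fr.nrm k u ≤ cW ι D k * nw F.toPre k ψ u := by
  have := nrm_exp_fl h.wp.symm hF (h.wp.CBs_neg h.der) k (h.fl hu)
  simp only [smul_smul, Pi.neg_apply, ← exp_add, neg_add_cancel, exp_zero, one_smul,
    WtP.cW_abs] at this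
  exact this

end Wd

variable (F) in
/-- the smooth points -/
abbrev Sp (p : M → V →L[ℝ] V) : Type := {u : M → V // Fl F.toPre u ∧ ∀ x, p x (u x) = u x}

namespace Sp
variable {p : M → V →L[ℝ] V}

/-- the origin -/
def o : Sp F p := ⟨0, Fl.zero, fun _ => map_zero _⟩

/-- multiples -/
def sc (c : ℝ) (u : Sp F p) : Sp F p :=
  ⟨c • u.1, u.2.1.csmul c, fun x => by simp only [Pi.smul_apply, map_smul, u.2.2]⟩

/-- sums -/
def ad (u v : Sp F p) : Sp F p :=
  ⟨u.1 + v.1, u.2.1.add v.2.1, fun x => by simp only [Pi.add_apply, map_add, u.2.2, v.2.2]⟩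

variable (hF : F.Tame C) (h : Wd F.toPre ψ d D) (j : ℕ)

include hF in
theorem ex (u : Sp F p) : ∃ g : h.fr.H j p, Is h.fr.toPre j p g u.1 :=
  exists_Is (Exh.of_tame (h.tame hF)) u.2.1.sm ((h.fl_fr u.2.1).fl j) u.2.2

/-- the point of the weighted Sobolev space -/
def pt (u : Sp F p) : h.fr.H j p := (ex hF h j u).choose

theorem is (u : Sp F p) : Is h.fr.toPre j p (pt hF h j u) u.1 := (ex hF h j u).choose_spec

theorem pt_o : pt hF h j (o : Sp F p) = 0 := (is hF h j o).unique Is.zero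

theorem pt_sc (c : ℝ) (u : Sp F p) : pt hF h j (sc c u) = c • pt hF h j u :=
  (is hF h j _).unique ((is hF h j u).smul c)

theorem pt_ad (u v : Sp F p) : pt hF h j (ad u v) = pt hF h j u + pt hF h j v :=
  (is hF h j _).unique ((is hF h j u).add (is hF h j v))

theorem norm_pt (u : Sp F p) : ‖pt hF h j u‖ ≤ cW ι D j * nw F.toPre j ψ u.1 := by
  rw [(is hF h j u).norm u.2.1.sm]; exact h.le_nw hF u.2.1 j

theorem dense_pt : DenseRange (pt hF h j : Sp F p → _) :=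
  (h.fr.dense_toH j p).mono <| by
    rintro _ ⟨s, rfl⟩
    exact ⟨⟨s.1, .of_hcs s.2.1 s.2.2.1, s.2.2.2⟩, (is hF h j _).unique (Is.toH s)⟩

end Sp

variable {J : Type} {w : J → M → ℝ} (hF : F.Tame C) (hw : ∀ i, Wd F.toPre (w i) d D)
  (p : M → V →L[ℝ] V) (j : ℕ)

/-- **the model** -/
def wD : Dm I M ι (fun i => (hw i).fr.H j p) fun _ => Sp F p where
  U _ := univ
  B _ := Metric.closedBall 0 1
  op _ := isOpen_univ
  sub _ := subset_univ _
  F i := (hw i).fr
  C := cT ι C D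
  tame i := (hw i).tame hF
  pt i := Sp.pt hF (hw i) j
  y₀ _ := Sp.o
  mem _ _ := trivial
  dns i x _ := Sp.dense_pt hF (hw i) j x
  base i := by rw [Sp.pt_o]; exact Metric.mem_closedBall_self zero_le_one

variable {p j}

theorem wD_ub {f : M → N} (hf : F.Cb f) : UB (wD hF hw p j).P fun _ => f :=
  let ⟨c, hc⟩ := hf; ⟨c, fun i => (hw i).wp.CBs.2 hc⟩

theorem wD_id (hj : 4 ≤ j) : (wD hF hw p j).A0 True j fun _ u => u.1 :=
  Dm.A0.of_coord hj (p := fun _ => p) (δ := fun _ x => x)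
    (UC.id ⟨1, fun _ _ hx => mem_closedBall_zero_iff.1 hx⟩)
    ⟨fun i u => (hw i).wp.Cb.2 (u.2.1.cb hF), UB.const 0⟩ fun i u =>
      ((Sp.is hF (hw i) j u).val_eq ((wD hF hw p j).sup i) hj u.2.1.sm.continuous).symm

theorem wD_ff : (wD hF hw p j).FF fun _ _ => F := by
  obtain ⟨K, hK⟩ : ∃ K : ℕ → ℝ, ∀ k (ψ : M → ℝ), Wd F.toPre ψ d D →
      F.CB k (fun x => exp (-2 * ψ x)) (K k) := by
    choose K K0 hK using CB_exp (I := I) (M := M) (ι := ι) (-2) D
    exact ⟨fun k => K k * |1|, fun k ψ h => hK k F ψ 1 h.sm h.der fun x =>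
      exp_le_one_iff.2 (by linarith [h.nn x])⟩
  refine Dm.ff_fixed (F' := fun _ => F) (fun _ => rfl) (fun a => wD_ub hF hw ⟨_, hF.dv a⟩)
    (fun a b k => wD_ub hF hw ⟨_, hF.c a b k⟩) (fun _ => Mp86.bumps_of_tame _ hF)
    (ρ := fun i x => exp (-2 * w i x))
    ⟨K, fun i => (hw i).wp.CBs.2 ⟨sm_exp (hw i).sm _, fun k => hK k _ (hw i)⟩⟩ fun i g => ?_
  refine Eq.trans ?_ ((hw i).wp.integral _).symm
  simp only [smul_smul, ← exp_add, neg_mul, add_neg_cancel, exp_zero, one_smul]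

theorem wD_dr (hd : (Fintype.card ι : ℝ) * d ^ 2 ≤ 1 / 4) (i : J) :
    Nk89.Dr F ((wD hF hw p j).F i) fun k => 2 * |D k| :=
  (wt_wt F (hw i).sm).dr (hw i).der fun x => by
    refine (Finset.sum_le_card_nsmul _ _ (d ^ 2) fun a _ => ?_).trans (by simpa using hd)
    rw [← sq_abs]; exact pow_le_pow_left₀ (abs_nonneg _) ((hw i).sl a x) 2

/-- the Taylor expansion at the origin -/
theorem wD_taylor {f : (M → V) → M → W}
    (h : (wD hF hw p j).A0 False j fun _ u => f u.1) : ∃ K ≥ 0, ∀ i,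
      ∃ L : (hw i).fr.H j p →L[ℝ] (hw i).fr.H j (triv M W), ‖L‖ ≤ K ∧ ∀ u : Sp F p,
        (∀ x, HasDerivAt (fun ε : ℝ => f (ε • u.1) x)
          ((hw i).fr.val j _ (L (Sp.pt hF (hw i) j u)) x) 0) ∧
        ∃ g, (hw i).fr.val j _ g = f u.1 - f 0 ∧ (‖Sp.pt hF (hw i) j u‖ ≤ 1 →
          ‖g - L (Sp.pt hF (hw i) j u)‖ ≤ K * ‖Sp.pt hF (hw i) j u‖ ^ 2) := by
  obtain ⟨δ, h1, h2⟩ : ∃ δ : ∀ i, (hw i).fr.H j p → (hw i).fr.H j (triv M W),
    UC (wD hF hw p j).toRg δ ∧ ∀ i (u : Sp F p) x,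
      f u.1 x = f 0 x + (hw i).fr.val j _ (δ i (Sp.pt hF (hw i) j u)) x := h.rebase
  obtain ⟨K, K0, hK⟩ := h1.c11 fun _ => convex_closedBall 0 1
  refine ⟨K, K0, fun i => ?_⟩
  have m0 : (0 : (hw i).fr.H j p) ∈ Metric.closedBall 0 1 := Metric.mem_closedBall_self zero_le_one
  have df : ∀ x, HasFDerivAt (δ i) (fderiv ℝ (δ i) x) x := fun x =>
    (h1.sm.diff (i := i) (mem_univ x)).hasFDerivAt
  have e := h2 i
  have e0 : ∀ x, (hw i).fr.val j _ (δ i 0) x = 0 := fun x => by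
    have := e Sp.o x
    rw [Sp.pt_o] at this
    exact left_eq_add.1 this
  refine ⟨fderiv ℝ (δ i) 0, (hK i 0 m0).2.1, fun u => ⟨fun x => ?_, δ i (Sp.pt hF (hw i) j u) - δ i 0,
    funext fun x => by rw [val_sub, Pi.sub_apply, Pi.sub_apply, e0, e u x]; abel, fun hu => ?_⟩⟩
  · have h3 : HasDerivAt (fun ε : ℝ => ε • Sp.pt hF (hw i) j u) (Sp.pt hF (hw i) j u) 0 := by
      simpa using (hasDerivAt_id (0 : ℝ)).smul_const (Sp.pt hF (hw i) j u)
    have h4 := (df ((0 : ℝ) • Sp.pt hF (hw i) j u)).comp_hasDerivAt 0 h3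
    rw [zero_smul] at h4
    have h5 := (((hw i).fr.ev j (triv M W) x).hasFDerivAt.comp_hasDerivAt 0 h4).const_add (f 0 x)
    refine h5.congr_of_eventuallyEq (.of_forall fun ε => ?_)
    have := e (Sp.sc ε u) x
    rw [Sp.pt_sc] at this
    exact this
  · set y := Sp.pt hF (hw i) j u
    have sb : Metric.closedBall (0 : (hw i).fr.H j p) ‖y‖ ⊆ Metric.closedBall 0 1 :=
      Metric.closedBall_subset_closedBall hu
    have := (convex_closedBall (0 : (hw i).fr.H j p) ‖y‖).norm_image_sub_le_of_norm_hasFDerivWithin_le'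
      (f := δ i) (f' := fderiv ℝ (δ i)) (φ := fderiv ℝ (δ i) 0) (C := K * ‖y‖)
      (fun x _ => (df x).hasFDerivWithinAt) (fun x hx => ((hK i 0 m0).2.2 x (sb hx)).2.trans
        (mul_le_mul_of_nonneg_left (by simpa using hx) K0))
      (Metric.mem_closedBall_self (norm_nonneg y)) (mem_closedBall_zero_iff.2 le_rfl)
    simpa [sq, mul_assoc] using this

/-- the derivative at the origin -/
def dz (f : (M → V) → M → W) (u : M → V) (x : M) : W := deriv (fun ε : ℝ => f (ε • u) x) 0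

section tw
variable {f : (M → V) → M → W} (h : ∀ j, 8 ≤ j → (wD hF hw p j).A0 False j fun _ u => f u.1)
include h

theorem tw_der (i : J) (u : Sp F p) (x : M) :
    HasDerivAt (fun ε : ℝ => f (ε • u.1) x) (dz f u.1 x) 0 :=
  let ⟨_, _, hK⟩ := wD_taylor hF hw (h 8 le_rfl)
  let ⟨_, _, hL⟩ := hK i
  ((hL u).1 x).differentiableAt.hasDerivAt

theorem tw_add (i : J) (u v : Sp F p) : dz f (u.1 + v.1) = dz f u.1 + dz f v.1 := by
  obtain ⟨_, _, hK⟩ := wD_taylor hF hw (h 8 le_rfl)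
  obtain ⟨L, _, hL⟩ := hK i
  have e : ∀ u : Sp F p, dz f u.1 = (hw i).fr.val 8 _ (L (Sp.pt hF (hw i) 8 u)) := fun u =>
    funext fun x => ((hL u).1 x).deriv
  rw [e u, e v, ← val_add, ← map_add, ← Sp.pt_ad]
  exact e (u.ad v)

theorem tw_fl (i : J) (u : Sp F p) : Fl F.toPre (dz f u.1) ∧ Fl F.toPre (f u.1 - f 0) := by
  refine ⟨(hw i).fl_of (fl_of_val ((hw i).tame hF) fun j hj => ?_),
    (hw i).fl_of (fl_of_val ((hw i).tame hF) fun j hj => ?_)⟩ <;>
  obtain ⟨_, _, hK⟩ := wD_taylor hF hw (h j hj) <;> obtain ⟨L, _, hL⟩ := hK i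
  · exact ⟨_, funext fun x => ((hL u).1 x).deriv.symm⟩
  · exact (hL u).2.imp fun _ h => h.1

theorem tw_bd {j : ℕ} (hj : 8 ≤ j) : ∃ K ≥ 0, ∃ r₀ > 0, ∀ i (u : Sp F p),
    nw F.toPre j (w i) (dz f u.1) ≤ K * nw F.toPre j (w i) u.1 ∧ (nw F.toPre j (w i) u.1 ≤ r₀ →
      nw F.toPre j (w i) (f u.1 - f 0 - dz f u.1) ≤ K * nw F.toPre j (w i) u.1 ^ 2) := by
  obtain ⟨K, K0, hK⟩ := wD_taylor hF hw (h j hj)
  have a0 := cW_nonneg (ι := ι) D j
  set a := cW ι D j
  refine ⟨a * K * (a + a ^ 2), by positivity, (a + 1)⁻¹, by positivity, fun i u => ?_⟩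
  obtain ⟨L, L1, hL⟩ := hK i
  obtain ⟨h1, g, h2, h3⟩ := hL u
  obtain ⟨f1, f2⟩ := tw_fl hF hw h i u
  have e : (hw i).fr.val j _ (L (Sp.pt hF (hw i) j u)) = dz f u.1 :=
    funext fun x => (h1 x).deriv.symm
  have n : ∀ y : (hw i).fr.H j (triv M W), Fl F.toPre ((hw i).fr.val j _ y) →
      nw F.toPre j (w i) ((hw i).fr.val j _ y) ≤ a * ‖y‖ := fun y hy => by
    rw [(Is.val (Sup.of_tame ((hw i).tame hF)) (by omega) y).norm hy.sm]
    exact (hw i).nw_le hF hy j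
  have n1 : ‖Sp.pt hF (hw i) j u‖ ≤ a * nw F.toPre j (w i) u.1 := Sp.norm_pt hF (hw i) j u
  have n0 := nw_nonneg (F := F) (ψ := w i) j u.1
  set t := nw F.toPre j (w i) u.1
  refine ⟨?_, fun ht => ?_⟩
  · rw [← e] at f1 ⊢
    refine (n _ f1).trans ((mul_le_mul_of_nonneg_left ((L.le_opNorm _).trans
      (mul_le_mul L1 n1 (norm_nonneg _) K0)) a0).trans ?_)
    nlinarith [show 0 ≤ a * K * a ^ 2 * t by positivity]
  · have f3 := f2.sub f1
    rw [← e, ← h2, ← val_sub] at f3 ⊢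
    have h4 : a * t ≤ 1 := (mul_le_mul_of_nonneg_left ht a0).trans (by
      rw [← div_eq_mul_inv, div_le_one (by positivity)]; linarith)
    refine (n _ f3).trans ((mul_le_mul_of_nonneg_left ((h3 (n1.trans h4)).trans
      (mul_le_mul_of_nonneg_left (pow_le_pow_left₀ (norm_nonneg _) n1 2) K0)) a0).trans ?_)
    nlinarith [show 0 ≤ a * K * a * t ^ 2 by positivity]

end tw

end Crest.Agent.X212.Dec35
end
end

-- ▼ part X212/Dec35/TwB

/-!
# Row 212, KP-TW (helper35): the variations of a background as a family of configurations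
-/

set_option autoImplicit false
set_option linter.unusedSectionVars false
set_option maxSynthPendingDepth 3
noncomputable section
open scoped Manifold ContDiff Topology InnerProductSpace
open MeasureTheory Set Function Filter Real

namespace Crest.Agent.X212.Dec35
open An Sob92 Map77 Mon62 Dgr80
open Ell97 (UB)
open Cyc79 (Wu)

/-! ### smoothing a Lipschitz function -/

theorem b_abs_le (s : ℝ) : b 1 s * |s| ≤ 16 * b (1 / 2) s := by
  have h1 := b_le_exp one_pos s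
  have h2 := b_ge (δ := 1 / 2) (by norm_num) s
  have h3 : |s| ≤ 2 * exp (1 / 2 * |s|) := by linarith [add_one_le_exp (1 / 2 * |s|)]
  have h4 : exp (-(1 * |s|)) * exp (1 / 2 * |s|) = exp (-(1 / 2 * |s|)) := by
    rw [← exp_add]; congr 1; ring
  calc _ ≤ 1 * exp (-(1 * |s|)) * (2 * exp (1 / 2 * |s|)) :=
        mul_le_mul h1 h3 (abs_nonneg _) (by positivity)
    _ ≤ _ := by linarith

theorem smooth_lip {ψ : ℝ → ℝ} {d A : ℝ} (hc : Continuous ψ) (hA : ∀ t, |ψ t| ≤ A) (hd : 0 ≤ d)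
    (hl : ∀ s t, |ψ s - ψ t| ≤ d * |s - t|) : ∃ φ : ℝ → ℝ, ContDiff ℝ ∞ φ ∧ ∀ t,
      |φ t - ψ t| ≤ 16 * d ∧ |deriv φ t| ≤ cb 1 1 * (16 * d) ∧
        |deriv (deriv φ) t| ≤ cb 1 2 * (16 * d) := by
  have w := wi_of_bdd one_pos hc.aestronglyMeasurable hA
  refine ⟨_, w.contDiff_wn one_pos, fun t => ?_⟩
  have w' : WI volume id 1 fun s => ψ s - ψ t := wi_of_bdd one_pos
    (hc.sub continuous_const).aestronglyMeasurable fun s =>
      (abs_sub _ _).trans (add_le_add (hA s) (hA t))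
  have e : wn volume id 1 ψ = fun x => wn volume id 1 (fun s => ψ s - ψ t) x + ψ t := by
    funext x
    have i1 : ∫ s, b 1 (s - x) • ψ t = ψ t := by
      rw [integral_smul_const, integral_sub_right_eq_self (b 1) x, integral_b one_pos, one_smul]
    rw [← i1, wn, wn, i1, ← i1, ← integral_add (by rw [i1]; exact w'.int one_pos x)
      (((integrable_b one_pos).comp_sub_right x).smul_const _), i1]
    exact congrArg _ (funext fun s => by simp only [id, smul_eq_mul]; ring)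
  have h0 : wn volume id 1 (fun s => ‖ψ s - ψ t‖) t ≤ 16 * d := by
    have i2 := ((integrable_b (δ := 1 / 2) (by norm_num)).comp_sub_right t).const_mul (16 * d)
    refine (integral_mono (w'.norm.int one_pos t) i2 fun s => ?_).trans (le_of_eq ?_)
    · have := b_pos one_pos (s - t)
      simp only [id, smul_eq_mul, norm_eq_abs]
      nlinarith [mul_le_mul_of_nonneg_left (hl s t) this.le,
        mul_le_mul_of_nonneg_left (b_abs_le (s - t)) hd]
    · rw [integral_const_mul, integral_sub_right_eq_self (b (1 / 2)) t, integral_b (by norm_num),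
        mul_one]
  have d1 : deriv (wn volume id 1 ψ) = wnd volume id 1 1 fun s => ψ s - ψ t := by
    rw [e]; exact funext fun x => ((w'.hasDerivAt_wn one_pos x).add_const _).deriv
  rw [d1, (w'.hasDerivAt_wnd one_pos 1 t).deriv, e, add_sub_cancel_right]
  exact ⟨(w'.norm_wn_le one_pos t).trans h0, (w'.norm_wnd_le one_pos 1 t).trans
    (mul_le_mul_of_nonneg_left h0 (cb_nonneg _ _)), (w'.norm_wnd_le one_pos 2 t).trans
    (mul_le_mul_of_nonneg_left h0 (cb_nonneg _ _))⟩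

variable {E : Type} [NormedAddCommGroup E] [NormedSpace ℝ E] [FiniteDimensional ℝ E]
  [MeasurableSpace E] [BorelSpace E]
  {HM : Type} [TopologicalSpace HM] {I : ModelWithCorners ℝ E HM} [I.Boundaryless]
  {M : Type} [TopologicalSpace M] [ChartedSpace HM M] [IsManifold I ∞ M] [MeasurableSpace M]
  [T2Space M] [BorelSpace M] [SecondCountableTopology M] {ι : Type} [Fintype ι]
  {lam : Type} [Fintype lam] {B : Base M ι lam} {G : Geo I M ι lam} {C D : ℕ → ℝ} {d : ℝ}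
  {J : Type} {w : J → M → ℝ} (hF : G.F.Tame C) (hw : ∀ i, Wd G.F.toPre (w i) d D)

variable (J) in
/-- a constant family of modules -/
def mf (m : Md M ι lam) : MF M ι lam J := ⟨m.N, m.J, fun _ => m.p, fun _ => m.ρ, fun _ => m.j⟩

variable (B) in
/-- the variations of `c` -/
def cfD (c : Cfg M ι lam 0) (j : ℕ) : CF (wD hF hw (mbd B c.m).pC j) (mf J c.m) 0 :=
  ⟨fun _ _ => G.F, fun _ u => (cf c u.1).W, fun _ u => (cf c u.1).Φ, fun _ _ => c.z⟩

variable {c : Cfg M ι lam 0} {j : ℕ} (hd : (Fintype.card ι : ℝ) * d ^ 2 ≤ 1 / 4)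
include hd

theorem cfD_ok (h : Bs B G c) (hj : 8 ≤ j) : (cfD B hF hw c j).OK False j := by
  have h4 : 4 ≤ j := by omega
  have ff := wD_ff hF hw (p := (mbd B c.m).pC) (j := j)
  have id := (wD_id hF hw (p := (mbd B c.m).pC) h4).aff
  exact ⟨hj, ff, Dm.rb_of_dr fun i _ _ => wD_dr hF hw hd i,
    Dm.rb_of_dr fun i _ _ => wD_dr hF hw hd i,
    Dm.re_of_e ff (fun _ _ => ⟨C, hF⟩) fun _ _ => rfl,
    Dm.re_of_e ff (fun _ _ => ⟨C, hF⟩) fun _ _ => rfl,
    fun a => ((Dm.A0.fixed (wD_ub hF hw (Cb_clm hsL (h.cW a)))).add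
      (id.clm h4 (pj _ a ∘L fa))).congr fun _ u x =>
        (map_add _ _ _).trans (congrArg _ (Wz78.hsL_opL _)),
    fun _ u => (cf_adm h.adm u.2.1.sm u.2.2).conn.sk,
    (Dm.A0.fixed (wD_ub hF hw h.cΦ)).add (id.clm h4 fp), Dm.Sc.const _,
    fun a => wD_ub hF hw (h.dat.ρ a), wD_ub hF hw h.dat.j, wD_ub hF hw (h.dat.pg h.hB h.pmx)⟩

theorem wD_uw {V U : Type} [NormedAddCommGroup V] [InnerProductSpace ℝ V] [FiniteDimensional ℝ V]
    [NormedAddCommGroup U] [InnerProductSpace ℝ U] [FiniteDimensional ℝ U] {p : M → V →L[ℝ] V}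
    (hu : ∃ (U : J → M → ℝ) (c : ℝ), 0 < c ∧ ∀ i, Wu G.F (U i) ∧
      ∀ x, c * U i x ≤ exp (2 * w i x) ∧ c * exp (2 * w i x) ≤ U i x) :
    Nonempty (Cys97.Uw U (wD hF hw p j) fun _ _ => G.F) := by
  classical
  exact ⟨⟨fun _ => G.F, C, w, fun _ _ => 0, fun _ => hF, fun i => (hw i).wp, fun i => (hw i).nn,
    Dm.Lc.fixed (UB.const 0), fun _ _ => Nk89.wm_zero.symm, fun _ _ => ⟨C, hF⟩, fun _ => hF, hu,
    ⟨fun a b _ _ _ => if a = b then 1 else 0, fun _ _ => Dm.Sz.fixed (UB.const _),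
      fun _ _ a x => show G.F.e a x = _ by simp⟩,
    Cys97.ra_of_dr fun i _ _ => wD_dr hF hw hd i, Cys97.ra_of_dr fun _ _ _ => dr_refl G.F⟩⟩

end Crest.Agent.X212.Dec35
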